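import Vale.Agent.P092.H76.DichoB
import Vale.Agent.P092.H859.CLK

/-!
P092 (helper76), Team D / C, block [D0-PUR] (CLJ): the type dichotomy `dicho` in the letters of
helper859's wall limit engine.
-/

set_option linter.all false

open scoped InnerProductSpace Pointwise
open Filter Topology ContinuousLinearMap

namespace Vale.Agent.P092.H76.Dicho

open Vale.Agent.P092.H859.CL hiding cfc
open Vale.Agent.P092.H553 (ind ind_nonneg ind_le_one abs_ind_le ind_pos ind_neg)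
open Vale.Agent.P092.H76.Pur

/-- Asymptotic commutation of multiplication operators by functions with negligible right
differences, in the weak form along `l`. -/
def LU {Γ D K : Type} [Group Γ] [Group D] [NormedAddCommGroup K] [InnerProductSpace ℂ K]
    (mp : (Γ → ℝ) → (K →L[ℂ] K)) (R : D → (K →L[ℂ] K)) (G1 G2 : Γ → ℝ) (l : Filter D) : Prop :=
  ∀ (F : Γ → ℂ) (C : ℝ), (∀ g, ‖F g‖ ≤ C) → (∀ u, Neg G1 G2 (fun g => F (g * u) - F g)) →
    ∀ v ξ η, Tendsto (fun w => ⟪R w η, (R v * mc mp F - mc mp F * R v) (R w ξ)⟫_ℂ) l (𝓝 0)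

section dicho

variable {Γ D K Y : Type} [Group Γ] [Group D] [NormedAddCommGroup K] [InnerProductSpace ℂ K]
  [CompleteSpace K] {mp : (Γ → ℝ) → (K →L[ℂ] K)} {Bd : Set K}
  {ms : D → Set Γ → ℝ} {A : Subgroup D} {G1 G2 : Γ → ℝ} {bp : Γ → Y} {l : Filter D}
  {W : Set (K →L[ℂ] K)} {Q Q' : Set D} {Ω : K}
  [TopologicalSpace Y] [CompactSpace Y] [MulAction Γ Y] [TopologicalSpace D]

/-- Commutation with the elements commuting with the wall element. -/
theorem asy_comm {R : D → (K →L[ℂ] K)} (h : SysF mp R Bd ms A G1 G2) (hG : GeoF G1 G2 bp)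
    (hLU : LU mp R G1 G2 l) {v : D} (hv : ∀ᶠ w in l, Commute w v) (f : C(Y, ℂ)) (ξ η : K) :
    Tendsto (fun w => ⟪η, (PC mp R w (H859.CL.cfc G1 G2 bp f) * R v -
      R v * PC mp R w (H859.CL.cfc G1 G2 bp f)) ξ⟫_ℂ) l (𝓝 0) := by
  have h1 := (hLU (H859.CL.cfc G1 G2 bp f) ‖f‖ (cfc_norm fun y => f.norm_coe_le_norm y)
    (fun u => neg_right hG u f) v ξ η).neg
  rw [neg_zero] at h1
  refine h1.congr' ?_
  filter_upwards [hv] with w hw
  have a1 : ∀ x, R v (R w x) = R w (R v x) := fun x => by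
    rw [← mul_ap', ← mul_ap', ← h.sys.rep.mul, ← h.sys.rep.mul, hw.eq]
  have a2 : ∀ x, R v (R w⁻¹ x) = R w⁻¹ (R v x) := fun x => by
    rw [← mul_ap', ← mul_ap', ← h.sys.rep.mul, ← h.sys.rep.mul, hw.inv_left.eq]
  rw [sub_apply, sub_apply, mul_ap', mul_ap', mul_ap', mul_ap', PC_ap, PC_ap, a1, a2,
    inner_sub_right, inner_sub_right, h.sys.rep.inner_left, h.sys.rep.inner_left, neg_sub]

/-- Commutation with `Q`. -/
theorem asy_par {R : D → (K →L[ℂ] K)} (h : SysF mp R Bd ms A G1 G2) (hG : GeoF G1 G2 bp)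
    (hS : Slow mp R Bd) (hLU : LU mp R G1 G2 l) {n : D}
    (hn : Tendsto (fun w => w * n * w⁻¹) l (𝓝 1) ∨ ∀ᶠ w in l, Commute w n) (f : C(Y, ℂ))
    (ξ η : K) :
    Tendsto (fun w => ⟪η, (PC mp R w (H859.CL.cfc G1 G2 bp f) * R n -
      R n * PC mp R w (H859.CL.cfc G1 G2 bp f)) ξ⟫_ℂ) l (𝓝 0) := by
  rcases hn with hn | hn
  · have h1 := asy_slow h hS hn (F := H859.CL.cfc G1 G2 bp f)
      (cfc_norm fun y => f.norm_coe_le_norm y) ξ
    have h3 := (tendsto_const_nhds (x := η)).inner (𝕜 := ℂ) h1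
    rw [inner_zero_right] at h3
    exact h3
  · exact asy_comm h hG hLU hn f ξ η

variable {π : D →* (K →L[ℂ] K)} {lam : Γ →* (K →L[ℂ] K)}

/-- **[D0-PUR] = CLJ: the type dichotomy.** Along `l` the type is `(G1, G2)` and along the inverse
it is `(G2, G1)`, or the other way round. -/
theorem dicho (h : SysF mp π Bd ms A G1 G2) (hG : GeoF G1 G2 bp) (hL : Leg mp π lam W)
    (hS : Slow mp π Bd) (he : Esc (st mp) π Bd A l) (he' : Esc (st mp) π Bd A (l.map (·⁻¹)))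
    (hLU : LU mp π G1 G2 l) (hLU' : LU mp π G1 G2 (l.map (·⁻¹)))
    (hsy : Sym mp π Ω) {C : ℝ} (hC : ∀ g, |G1 g⁻¹ - G2 g| ≤ C ∧ |G2 g⁻¹ - G1 g| ≤ C)
    (hΩ : ‖Ω‖ = 1) (hNI : NIS (fun (γ : Γ) (y : Y) => γ • y)) (hinv : Inv π lam W Ω)
    (hQ : ∀ n ∈ Q, Tendsto (fun w => w * n * w⁻¹) l (𝓝 1) ∨ ∀ᶠ w in l, Commute w n)
    (hQ' : ∀ n ∈ Q', Tendsto (fun w => w⁻¹ * n * w) l (𝓝 1) ∨ ∀ᶠ w in l, Commute w n)
    (hcl : Subgroup.closure (Q ∪ Q') = ⊤) (herg : Erg π lam W Q) (herg' : Erg π lam W Q') :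
    (Full (st mp) π G1 G2 l ∧ Full (st mp) π G2 G1 (l.map (·⁻¹))) ∨
      (Full (st mp) π G2 G1 l ∧ Full (st mp) π G1 G2 (l.map (·⁻¹))) := by
  refine dicho_asy h hG he he' hsy hC hΩ hNI hinv hcl herg herg'
    (fun l' hl' s f f' hff ξ => asy_cov h hG hL hl' s hff ξ)
    (fun a ha w f => PC_W hL h.fn h.sys.rep ha (cfc_norm fun y => f.norm_coe_le_norm y) w)
    (fun n hn f ξ η => asy_par h hG hS hLU (hQ n hn) f ξ η)
    (fun n hn f ξ η => asy_par h hG hS hLU' ?_ f ξ η)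
  rcases hQ' n hn with h1 | h1
  · left
    rw [tendsto_map'_iff]
    refine h1.congr fun w => ?_
    simp only [Function.comp_apply, inv_inv]
  · right
    rw [eventually_map]
    filter_upwards [h1] with w hw
    exact hw.inv_left

/-- The type dichotomy along the powers of an element. -/
theorem dicho_pow {b : D} (h : SysF mp π Bd ms A G1 G2) (hG : GeoF G1 G2 bp)
    (hL : Leg mp π lam W) (hS : Slow mp π Bd)
    (he : Esc (st mp) π Bd A (map (fun n : ℕ => b ^ n) atTop))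
    (he' : Esc (st mp) π Bd A (map (fun n : ℕ => b⁻¹ ^ n) atTop))
    (hLU : LU mp π G1 G2 (map (fun n : ℕ => b ^ n) atTop))
    (hLU' : LU mp π G1 G2 (map (fun n : ℕ => b⁻¹ ^ n) atTop))
    (hsy : Sym mp π Ω) {C : ℝ} (hC : ∀ g, |G1 g⁻¹ - G2 g| ≤ C ∧ |G2 g⁻¹ - G1 g| ≤ C)
    (hΩ : ‖Ω‖ = 1) (hNI : NIS (fun (γ : Γ) (y : Y) => γ • y)) (hinv : Inv π lam W Ω)
    (hQ : ∀ n ∈ Q, Tendsto (fun i : ℕ => b ^ i * n * (b ^ i)⁻¹) atTop (𝓝 1) ∨ Commute b n)
    (hQ' : ∀ n ∈ Q', Tendsto (fun i : ℕ => (b ^ i)⁻¹ * n * b ^ i) atTop (𝓝 1) ∨ Commute b n)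
    (hcl : Subgroup.closure (Q ∪ Q') = ⊤) (herg : Erg π lam W Q) (herg' : Erg π lam W Q') :
    (Full (st mp) π G1 G2 (map (fun n : ℕ => b ^ n) atTop) ∧
        Full (st mp) π G2 G1 (map (fun n : ℕ => b⁻¹ ^ n) atTop)) ∨
      (Full (st mp) π G2 G1 (map (fun n : ℕ => b ^ n) atTop) ∧
        Full (st mp) π G1 G2 (map (fun n : ℕ => b⁻¹ ^ n) atTop)) := by
  have e : (map (fun n : ℕ => b ^ n) atTop).map (·⁻¹) = map (fun n : ℕ => b⁻¹ ^ n) atTop := by
    rw [Filter.map_map]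
    congr 1
    funext n
    simp only [Function.comp_apply, inv_pow]
  have h1 := dicho (l := map (fun n : ℕ => b ^ n) atTop) h hG hL hS he (e ▸ he') hLU (e ▸ hLU')
    hsy hC hΩ hNI hinv (fun n hn => ?_) (fun n hn => ?_) hcl herg herg'
  · rw [e] at h1
    exact h1
  · rcases hQ n hn with h2 | h2
    · exact Or.inl (tendsto_map'_iff.2 h2)
    · exact Or.inr (eventually_map.2 (Eventually.of_forall fun i => h2.pow_left i))
  · rcases hQ' n hn with h2 | h2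
    · exact Or.inl (tendsto_map'_iff.2 h2)
    · exact Or.inr (eventually_map.2 (Eventually.of_forall fun i => h2.pow_left i))

end dicho

end Vale.Agent.P092.H76.Dicho
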