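import Vale.Agent.P092.H76.NoInvP

/-!
P092 (helper76), Team D, block [D-NI]: a lattice of `SL_n(k)`, `k` a local field, `n ≥ 2`, has no
invariant state on the continuous functions on the projective space.
-/

set_option linter.all false

open MeasureTheory Topology Filter Set
open scoped Pointwise LinearAlgebra.Projectivization Matrix

namespace Vale.Agent.P092.H76.NI

section abs

variable {E X : Type*} [Group E] [TopologicalSpace E] [IsTopologicalGroup E] [MulAction E X]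
  [TopologicalSpace X] [CompactSpace X] [ContinuousSMul E X]

/-- `x ↦ f (g x)` -/
def cmp (g : E) (f : C(X, ℝ)) : C(X, ℝ) := ⟨fun x => f (g • x), by fun_prop⟩

@[simp] theorem cmp_apply (g : E) (f : C(X, ℝ)) (x : X) : cmp g f x = f (g • x) := rfl

theorem cmp_mul (g h : E) (f : C(X, ℝ)) : cmp (g * h) f = cmp h (cmp g f) := by
  ext x
  simp [mul_smul]

theorem cmp_one (f : C(X, ℝ)) : cmp (1 : E) f = f := by
  ext x
  simp

theorem continuous_cmp (f : C(X, ℝ)) : Continuous fun g : E => cmp g f := by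
  have h : Continuous fun p : E × X => f (p.1 • p.2) := by fun_prop
  exact (ContinuousMap.curry ⟨_, h⟩).continuous

/-- A positive functional. -/
structure PF (φ : C(X, ℝ) →ₗ[ℝ] ℝ) : Prop where
  nonneg : ∀ f, 0 ≤ f → 0 ≤ φ f
  one : φ 1 = 1

theorem PF.mono {φ : C(X, ℝ) →ₗ[ℝ] ℝ} (h : PF φ) {f g : C(X, ℝ)} (hfg : f ≤ g) : φ f ≤ φ g := by
  have h1 := h.nonneg (g - f) (sub_nonneg.2 hfg)
  rw [map_sub] at h1
  linarith

theorem PF.abs_le {φ : C(X, ℝ) →ₗ[ℝ] ℝ} (h : PF φ) (f : C(X, ℝ)) : |φ f| ≤ ‖f‖ := by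
  have h1 : φ f ≤ φ (‖f‖ • 1) := h.mono fun x => by
    have := f.norm_coe_le_norm x
    rw [Real.norm_eq_abs] at this
    simpa using (le_abs_self _).trans this
  have h2 : φ (-(‖f‖ • 1)) ≤ φ f := h.mono (ContinuousMap.le_def.2 fun x => by
    have := f.norm_coe_le_norm x
    rw [Real.norm_eq_abs] at this
    have h3 := (neg_le_abs _).trans this
    simp only [ContinuousMap.neg_apply, ContinuousMap.smul_apply, ContinuousMap.one_apply,
      smul_eq_mul, mul_one]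
    linarith)
  rw [map_neg, map_smul, h.one, smul_eq_mul, mul_one] at h2
  rw [map_smul, h.one, smul_eq_mul, mul_one] at h1
  exact _root_.abs_le.2 ⟨h2, h1⟩

theorem PF.continuous {φ : C(X, ℝ) →ₗ[ℝ] ℝ} (h : PF φ) : Continuous φ := by
  refine (φ.mkContinuous 1 fun f => ?_).continuous
  rw [one_mul, Real.norm_eq_abs]
  exact h.abs_le f

/-- `gΓ ↦ φ (f ∘ g)` -/
noncomputable def GU (Γ : Subgroup E) (φ : C(X, ℝ) →ₗ[ℝ] ℝ)
    (hinv : ∀ γ ∈ Γ, ∀ f, φ (cmp γ f) = φ f) (f : C(X, ℝ)) : E ⧸ Γ → ℝ :=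
  Quotient.lift (fun g : E => φ (cmp g f)) (by
    intro a b hab
    have h1 : a⁻¹ * b ∈ Γ := QuotientGroup.leftRel_apply.1 hab
    have h2 := hinv _ h1 (cmp a f)
    rw [← cmp_mul, mul_inv_cancel_left] at h2
    exact h2.symm)

theorem GU_mk {Γ : Subgroup E} {φ : C(X, ℝ) →ₗ[ℝ] ℝ}
    (hinv : ∀ γ ∈ Γ, ∀ f, φ (cmp γ f) = φ f) (f : C(X, ℝ)) (g : E) :
    GU Γ φ hinv f (g : E ⧸ Γ) = φ (cmp g f) := rfl

theorem GU_cont {Γ : Subgroup E} {φ : C(X, ℝ) →ₗ[ℝ] ℝ} (hφ : PF φ)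
    (hinv : ∀ γ ∈ Γ, ∀ f, φ (cmp γ f) = φ f) (f : C(X, ℝ)) : Continuous (GU Γ φ hinv f) := by
  refine (QuotientGroup.isQuotientMap_mk (N := Γ)).continuous_iff.2 ?_
  exact hφ.continuous.comp (continuous_cmp f)

/-- **No invariant state**: every point has a neighbourhood with infinitely many disjoint
translates. -/
theorem no_inv_cont {E X : Type*} [Group E] [TopologicalSpace E] [IsTopologicalGroup E]
    [MulAction E X] [TopologicalSpace X] [CompactSpace X] [T2Space X] [ContinuousSMul E X]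
    (Γ : Subgroup E) (ν : @Measure (E ⧸ Γ) (borel (E ⧸ Γ))) (hν0 : ν ≠ 0) (hνf : ν univ < ⊤)
    (hν : ∀ g : E, ∀ s : Set (E ⧸ Γ), MeasurableSet[borel (E ⧸ Γ)] s →
      ν ((fun x => g • x) ⁻¹' s) = ν s)
    (hw : ∀ x : X, ∃ U : Set X, IsOpen U ∧ x ∈ U ∧ ∃ a : ℕ → E,
      ∀ i j, i ≠ j → ∀ y, a i • y ∈ U → a j • y ∉ U)
    (φ : C(X, ℝ) →ₗ[ℝ] ℝ) (hφ : PF φ) (hinv : ∀ γ ∈ Γ, ∀ f, φ (cmp γ f) = φ f) : False := by
  classical
  let _ : MeasurableSpace (E ⧸ Γ) := borel _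
  have : BorelSpace (E ⧸ Γ) := ⟨rfl⟩
  have : IsFiniteMeasure ν := ⟨hνf⟩
  have hi : ∀ f, Integrable (GU Γ φ hinv f) ν := by
    intro f
    refine Integrable.of_bound (GU_cont hφ hinv f).aestronglyMeasurable ‖f‖
      (Eventually.of_forall fun x => ?_)
    induction x using QuotientGroup.induction_on with
    | H g =>
      rw [GU_mk, Real.norm_eq_abs]
      refine (hφ.abs_le _).trans ?_
      refine (ContinuousMap.norm_le _ (norm_nonneg _)).2 fun x => ?_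
      exact f.norm_coe_le_norm _
  obtain ⟨m, hm⟩ : ∃ m : C(X, ℝ) → ℝ, m = fun f => ∫ x, GU Γ φ hinv f x ∂ν := ⟨_, rfl⟩
  have hadd : ∀ f g, m (f + g) = m f + m g := by
    intro f g
    rw [hm]
    change ∫ x, _ ∂ν = ∫ x, _ ∂ν + ∫ x, _ ∂ν
    rw [← integral_add (hi f) (hi g)]
    refine integral_congr_ae (Eventually.of_forall fun x => ?_)
    induction x using QuotientGroup.induction_on with
    | H h =>
      simp only [GU_mk, Pi.add_apply]
      rw [← map_add]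
      rfl
  have hmono : ∀ f g : C(X, ℝ), f ≤ g → m f ≤ m g := by
    intro f g hfg
    rw [hm]
    refine integral_mono (hi f) (hi g) fun x => ?_
    induction x using QuotientGroup.induction_on with
    | H h =>
      rw [GU_mk, GU_mk]
      exact hφ.mono fun x => hfg _
  have hzero : m 0 = 0 := by
    have := hadd 0 0
    rw [add_zero] at this
    linarith
  have hnn : ∀ f : C(X, ℝ), 0 ≤ f → 0 ≤ m f := fun f hf => by
    rw [← hzero]
    exact hmono _ _ hf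
  have hsum : ∀ (s : Finset ℕ) (F : ℕ → C(X, ℝ)), m (∑ i ∈ s, F i) = ∑ i ∈ s, m (F i) := by
    intro s F
    induction s using Finset.induction_on with
    | empty => simpa using hzero
    | insert a s ha ih => rw [Finset.sum_insert ha, Finset.sum_insert ha, hadd, ih]
  have hsum' : ∀ (s : Finset X) (F : X → C(X, ℝ)), m (∑ i ∈ s, F i) = ∑ i ∈ s, m (F i) := by
    intro s F
    induction s using Finset.induction_on with
    | empty => simpa using hzero
    | insert a s ha ih => rw [Finset.sum_insert ha, Finset.sum_insert ha, hadd, ih]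
  have hsmul : ∀ (c : ℝ) f, m (c • f) = c * m f := by
    intro c f
    rw [hm]
    change ∫ x, _ ∂ν = c * ∫ x, _ ∂ν
    rw [← integral_const_mul]
    refine integral_congr_ae (Eventually.of_forall fun x => ?_)
    induction x using QuotientGroup.induction_on with
    | H h =>
      simp only [GU_mk]
      rw [← smul_eq_mul, ← map_smul]
      rfl
  have hpos : 0 < m 1 := by
    have e : m 1 = ν.real univ := by
      rw [hm]
      have : ∀ x, GU Γ φ hinv 1 x = 1 := fun x => by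
        induction x using QuotientGroup.induction_on with
        | H h =>
          rw [GU_mk]
          exact hφ.one
      simp only [this, integral_const, smul_eq_mul, mul_one]
    rw [e]
    exact ENNReal.toReal_pos (fun h => hν0 (Measure.measure_univ_eq_zero.1 h)) hνf.ne
  have hg : ∀ (g : E) f, m (cmp g f) = m f := by
    intro g f
    have hmp : MeasurePreserving (fun x : E ⧸ Γ => g • x) ν ν := by
      refine ⟨(continuous_const_smul g).measurable, ?_⟩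
      ext s hs
      rw [Measure.map_apply (continuous_const_smul g).measurable hs]
      exact hν g s hs
    have e : ∀ x, GU Γ φ hinv (cmp g f) x = GU Γ φ hinv f (g • x) := fun x => by
      induction x using QuotientGroup.induction_on with
      | H h =>
        rw [GU_mk]
        change _ = φ (cmp (g * h) f)
        rw [cmp_mul]
    rw [hm]
    change ∫ x, GU Γ φ hinv (cmp g f) x ∂ν = ∫ x, GU Γ φ hinv f x ∂ν
    simp only [e]
    have hcm : AEStronglyMeasurable (GU Γ φ hinv f) (Measure.map (fun x : E ⧸ Γ => g • x) ν) := by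
      exact (GU_cont hφ hinv f).aestronglyMeasurable
    have := integral_map (hmp.measurable.aemeasurable) hcm
    rw [hmp.map_eq] at this
    exact this.symm
  -- functions with infinitely many disjoint translates
  have hdis : ∀ (f : C(X, ℝ)) (a : ℕ → E), 0 ≤ f → f ≤ 1 →
      (∀ i j, i ≠ j → ∀ y, f (a i • y) ≠ 0 → f (a j • y) = 0) → m f = 0 := by
    intro f a h0 h1 hd
    have hle : ∀ N : ℕ, (N : ℝ) * m f ≤ m 1 := by
      intro N
      have h2 : ∑ i ∈ Finset.range N, cmp (a i) f ≤ 1 := by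
        refine ContinuousMap.le_def.2 fun y => ?_
        rw [ContinuousMap.coe_sum, Finset.sum_apply]
        simp only [cmp_apply, ContinuousMap.one_apply]
        by_cases hy : ∃ i ∈ Finset.range N, f (a i • y) ≠ 0
        · obtain ⟨i, hiN, hiy⟩ := hy
          rw [Finset.sum_eq_single i (fun j _ hj => hd i j hj.symm y hiy) (fun h => absurd hiN h)]
          exact h1 _
        · push Not at hy
          rw [Finset.sum_eq_zero hy]
          exact zero_le_one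
      have h3 := hmono _ _ h2
      rw [hsum] at h3
      simp only [hg, Finset.sum_const, Finset.card_range, nsmul_eq_mul] at h3
      exact h3
    have hf0 := hnn f h0
    by_contra hne
    have hfp : 0 < m f := lt_of_le_of_ne hf0 (Ne.symm hne)
    obtain ⟨N, hN⟩ := exists_nat_gt (m 1 / m f)
    have := hle N
    rw [div_lt_iff₀ hfp] at hN
    linarith
  -- local bumps
  have hb : ∀ x : X, ∃ f : C(X, ℝ), 0 ≤ f ∧ m f = 0 ∧ f x = 1 := by
    intro x
    obtain ⟨U, hU, hx, a, ha⟩ := hw x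
    have hxU : Disjoint Uᶜ {x} := by
      rw [disjoint_singleton_right]
      exact fun h => h hx
    obtain ⟨f, hf0, hf1, hf2⟩ := exists_continuous_zero_one_of_isClosed hU.isClosed_compl
      isClosed_singleton hxU
    refine ⟨f, fun y => (hf2 y).1, hdis f a (fun y => (hf2 y).1) (fun y => (hf2 y).2) ?_,
      hf1 (mem_singleton x)⟩
    intro i j hij y hy
    have h1 : a i • y ∈ U := by
      by_contra hn
      exact hy (hf0 hn)
    exact hf0 (ha i j hij y h1)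
  choose f hf0 hfm hf1 using hb
  have hopen : ∀ x : X, {y | 1 / 2 < f x y} ∈ 𝓝 x := fun x => by
    refine (isOpen_lt continuous_const (f x).continuous).mem_nhds ?_
    change 1 / 2 < f x x
    rw [hf1]
    norm_num
  obtain ⟨s, -, hs⟩ := isCompact_univ.elim_nhds_subcover (fun x => {y | 1 / 2 < f x y})
    fun x _ => hopen x
  have hle : (1 : C(X, ℝ)) ≤ (2 : ℝ) • ∑ x ∈ s, f x := by
    refine ContinuousMap.le_def.2 fun y => ?_
    obtain ⟨x, hxs, hxy⟩ := mem_iUnion₂.1 (hs (mem_univ y))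
    rw [ContinuousMap.smul_apply, ContinuousMap.coe_sum, Finset.sum_apply, smul_eq_mul]
    have h1 : f x y ≤ ∑ z ∈ s, f z y := Finset.single_le_sum (fun z _ => hf0 z y) hxs
    have h2 : 1 / 2 < f x y := hxy
    simp only [ContinuousMap.one_apply]
    linarith
  have h1 := hmono _ _ hle
  rw [hsmul, hsum'] at h1
  simp only [hfm, Finset.sum_const_zero, mul_zero] at h1
  linarith

end abs

section pn

open Vale.Agent.P092.H820

variable {k : Type*} [NontriviallyNormedField k] {ι : Type*} [Fintype ι] [DecidableEq ι]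

/-- comparable coordinates -/
def Bx (k : Type*) [NontriviallyNormedField k] {ι : Type*} (i j : ι) : Set (ℙ k (ι → k)) :=
  {x | ‖x.rep i‖ < 2 * ‖x.rep j‖ ∧ ‖x.rep j‖ < 2 * ‖x.rep i‖}

omit [Fintype ι] [DecidableEq ι] in
theorem mem_Bx (i j : ι) (v : {v : ι → k // v ≠ 0}) :
    pj k ι v ∈ Bx k i j ↔ ‖v.1 i‖ < 2 * ‖v.1 j‖ ∧ ‖v.1 j‖ < 2 * ‖v.1 i‖ := by
  obtain ⟨c, hc⟩ := Projectivization.exists_smul_eq_mk_rep k v.1 v.2
  have h1 : (pj k ι v).rep = c • v.1 := hc.symm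
  have hc0 : 0 < ‖(c : k)‖ := norm_pos_iff.2 c.ne_zero
  have h2 : ∀ j, ‖(pj k ι v).rep j‖ = ‖(c : k)‖ * ‖v.1 j‖ := fun j => by
    rw [h1]
    change ‖(c : k) • v.1 j‖ = _
    rw [norm_smul]
  change (‖(pj k ι v).rep i‖ < 2 * ‖(pj k ι v).rep j‖ ∧
    ‖(pj k ι v).rep j‖ < 2 * ‖(pj k ι v).rep i‖) ↔ _
  rw [h2, h2, mul_left_comm, mul_left_comm 2, mul_lt_mul_iff_right₀ hc0,
    mul_lt_mul_iff_right₀ hc0]

omit [DecidableEq ι] in
theorem open_Bx (i j : ι) : IsOpen (Bx k i j : Set (ℙ k (ι → k))) := by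
  have hcoord : ∀ j : ι, Continuous fun v : {v : ι → k // v ≠ 0} => v.1 j := fun j =>
    (continuous_apply j).comp continuous_subtype_val
  have e : pj k ι ⁻¹' (Bx k i j) = {v : {v : ι → k // v ≠ 0} | ‖v.1 i‖ < 2 * ‖v.1 j‖} ∩
      {v : {v : ι → k // v ≠ 0} | ‖v.1 j‖ < 2 * ‖v.1 i‖} := by
    ext v
    exact mem_Bx i j v
  rw [← (pj_oq (k := k) (ι := ι)).isQuotientMap.isOpen_preimage, e]
  exact (isOpen_lt (hcoord i).norm ((hcoord j).norm.const_mul 2)).inter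
    (isOpen_lt (hcoord j).norm ((hcoord i).norm.const_mul 2))

/-- two coordinates can be made equal and nonzero -/
theorem exists_Bx {i j : ι} (hij : i ≠ j) (v : {v : ι → k // v ≠ 0}) :
    ∃ g : Matrix.SpecialLinearGroup ι k, g • pj k ι v ∈ Bx k i j := by
  obtain ⟨l, hl⟩ : ∃ l, v.1 l ≠ 0 := by
    by_contra hn
    push Not at hn
    exact v.2 (funext hn)
  obtain ⟨g, hg⟩ : ∃ g : Matrix.SpecialLinearGroup ι k, (g • v.1) i ≠ 0 := by
    by_cases hi : i = l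
    · exact ⟨1, by rwa [one_smul, hi]⟩
    · refine ⟨tv i l ((v.1 l - v.1 i) / v.1 l), ?_⟩
      rw [tv_smul hi, if_pos rfl, div_mul_cancel₀ _ hl, add_sub_cancel]
      exact hl
  refine ⟨tv j i (((g • v.1) i - (g • v.1) j) / (g • v.1) i) * g, ?_⟩
  rw [mul_smul, smul_pj, smul_pj, mem_Bx]
  have h1 : (tv j i (((g • v.1) i - (g • v.1) j) / (g • v.1) i) • (g • v.1)) i =
      (g • v.1) i := by
    rw [tv_smul hij.symm, if_neg hij]
  have h2 : (tv j i (((g • v.1) i - (g • v.1) j) / (g • v.1) i) • (g • v.1)) j =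
      (g • v.1) i := by
    rw [tv_smul hij.symm, if_pos rfl, div_mul_cancel₀ _ hg, add_sub_cancel]
  have h3 : 0 < ‖(g • v.1) i‖ := norm_pos_iff.2 hg
  constructor
  · change ‖(tv j i (((g • v.1) i - (g • v.1) j) / (g • v.1) i) • (g • v.1)) i‖ <
      2 * ‖(tv j i (((g • v.1) i - (g • v.1) j) / (g • v.1) i) • (g • v.1)) j‖
    rw [h1, h2]
    linarith
  · change ‖(tv j i (((g • v.1) i - (g • v.1) j) / (g • v.1) i) • (g • v.1)) j‖ <
      2 * ‖(tv j i (((g • v.1) i - (g • v.1) j) / (g • v.1) i) • (g • v.1)) i‖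
    rw [h1, h2]
    linarith

/-- **[D-NI]**, real functions -/
theorem no_inv_C [ProperSpace k] {i j : ι} (hij : i ≠ j)
    (Γ : Subgroup (Matrix.SpecialLinearGroup ι k))
    (hΓ : ∃ ν : @Measure (Matrix.SpecialLinearGroup ι k ⧸ Γ)
      (borel (Matrix.SpecialLinearGroup ι k ⧸ Γ)), ν ≠ 0 ∧ ν Set.univ < ⊤ ∧
      ∀ g : Matrix.SpecialLinearGroup ι k, ∀ s : Set (Matrix.SpecialLinearGroup ι k ⧸ Γ),
      MeasurableSet[borel (Matrix.SpecialLinearGroup ι k ⧸ Γ)] s →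
      ν ((fun x => g • x) ⁻¹' s) = ν s)
    (φ : C(ℙ k (ι → k), ℝ) →ₗ[ℝ] ℝ) (hφ : PF φ) (hinv : ∀ γ ∈ Γ, ∀ f, φ (cmp γ f) = φ f) :
    False := by
  classical
  obtain ⟨ν, hν0, hνf, hν⟩ := hΓ
  obtain ⟨r, hr0, hr1⟩ := NormedField.exists_norm_lt k (r := 1 / 2) (by norm_num)
  let r' : kˣ := Units.mk0 r (norm_pos_iff.1 hr0)
  have hrr : ((r' : kˣ) : k) = r := rfl
  have hri : ((r'⁻¹ : kˣ) : k) = r⁻¹ := by simp [r']
  refine no_inv_cont Γ ν hν0 hνf hν (fun x => ?_) φ hφ hinv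
  obtain ⟨v, rfl⟩ := pj_surj x
  obtain ⟨g, hg⟩ := exists_Bx hij v
  refine ⟨(fun x => g • x) ⁻¹' Bx k i j, (open_Bx i j).preimage (continuous_const_smul g), hg,
    fun m => g⁻¹ * dg i j r' ^ m, ?_⟩
  -- the powers of the diagonal element
  have hpow : ∀ (m : ℕ) (w : ι → k), (dg i j r' ^ m • w) i = r⁻¹ ^ m * w i ∧
      (dg i j r' ^ m • w) j = r ^ m * w j := by
    intro m
    induction m with
    | zero => intro w; simp
    | succ m ih =>
      intro w
      rw [pow_succ, mul_smul, (ih _).1, (ih _).2, dg_smul hij, dg_smul hij, if_pos rfl,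
        if_neg hij.symm, if_pos rfl, hri, hrr, pow_succ, pow_succ]
      exact ⟨by ring, by ring⟩
  have key : ∀ (m : ℕ) (w : {v : ι → k // v ≠ 0}),
      (g⁻¹ * dg i j r' ^ m) • pj k ι w ∈ (fun x => g • x) ⁻¹' Bx k i j →
      ‖w.1 i‖ < 2 * (‖r‖ ^ 2) ^ m * ‖w.1 j‖ ∧ (‖r‖ ^ 2) ^ m * ‖w.1 j‖ < 2 * ‖w.1 i‖ := by
    intro m w hw
    change g • ((g⁻¹ * dg i j r' ^ m) • pj k ι w) ∈ Bx k i j at hw
    rw [smul_smul, mul_inv_cancel_left, smul_pj, mem_Bx] at hw
    obtain ⟨h1, h2⟩ := hw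
    change ‖(dg i j r' ^ m • w.1) i‖ < 2 * ‖(dg i j r' ^ m • w.1) j‖ at h1
    change ‖(dg i j r' ^ m • w.1) j‖ < 2 * ‖(dg i j r' ^ m • w.1) i‖ at h2
    rw [(hpow m w.1).1, (hpow m w.1).2, norm_mul, norm_mul, norm_pow, norm_pow, norm_inv] at h1 h2
    have h3 : 0 < ‖r‖ ^ m := by positivity
    have h4 : ‖r‖⁻¹ ^ m * ‖r‖ ^ m = 1 := by
      rw [← mul_pow, inv_mul_cancel₀ hr0.ne', one_pow]
    constructor
    · have h5 := mul_lt_mul_of_pos_right h1 h3
      calc ‖w.1 i‖ = ‖r‖⁻¹ ^ m * ‖r‖ ^ m * ‖w.1 i‖ := by rw [h4, one_mul]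
        _ = ‖r‖⁻¹ ^ m * ‖w.1 i‖ * ‖r‖ ^ m := by ring
        _ < _ := h5
        _ = _ := by rw [← pow_mul, mul_comm 2 m, pow_mul, sq]; ring
    · have h5 := mul_lt_mul_of_pos_right h2 h3
      calc (‖r‖ ^ 2) ^ m * ‖w.1 j‖ = ‖r‖ ^ m * ‖w.1 j‖ * ‖r‖ ^ m := by
            rw [← pow_mul, mul_comm 2 m, pow_mul, sq]; ring
        _ < _ := h5
        _ = 2 * ((‖r‖⁻¹ ^ m * ‖r‖ ^ m) * ‖w.1 i‖) := by ring
        _ = _ := by rw [h4, one_mul]
  have hlt : ∀ m n : ℕ, m < n → ∀ w : {v : ι → k // v ≠ 0},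
      ‖w.1 i‖ < 2 * (‖r‖ ^ 2) ^ n * ‖w.1 j‖ → (‖r‖ ^ 2) ^ m * ‖w.1 j‖ < 2 * ‖w.1 i‖ → False := by
    intro m n hmn w h1 h2
    have h3 : (‖r‖ ^ 2) ^ n ≤ (‖r‖ ^ 2) ^ (m + 1) :=
      pow_le_pow_of_le_one (by positivity) (by nlinarith [norm_nonneg r]) hmn
    have h4 : ‖r‖ ^ 2 < 1 / 4 := by nlinarith [norm_nonneg r]
    have h5 : 0 ≤ ‖w.1 j‖ := norm_nonneg _
    have h6 : 0 < (‖r‖ ^ 2) ^ m := by positivity
    have h7 : 2 * (‖r‖ ^ 2) ^ n * ‖w.1 j‖ ≤ 2 * (‖r‖ ^ 2) ^ (m + 1) * ‖w.1 j‖ := by gcongr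
    have h8 : 2 * (‖r‖ ^ 2) ^ (m + 1) * ‖w.1 j‖ ≤ 2 * ((‖r‖ ^ 2) ^ m * (1 / 4)) * ‖w.1 j‖ := by
      rw [pow_succ]
      gcongr
    have h9 : 2 * ((‖r‖ ^ 2) ^ m * (1 / 4)) * ‖w.1 j‖ = (‖r‖ ^ 2) ^ m * ‖w.1 j‖ / 2 := by ring
    linarith
  intro m n hmn y hm hn
  obtain ⟨w, rfl⟩ := pj_surj y
  obtain ⟨a1, a2⟩ := key m w hm
  obtain ⟨b1, b2⟩ := key n w hn
  rcases lt_or_gt_of_ne hmn with h | h
  · exact hlt m n h w b1 a2
  · exact hlt n m h w a1 b2

end pn

section cplx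

variable {X : Type*} [TopologicalSpace X]

/-- A real function as a complex one. -/
def toC : C(X, ℝ) →ₗ[ℝ] C(X, ℂ) where
  toFun f := ⟨fun x => (f x : ℂ), Complex.continuous_ofReal.comp f.continuous⟩
  map_add' f g := by ext x; simp
  map_smul' c f := by ext x; simp

@[simp] theorem toC_apply (f : C(X, ℝ)) (x : X) : toC f x = (f x : ℂ) := rfl

/-- The real functional of a state. -/
noncomputable def rePF (φ : C(X, ℂ) →ₗ[ℂ] ℂ) : C(X, ℝ) →ₗ[ℝ] ℝ :=
  (Complex.reLm.comp (φ.restrictScalars ℝ)).comp toC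

theorem rePF_apply (φ : C(X, ℂ) →ₗ[ℂ] ℂ) (f : C(X, ℝ)) : rePF φ f = (φ (toC f)).re := rfl

theorem PF_re [CompactSpace X] {φ : C(X, ℂ) →ₗ[ℂ] ℂ} (h0 : ∀ f, 0 ≤ (φ (star f * f)).re)
    (h1 : φ 1 = 1) : PF (rePF φ) := by
  refine ⟨fun f hf => ?_, ?_⟩
  · rw [rePF_apply]
    obtain ⟨g, hg⟩ : ∃ g : C(X, ℝ), g = ⟨fun x => Real.sqrt (f x), f.continuous.sqrt⟩ := ⟨_, rfl⟩
    have e : toC f = star (toC g) * toC g := by
      ext x
      rw [ContinuousMap.mul_apply, ContinuousMap.star_apply, toC_apply, toC_apply, hg]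
      change ((f x : ℝ) : ℂ) = star ((Real.sqrt (f x) : ℝ) : ℂ) * ((Real.sqrt (f x) : ℝ) : ℂ)
      have hx : 0 ≤ f x := hf x
      rw [Complex.star_def, Complex.conj_ofReal, ← Complex.ofReal_mul, Real.mul_self_sqrt hx]
    rw [e]
    exact h0 _
  · rw [rePF_apply]
    have : toC (1 : C(X, ℝ)) = 1 := by ext x; simp
    rw [this, h1, Complex.one_re]

end cplx

section pnc

open Vale.Agent.P092.H820

variable {k : Type*} [NontriviallyNormedField k] {ι : Type*} [Fintype ι] [DecidableEq ι]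

/-- **[D-NI]**, complex functions: no `Γ`-invariant state on `C(ℙ, ℂ)`. -/
theorem no_inv_state [ProperSpace k] {i j : ι} (hij : i ≠ j)
    (Γ : Subgroup (Matrix.SpecialLinearGroup ι k))
    (hΓ : ∃ ν : @Measure (Matrix.SpecialLinearGroup ι k ⧸ Γ)
      (borel (Matrix.SpecialLinearGroup ι k ⧸ Γ)), ν ≠ 0 ∧ ν Set.univ < ⊤ ∧
      ∀ g : Matrix.SpecialLinearGroup ι k, ∀ s : Set (Matrix.SpecialLinearGroup ι k ⧸ Γ),
      MeasurableSet[borel (Matrix.SpecialLinearGroup ι k ⧸ Γ)] s →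
      ν ((fun x => g • x) ⁻¹' s) = ν s)
    (φ : C(ℙ k (ι → k), ℂ) →ₗ[ℂ] ℂ) (h0 : ∀ f, 0 ≤ (φ (star f * f)).re) (h1 : φ 1 = 1)
    (hinv : ∀ γ ∈ Γ, ∀ f f' : C(ℙ k (ι → k), ℂ), (∀ x, f' x = f (γ • x)) → φ f' = φ f) :
    False := by
  refine no_inv_C hij Γ hΓ (rePF φ) (PF_re h0 h1) fun γ hγ f => ?_
  rw [rePF_apply, rePF_apply]
  congr 1
  exact hinv γ hγ (toC f) (toC (cmp γ f)) fun x => rfl

end pnc

end Vale.Agent.P092.H76.NI
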