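import Vale.Agent.P092.H76.Syn
import Vale.Agent.P092.H76.NoInvC

/-!
P092 (helper76), Team D, blocks [D-CONST] and [D-PUR]: abstract part.
-/

set_option linter.all false

open scoped InnerProductSpace LinearAlgebra.Projectivization
open Filter Topology MeasureTheory

namespace Vale.Agent.P092.H76.Pur

section abs

variable {G Γ X K : Type*} [Group G] [Group Γ] [TopologicalSpace X] [CompactSpace X]
  [NormedAddCommGroup K] [InnerProductSpace ℂ K] [CompleteSpace K]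

/-- There is no state on `C(X)` invariant under the maps `act γ`. -/
def NIS (act : Γ → X → X) : Prop :=
  ∀ φ : C(X, ℂ) →ₗ[ℂ] ℂ, (∀ f, 0 ≤ (φ (star f * f)).re) → φ 1 = 1 →
    (∀ γ, ∀ f f' : C(X, ℂ), (∀ x, f' (act γ x) = f x) → φ f' = φ f) → False

/-- Covariance of a linear map on `C(X)`. -/
def Cov (act : Γ → X → X) (lam : Γ →* (K →L[ℂ] K)) (E : C(X, ℂ) →ₗ[ℂ] (K →L[ℂ] K)) : Prop :=
  ∀ γ, ∀ f f' : C(X, ℂ), (∀ x, f' (act γ x) = f x) → lam γ * E f * lam γ⁻¹ = E f'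

/-- The vector state at `Ω` is `lam`-invariant on the operators commuting with `π` and `W`. -/
def Inv (π : G →* (K →L[ℂ] K)) (lam : Γ →* (K →L[ℂ] K)) (W : Set (K →L[ℂ] K)) (Ω : K) : Prop :=
  ∀ T : K →L[ℂ] K, (∀ w ∈ W, T * w = w * T) → (∀ g, T * π g = π g * T) → ∀ γ,
    ⟪Ω, (lam γ * T * lam γ⁻¹) Ω⟫_ℂ = ⟪Ω, T Ω⟫_ℂ

/-- **[D-CONST]** -/
theorem const_false {act : Γ → X → X} (hNI : NIS act) {π : G →* (K →L[ℂ] K)}
    {lam : Γ →* (K →L[ℂ] K)} {W : Set (K →L[ℂ] K)} {Ω : K} (hΩ : ‖Ω‖ = 1)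
    (hinv : Inv π lam W Ω) {E : C(X, ℂ) →ₗ[ℂ] (K →L[ℂ] K)} (hE : UCP E) {c : ℂ} (hc : c ≠ 0)
    (h1 : E 1 = c • 1) (hcov : Cov act lam E) (hW : ∀ f, ∀ w ∈ W, E f * w = w * E f)
    (hπ : ∀ f g, E f * π g = π g * E f) : False := by
  have hΩ1 : ⟪Ω, Ω⟫_ℂ = 1 := by rw [inner_self_eq_norm_sq_to_K, hΩ]; simp
  have hcr : 0 ≤ c.re ∧ c.im = 0 := by
    have e1 : (⟪Ω, E 1 Ω⟫_ℂ) = c := by
      rw [h1, ContinuousLinearMap.smul_apply, inner_smul_right]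
      change c * ⟪Ω, Ω⟫_ℂ = c
      rw [hΩ1, mul_one]
    have e2 := hE.sch 1 Ω
    rw [star_one, one_mul, e1] at e2
    refine ⟨(sq_nonneg _).trans e2, ?_⟩
    have e3 := hE.adj 1
    rw [star_one] at e3
    have e4 : ⟪Ω, E 1 Ω⟫_ℂ = (starRingEnd ℂ) ⟪Ω, E 1 Ω⟫_ℂ := by
      rw [inner_conj_symm]
      nth_rewrite 1 [← e3]
      rw [ContinuousLinearMap.adjoint_inner_right]
    rw [e1] at e4
    exact Complex.conj_eq_iff_im.1 e4.symm
  obtain ⟨φ, hφ⟩ : ∃ φ : C(X, ℂ) →ₗ[ℂ] ℂ, ∀ f, φ f = c⁻¹ * ⟪Ω, E f Ω⟫_ℂ := by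
    refine ⟨{ toFun := fun f => c⁻¹ * ⟪Ω, E f Ω⟫_ℂ, map_add' := fun f g => ?_,
              map_smul' := fun a f => ?_ }, fun f => rfl⟩
    · rw [map_add, ContinuousLinearMap.add_apply, inner_add_right, mul_add]
    · rw [map_smul, ContinuousLinearMap.smul_apply, inner_smul_right, RingHom.id_apply,
        smul_eq_mul]
      ring
  refine hNI φ (fun f => ?_) ?_ (fun γ f f' hff' => ?_)
  · rw [hφ]
    have e1 := (sq_nonneg _).trans (hE.sch f Ω)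
    have e2 : c⁻¹ = ((c.re⁻¹ : ℝ) : ℂ) := by
      rw [Complex.ofReal_inv]
      congr 1
      exact Complex.ext (by simp) (by simp [hcr.2])
    rw [e2, Complex.re_ofReal_mul]
    exact mul_nonneg (inv_nonneg.2 hcr.1) e1
  · rw [hφ, h1, ContinuousLinearMap.smul_apply, inner_smul_right]
    change c⁻¹ * (c * ⟪Ω, Ω⟫_ℂ) = 1
    rw [hΩ1, mul_one, inv_mul_cancel₀ hc]
  · rw [hφ, hφ, ← hcov γ f f' hff', hinv (E f) (hW f) (hπ f) γ]

/-- The mass of a covariant family is a scalar. -/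
theorem exists_scalar {act : Γ → X → X} {π : G →* (K →L[ℂ] K)} {lam : Γ →* (K →L[ℂ] K)}
    {W : Set (K →L[ℂ] K)} {Q : Set G}
    (herg : ∀ T : K →L[ℂ] K, (∀ w ∈ W, T * w = w * T) → (∀ γ, T * lam γ = lam γ * T) →
      (∀ g ∈ Q, T * π g = π g * T) → ∃ z : ℂ, T = z • (1 : K →L[ℂ] K))
    {E : C(X, ℂ) →ₗ[ℂ] (K →L[ℂ] K)} (hcov : Cov act lam E)
    (hW : ∀ f, ∀ w ∈ W, E f * w = w * E f) (hπ : ∀ f, ∀ g ∈ Q, E f * π g = π g * E f) :
    ∃ c : ℂ, E 1 = c • 1 := by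
  refine herg (E 1) (hW 1) (fun γ => ?_) (hπ 1)
  have h1 := hcov γ 1 1 fun x => rfl
  calc E 1 * lam γ = (lam γ * E 1 * lam γ⁻¹) * lam γ := by rw [h1]
    _ = lam γ * E 1 := by
      rw [mul_assoc, ← map_mul, inv_mul_cancel, map_one lam, mul_one]

/-- **[D-PUR]** The two limit families of a wall direction and its inverse are not both nonzero. -/
theorem pur {act : Γ → X → X} (hNI : NIS act) {π : G →* (K →L[ℂ] K)}
    {lam : Γ →* (K →L[ℂ] K)} {W : Set (K →L[ℂ] K)} {Ω : K} (hΩ : ‖Ω‖ = 1)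
    (hinv : Inv π lam W Ω) {Q Q' : Set G} (hQ : Subgroup.closure (Q ∪ Q') = ⊤)
    {E E' : C(X, ℂ) →ₗ[ℂ] (K →L[ℂ] K)} (hE : UCP E) (hE' : UCP E')
    (hsep : ∀ f g : C(X, ℂ), Disjoint (tsupport f) (tsupport g) → E f * E' g = 0)
    {c c' : ℂ} (h1 : E 1 = c • 1) (h1' : E' 1 = c' • 1) (hcov : Cov act lam E)
    (hW : ∀ f, ∀ w ∈ W, E f * w = w * E f)
    (hπ : ∀ f, ∀ g ∈ Q, E f * π g = π g * E f)
    (hπ' : ∀ f, ∀ g ∈ Q', E' f * π g = π g * E' f) : c = 0 ∨ c' = 0 := by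
  by_contra hn
  push Not at hn
  obtain ⟨hc, hc'⟩ := hn
  have h2 : ∀ f, c' • E f = c • E' f := by
    intro f
    have h3 := syn hE hE' 1 (fun f g hfg => by rw [mul_one]; exact hsep f g hfg) f
    rw [mul_one, mul_one, h1, h1', mul_smul_comm, mul_one, smul_mul_assoc, one_mul] at h3
    exact h3
  have h3 : ∀ f, E f = (c'⁻¹ * c) • E' f := by
    intro f
    rw [← smul_smul, ← h2, smul_smul, inv_mul_cancel₀ hc', one_smul]
  refine const_false hNI hΩ hinv hE hc h1 hcov hW fun f g => ?_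
  have hg : g ∈ Subgroup.closure (Q ∪ Q') := by rw [hQ]; trivial
  induction hg using Subgroup.closure_induction with
  | mem x hx =>
    rcases hx with hx | hx
    · exact hπ f x hx
    · rw [h3, smul_mul_assoc, mul_smul_comm, hπ' f x hx]
  | one => rw [map_one, mul_one, one_mul]
  | mul x y _ _ hx hy =>
    rw [map_mul, ← mul_assoc, hx, mul_assoc, hy, mul_assoc]
  | inv x _ hx =>
    have e1 : π x⁻¹ * π x = 1 := by rw [← map_mul, inv_mul_cancel, map_one]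
    have e2 : π x * π x⁻¹ = 1 := by rw [← map_mul, mul_inv_cancel, map_one]
    calc E f * π x⁻¹ = π x⁻¹ * π x * (E f * π x⁻¹) := by rw [e1, one_mul]
      _ = π x⁻¹ * (π x * E f) * π x⁻¹ := by simp only [mul_assoc]
      _ = π x⁻¹ * (E f * π x) * π x⁻¹ := by rw [hx]
      _ = π x⁻¹ * E f * (π x * π x⁻¹) := by simp only [mul_assoc]
      _ = _ := by rw [e2, mul_one]

/-- `(∀ c c', β c = β c') → False`, for a `G`-covariant family of unital homomorphisms. -/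
theorem const_false_hom {act : Γ → X → X} (hNI : NIS act) {π : G →* (K →L[ℂ] K)}
    {lam : Γ →* (K →L[ℂ] K)} {W : Set (K →L[ℂ] K)} {Ω : K} (hΩ : ‖Ω‖ = 1)
    (hinv : Inv π lam W Ω) (β : C(X, ℂ) →⋆ₐ[ℂ] (K →L[ℂ] K))
    (hcov : ∀ γ, ∀ f f' : C(X, ℂ), (∀ x, f' (act γ x) = f x) → lam γ * β f * lam γ⁻¹ = β f')
    (hW : ∀ f, ∀ w ∈ W, β f * w = w * β f) (hπ : ∀ f g, β f * π g = π g * β f) : False := by
  obtain ⟨E, hE⟩ : ∃ E : C(X, ℂ) →ₗ[ℂ] (K →L[ℂ] K), ∀ f, E f = β f :=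
    ⟨β.toAlgHom.toLinearMap, fun f => rfl⟩
  have hU : UCP E := by
    refine ⟨fun f => ?_, fun f ξ => ?_, fun ξ => ?_⟩
    · rw [hE, hE, ← ContinuousLinearMap.star_eq_adjoint, ← map_star]
    · rw [hE, hE, map_mul, map_star, ContinuousLinearMap.star_eq_adjoint]
      change _ ≤ (⟪ξ, ContinuousLinearMap.adjoint (β f) (β f ξ)⟫_ℂ).re
      rw [ContinuousLinearMap.adjoint_inner_right, inner_self_eq_norm_sq_to_K]
      norm_cast
    · rw [hE, map_one]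
      change (⟪ξ, ξ⟫_ℂ).re ≤ _
      rw [inner_self_eq_norm_sq_to_K]
      norm_cast
  refine const_false hNI hΩ hinv hU one_ne_zero (by rw [hE, map_one, one_smul]) ?_
    (fun f w hw => ?_) fun f g => ?_
  · intro γ f f' h
    rw [hE, hE]
    exact hcov γ f f' h
  · rw [hE]; exact hW f w hw
  · rw [hE]; exact hπ f g

end abs

section inst

open Vale.Agent.P092.H820

variable {k : Type*} [NontriviallyNormedField k] {ι : Type*} [Fintype ι] [DecidableEq ι]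

/-- No invariant state for a lattice, through the embedding. -/
theorem nis_P [ProperSpace k] {i j : ι} (hij : i ≠ j) {Γ : Type*} [Group Γ]
    (q : Γ →* Matrix.SpecialLinearGroup ι k)
    (hΓ : ∃ ν : @MeasureTheory.Measure (Matrix.SpecialLinearGroup ι k ⧸ q.range)
      (borel (Matrix.SpecialLinearGroup ι k ⧸ q.range)), ν ≠ 0 ∧ ν Set.univ < ⊤ ∧
      ∀ g : Matrix.SpecialLinearGroup ι k, ∀ s : Set (Matrix.SpecialLinearGroup ι k ⧸ q.range),
      MeasurableSet[borel (Matrix.SpecialLinearGroup ι k ⧸ q.range)] s →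
      ν ((fun x => g • x) ⁻¹' s) = ν s) :
    NIS (fun (γ : Γ) (x : ℙ k (ι → k)) => q γ • x) := by
  intro φ h0 h1 hinv
  refine NI.no_inv_state hij q.range hΓ φ h0 h1 ?_
  rintro _ ⟨γ, rfl⟩ f f' h
  exact (hinv γ f' f fun x => (h x).symm).symm

end inst

end Vale.Agent.P092.H76.Pur
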