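import Vale.Agent.P092.H76.NoInv
import Vale.Agent.P092.H820.Pn
import Vale.Agent.P092.H515.RkDef

/-!
P092 (helper76), Team C, block [C-NI]: a lattice of `SL_n(k)`, `k` nonarchimedean, `n ≥ 2`, has no
invariant finitely additive probability on the clopen sets of the projective space.
-/

set_option linter.all false

open MeasureTheory Topology Filter Set
open scoped Pointwise LinearAlgebra.Projectivization Matrix

namespace Vale.Agent.P092.H76.NI

section loc

/-- clopen sets are stabilised by a neighbourhood of `1` -/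
theorem loc_of_compact {E X : Type*} [Group E] [TopologicalSpace E] [IsTopologicalGroup E]
    [MulAction E X] [TopologicalSpace X] [CompactSpace X] [ContinuousSMul E X] : Loc E X := by
  have key : ∀ U : Set X, IsClopen U → ∀ᶠ g in 𝓝 (1 : E), ∀ x ∈ U, g • x ∈ U := by
    intro U hU
    have hc : IsCompact U := hU.1.isCompact
    refine hc.eventually_forall_of_forall_eventually fun x hx => ?_
    have h1 : Tendsto (fun p : E × X => p.1 • p.2) (𝓝 (1 : E) ×ˢ 𝓝 x) (𝓝 x) := by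
      have h2 : Tendsto (fun p : E × X => p.1 • p.2) (𝓝 ((1 : E), x)) (𝓝 ((1 : E) • x)) :=
        continuous_smul.tendsto _
      rwa [one_smul, nhds_prod_eq] at h2
    rw [nhds_prod_eq]
    exact h1 (hU.2.mem_nhds hx)
  intro U hU
  filter_upwards [key U hU, key Uᶜ hU.compl] with g h1 h2
  refine Subset.antisymm ?_ fun x hx => ?_
  · rintro _ ⟨x, hx, rfl⟩
    exact h1 x hx
  · refine ⟨g⁻¹ • x, ?_, smul_inv_smul g x⟩
    by_contra hn
    have := h2 _ hn
    rw [smul_inv_smul] at this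
    exact this hx

end loc

section pn

open Vale.Agent.P092.H820

variable {k : Type*} [NontriviallyNormedField k] {ι : Type*} [Fintype ι] [DecidableEq ι]

/-- The points whose coordinate `i` is the largest. -/
def Cc (k : Type*) [NontriviallyNormedField k] {ι : Type*} (i : ι) : Set (ℙ k (ι → k)) :=
  {x | ∀ j, ‖x.rep j‖ ≤ ‖x.rep i‖}

omit [Fintype ι] [DecidableEq ι] in
theorem mem_Cc (i : ι) (v : {v : ι → k // v ≠ 0}) :
    pj k ι v ∈ Cc k i ↔ ∀ j, ‖v.1 j‖ ≤ ‖v.1 i‖ := by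
  obtain ⟨c, hc⟩ := Projectivization.exists_smul_eq_mk_rep k v.1 v.2
  have h1 : (pj k ι v).rep = c • v.1 := hc.symm
  have hc0 : 0 < ‖(c : k)‖ := norm_pos_iff.2 c.ne_zero
  have h2 : ∀ j, ‖(pj k ι v).rep j‖ = ‖(c : k)‖ * ‖v.1 j‖ := fun j => by
    rw [h1]
    change ‖(c : k) • v.1 j‖ = _
    rw [norm_smul]
  change (∀ j, ‖(pj k ι v).rep j‖ ≤ ‖(pj k ι v).rep i‖) ↔ _
  simp only [h2]
  exact forall_congr' fun j => mul_le_mul_iff_right₀ hc0

omit [DecidableEq ι] in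
theorem clopen_Cc [IsUltrametricDist k] (i : ι) : IsClopen (Cc k i : Set (ℙ k (ι → k))) := by
  have e : pj k ι ⁻¹' (Cc k i) = {v : {v : ι → k // v ≠ 0} | ∀ j, ‖v.1 j‖ ≤ ‖v.1 i‖} := by
    ext v
    exact mem_Cc i v
  have hcoord : ∀ j : ι, Continuous fun v : {v : ι → k // v ≠ 0} => v.1 j := fun j =>
    (continuous_apply j).comp continuous_subtype_val
  constructor
  · rw [← (pj_oq (k := k) (ι := ι)).isQuotientMap.isClosed_preimage, e, setOf_forall]
    exact isClosed_iInter fun j => isClosed_le (hcoord j).norm (hcoord i).norm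
  · rw [← (pj_oq (k := k) (ι := ι)).isQuotientMap.isOpen_preimage, e, isOpen_iff_mem_nhds]
    intro v hv
    have hv' : ∀ j, ‖v.1 j‖ ≤ ‖v.1 i‖ := hv
    have hpos : 0 < ‖v.1 i‖ := by
      refine (norm_nonneg _).lt_of_ne fun h0 => v.2 ?_
      funext j
      have := hv' j
      rw [← h0] at this
      exact norm_le_zero_iff.1 this
    -- near `v` all coordinates move by less than `‖v i‖`
    have h1 : ∀ᶠ w in 𝓝 v, ∀ j, ‖w.1 j - v.1 j‖ < ‖v.1 i‖ := by
      rw [eventually_all]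
      intro j
      have h2 : Tendsto (fun w : {v : ι → k // v ≠ 0} => ‖w.1 j - v.1 j‖) (𝓝 v) (𝓝 0) := by
        have := ((hcoord j).sub (continuous_const (y := v.1 j))).norm.tendsto v
        simpa using this
      exact h2 (Iio_mem_nhds hpos)
    filter_upwards [h1] with w hw j
    have e1 : ∀ l, w.1 l = v.1 l + (w.1 l - v.1 l) := fun l => by ring
    have e2 : ‖w.1 i‖ = ‖v.1 i‖ := by
      rw [e1 i]
      rw [IsUltrametricDist.norm_add_eq_max_of_norm_ne_norm (hw i).ne']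
      exact max_eq_left (hw i).le
    rw [e2, e1 j]
    exact (IsUltrametricDist.norm_add_le_max _ _).trans (max_le (hv' j) (hw j).le)

theorem norm_add_right {x y : k} [IsUltrametricDist k] (h : ‖x‖ < ‖y‖) : ‖x + y‖ = ‖y‖ := by
  rw [IsUltrametricDist.norm_add_eq_max_of_norm_ne_norm h.ne]
  exact max_eq_right h.le

/-- the transvection as an element of `SL` -/
def tv' {i j : ι} (h : i ≠ j) (c : k) : Matrix.SpecialLinearGroup ι k :=
  ⟨Matrix.transvection i j c, Matrix.det_transvection_of_ne i j h c⟩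

/-- the transvection as an element of `SL` -/
def tv (i j : ι) (c : k) : Matrix.SpecialLinearGroup ι k :=
  if h : i ≠ j then tv' h c else 1

theorem tv_smul {i j : ι} (h : i ≠ j) (c : k) (v : ι → k) (l : ι) :
    (tv i j c • v) l = if l = i then v i + c * v j else v l := by
  have e : (tv i j c • v) = (Matrix.transvection i j c) *ᵥ v := by
    rw [tv, dif_pos h]
    rfl
  rw [e, Matrix.transvection, Matrix.add_mulVec, Matrix.one_mulVec, Matrix.single_mulVec]
  by_cases hl : l = i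
  · subst hl
    simp
  · simp [hl, Function.update_of_ne]

/-- the diagonal element `(r⁻¹, r, 1, ..)` -/
def dg' {i j : ι} (h : i ≠ j) (r : kˣ) : Matrix.SpecialLinearGroup ι k :=
  ⟨Matrix.diagonal fun l => if l = i then ((r⁻¹ : kˣ) : k) else if l = j then (r : k)
    else 1, by
      rw [Matrix.det_diagonal, Finset.prod_eq_mul i j h]
      · simp [h.symm]
      · intro c _ hc
        simp [hc.1, hc.2]
      · intro hn; exact absurd (Finset.mem_univ _) hn
      · intro hn; exact absurd (Finset.mem_univ _) hn⟩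

/-- the diagonal element `(r⁻¹, r, 1, ..)` -/
def dg (i j : ι) (r : kˣ) : Matrix.SpecialLinearGroup ι k :=
  if h : i ≠ j then dg' h r else 1

theorem dg_smul {i j : ι} (h : i ≠ j) (r : kˣ) (v : ι → k) (l : ι) :
    (dg i j r • v) l = if l = i then (r⁻¹ : kˣ) * v i else if l = j then (r : k) * v j
      else v l := by
  have e : (dg i j r • v) = (Matrix.diagonal fun l => if l = i then ((r⁻¹ : kˣ) : k) else
      if l = j then (r : k) else 1) *ᵥ v := by
    rw [dg, dif_pos h]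
    rfl
  rw [e, Matrix.mulVec_diagonal]
  by_cases hl : l = i
  · subst hl
    simp
  · by_cases hl' : l = j
    · subst hl'
      simp [hl]
    · simp [hl, hl']

theorem smul_pj (g : Matrix.SpecialLinearGroup ι k) (v : {v : ι → k // v ≠ 0}) :
    g • pj k ι v = pj k ι ⟨g • v.1, (smul_ne_zero_iff_ne g).2 v.2⟩ := rfl

/-- **[C-NI]** -/
theorem no_inv_P [ProperSpace k] [IsUltrametricDist k] {i j : ι} (hij : i ≠ j)
    (Γ : Subgroup (Matrix.SpecialLinearGroup ι k))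
    (hΓ : ∃ ν : @Measure (Matrix.SpecialLinearGroup ι k ⧸ Γ)
      (borel (Matrix.SpecialLinearGroup ι k ⧸ Γ)), ν ≠ 0 ∧ ν Set.univ < ⊤ ∧
      ∀ g : Matrix.SpecialLinearGroup ι k, ∀ s : Set (Matrix.SpecialLinearGroup ι k ⧸ Γ),
      MeasurableSet[borel (Matrix.SpecialLinearGroup ι k ⧸ Γ)] s →
      ν ((fun x => g • x) ⁻¹' s) = ν s)
    (φ : Set (ℙ k (ι → k)) → ℝ) (hφ : FA φ) (h1 : φ univ = 1)
    (hinv : ∀ γ ∈ Γ, ∀ U, IsClopen U → φ (γ • U) = φ U) : False := by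
  classical
  obtain ⟨ν, hν0, hνf, hν⟩ := hΓ
  obtain ⟨r, hr0, hr1⟩ := NormedField.exists_norm_lt_one k
  let r' : kˣ := Units.mk0 r (norm_pos_iff.1 hr0)
  have hrr : ((r' : kˣ) : k) = r := rfl
  have hri : ((r'⁻¹ : kˣ) : k) = r⁻¹ := by simp [r']
  have hinvn : 1 < ‖r⁻¹‖ := by
    rw [norm_inv]
    exact (one_lt_inv₀ hr0).2 hr1
  -- the description of `a C`
  have hmem_aC : ∀ v : {v : ι → k // v ≠ 0}, pj k ι v ∈ dg i j r' • (Cc k i : Set (ℙ k (ι → k))) →
      (∀ l, l ≠ i → ‖v.1 l‖ ≤ ‖r‖ * ‖v.1 i‖) ∧ 0 < ‖v.1 i‖ := by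
    rintro v ⟨x, hx, hxv⟩
    obtain ⟨w, rfl⟩ := pj_surj x
    have hw := (mem_Cc i w).1 hx
    have hxv' : pj k ι ⟨dg i j r' • w.1, (smul_ne_zero_iff_ne _).2 w.2⟩ = pj k ι v := hxv
    obtain ⟨c, hc⟩ := (pj_eq _ _).1 hxv'
    have hc0 : 0 < ‖(c : k)‖ := norm_pos_iff.2 c.ne_zero
    have hv : ∀ l, ‖(c : k)‖ * ‖v.1 l‖ = ‖(dg i j r' • w.1) l‖ := fun l => by
      have := congrFun hc l
      change ((c : kˣ) : k) • v.1 l = (dg i j r' • w.1) l at this
      rw [← this, norm_smul]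
    have hwpos : 0 < ‖w.1 i‖ := by
      refine (norm_nonneg _).lt_of_ne fun h0 => w.2 ?_
      funext l
      have := hw l
      rw [← h0] at this
      exact norm_le_zero_iff.1 this
    have hvi : ‖(c : k)‖ * ‖v.1 i‖ = ‖r⁻¹‖ * ‖w.1 i‖ := by
      rw [hv, dg_smul hij, if_pos rfl, hri, norm_mul]
    refine ⟨fun l hl => ?_, ?_⟩
    · have h3 : ‖(c : k)‖ * ‖v.1 l‖ ≤ ‖w.1 i‖ := by
        rw [hv, dg_smul hij, if_neg hl]
        by_cases hlj : l = j
        · rw [if_pos hlj, hrr, norm_mul]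
          calc ‖r‖ * ‖w.1 j‖ ≤ 1 * ‖w.1 i‖ := by
                gcongr
                exact hw j
            _ = ‖w.1 i‖ := one_mul _
        · rw [if_neg hlj]
          exact hw l
      have h4 : ‖w.1 i‖ = ‖r‖ * (‖(c : k)‖ * ‖v.1 i‖) := by
        rw [hvi, ← mul_assoc, ← norm_mul, mul_inv_cancel₀ (norm_pos_iff.1 hr0), norm_one, one_mul]
      rw [h4] at h3
      have h5 : ‖(c : k)‖ * ‖v.1 l‖ ≤ ‖(c : k)‖ * (‖r‖ * ‖v.1 i‖) := by
        refine h3.trans (le_of_eq (by ring))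
      exact le_of_mul_le_mul_left h5 hc0
    · by_contra hn
      have h0 : ‖v.1 i‖ = 0 := le_antisymm (not_lt.1 hn) (norm_nonneg _)
      rw [h0, mul_zero] at hvi
      have : 0 < ‖r⁻¹‖ * ‖w.1 i‖ := by positivity
      linarith
  have ha : dg i j r' • (Cc k i : Set (ℙ k (ι → k))) ⊆ Cc k i := by
    intro x hx
    obtain ⟨v, rfl⟩ := pj_surj x
    obtain ⟨h3, h4⟩ := hmem_aC v hx
    rw [mem_Cc]
    intro l
    by_cases hl : l = i
    · rw [hl]
    · calc ‖v.1 l‖ ≤ ‖r‖ * ‖v.1 i‖ := h3 l hl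
        _ ≤ 1 * ‖v.1 i‖ := by gcongr
        _ = ‖v.1 i‖ := one_mul _
  have hu : tv j i (1 : k) • (dg i j r' • (Cc k i : Set (ℙ k (ι → k)))) ⊆
      Cc k i \ dg i j r' • (Cc k i : Set (ℙ k (ι → k))) := by
    rintro _ ⟨x, hx, rfl⟩
    obtain ⟨v, rfl⟩ := pj_surj x
    obtain ⟨h3, h4⟩ := hmem_aC v hx
    have hi' : (tv j i (1 : k) • v.1) i = v.1 i := by rw [tv_smul hij.symm, if_neg hij]
    have hj' : ‖(tv j i (1 : k) • v.1) j‖ = ‖v.1 i‖ := by
      rw [tv_smul hij.symm, if_pos rfl, one_mul]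
      refine norm_add_right ?_
      calc ‖v.1 j‖ ≤ ‖r‖ * ‖v.1 i‖ := h3 j hij.symm
        _ < 1 * ‖v.1 i‖ := by gcongr
        _ = ‖v.1 i‖ := one_mul _
    refine ⟨?_, fun hmem => ?_⟩
    · change tv j i (1 : k) • pj k ι v ∈ Cc k i
      rw [smul_pj, mem_Cc]
      intro l
      change ‖(tv j i (1 : k) • v.1) l‖ ≤ ‖(tv j i (1 : k) • v.1) i‖
      rw [hi']
      by_cases hl : l = j
      · rw [hl, hj']
      · rw [tv_smul hij.symm, if_neg hl]
        by_cases hl' : l = i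
        · rw [hl']
        · calc ‖v.1 l‖ ≤ ‖r‖ * ‖v.1 i‖ := h3 l hl'
            _ ≤ 1 * ‖v.1 i‖ := by gcongr
            _ = ‖v.1 i‖ := one_mul _
    · have hmem' : pj k ι ⟨tv j i (1 : k) • v.1, (smul_ne_zero_iff_ne _).2 v.2⟩ ∈
          dg i j r' • (Cc k i : Set (ℙ k (ι → k))) := hmem
      obtain ⟨h5, -⟩ := hmem_aC _ hmem'
      have h6 := h5 j hij.symm
      change ‖(tv j i (1 : k) • v.1) j‖ ≤ ‖r‖ * ‖(tv j i (1 : k) • v.1) i‖ at h6
      rw [hj', hi'] at h6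
      have : ‖r‖ * ‖v.1 i‖ < 1 * ‖v.1 i‖ := by gcongr
      linarith
  refine no_inv Γ ν hν0 hνf hν loc_of_compact (clopen_Cc i) (dg i j r') (tv j i 1) ha hu
    (insert 1 (Finset.univ.image fun l => (tv i l (1 : k))⁻¹)) ?_ φ hφ h1 hinv
  intro x
  obtain ⟨v, rfl⟩ := pj_surj x
  have : Nonempty ι := ⟨i⟩
  obtain ⟨l, hl⟩ := Finite.exists_max fun l => ‖v.1 l‖
  by_cases hc : ‖v.1 i‖ = ‖v.1 l‖
  · refine ⟨1, Finset.mem_insert_self _ _, ?_⟩
    rw [one_smul, mem_Cc]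
    intro m
    rw [hc]
    exact hl m
  · have hlt : ‖v.1 i‖ < ‖v.1 l‖ := lt_of_le_of_ne (hl i) hc
    have hil : i ≠ l := fun h => hc (by rw [h])
    refine ⟨(tv i l (1 : k))⁻¹, Finset.mem_insert_of_mem (Finset.mem_image_of_mem _
      (Finset.mem_univ l)), ?_⟩
    rw [mem_inv_smul_set_iff, smul_pj, mem_Cc]
    have e1 : ‖(tv i l (1 : k) • v.1) i‖ = ‖v.1 l‖ := by
      rw [tv_smul hil, if_pos rfl, one_mul]
      exact norm_add_right hlt
    intro m
    change ‖(tv i l (1 : k) • v.1) m‖ ≤ ‖(tv i l (1 : k) • v.1) i‖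
    rw [e1]
    by_cases hm : m = i
    · rw [hm, e1]
    · rw [tv_smul hil, if_neg hm]
      exact hl m

/-- **[C-NI]**, version for `Clopens`: a lattice of `SL_n(k)`, `n ≥ 2`, `k` nonarchimedean, has no
invariant finitely additive probability on the clopen sets of `P(k^n)`. -/
theorem no_inv_clopens [ProperSpace k] [IsUltrametricDist k] {i j : ι} (hij : i ≠ j)
    (Γ : Subgroup (Matrix.SpecialLinearGroup ι k))
    (hΓ : ∃ ν : @Measure (Matrix.SpecialLinearGroup ι k ⧸ Γ)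
      (borel (Matrix.SpecialLinearGroup ι k ⧸ Γ)), ν ≠ 0 ∧ ν Set.univ < ⊤ ∧
      ∀ g : Matrix.SpecialLinearGroup ι k, ∀ s : Set (Matrix.SpecialLinearGroup ι k ⧸ Γ),
      MeasurableSet[borel (Matrix.SpecialLinearGroup ι k ⧸ Γ)] s →
      ν ((fun x => g • x) ⁻¹' s) = ν s)
    (φ : TopologicalSpace.Clopens (ℙ k (ι → k)) → ℝ) (h0 : ∀ U, 0 ≤ φ U)
    (hadd : ∀ U V : TopologicalSpace.Clopens (ℙ k (ι → k)), Disjoint U V →
      φ (U ⊔ V) = φ U + φ V)
    (h1 : φ ⊤ = 1)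
    (hinv : ∀ γ ∈ Γ, ∀ U V : TopologicalSpace.Clopens (ℙ k (ι → k)),
      (V : Set (ℙ k (ι → k))) = γ • (U : Set (ℙ k (ι → k))) → φ V = φ U) : False := by
  classical
  let φ' : Set (ℙ k (ι → k)) → ℝ := fun U => if h : IsClopen U then φ ⟨U, h⟩ else 0
  have e : ∀ U (h : IsClopen U), φ' U = φ ⟨U, h⟩ := fun U h => dif_pos h
  refine no_inv_P hij Γ hΓ φ' ⟨fun U hU => ?_, fun U V hU hV hUV => ?_⟩ ?_ fun γ hγ U hU => ?_
  · rw [e U hU]
    exact h0 _
  · rw [e U hU, e V hV, e _ (hU.union hV)]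
    refine hadd ⟨U, hU⟩ ⟨V, hV⟩ ?_
    rw [disjoint_iff]
    ext x
    have := disjoint_iff.1 hUV
    constructor
    · intro hx
      have hx' : x ∈ U ⊓ V := hx
      rw [this] at hx'
      exact hx'
    · intro hx
      exact absurd hx (Set.notMem_empty x)
  · rw [e _ isClopen_univ]
    exact h1
  · rw [e U hU, e _ (clopen_smul hU γ)]
    exact hinv γ hγ _ _ rfl

end pn

end Vale.Agent.P092.H76.NI
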