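import Mathlib

/-!
# P092, block [COMM-S] : bounded sesquilinear forms given on the range of a linear map

Abstract Hilbert space part (no group, no measure).
-/

namespace Vale.Agent.P092.H76

open scoped InnerProductSpace ComplexConjugate
open Filter Topology

section Form
variable {A : Type*} [AddCommGroup A] [Module ℂ A]
  {H : Type*} [NormedAddCommGroup H] [InnerProductSpace ℂ H] [CompleteSpace H]
  {F : Type*} [NormedAddCommGroup F] [NormedSpace ℂ F] [CompleteSpace F]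

/-- Extension of a bounded linear map from the range of `j` to the whole Hilbert space,
zero on the orthogonal complement. -/
theorem ext_dense (j : A →ₗ[ℂ] H) (T : A →ₗ[ℂ] F) (C : ℝ) (hC : 0 ≤ C)
    (hT : ∀ a, ‖T a‖ ≤ C * ‖j a‖) :
    ∃ S : H →L[ℂ] F, (∀ a, S (j a) = T a) ∧
      (∀ ξ, ξ ∈ (LinearMap.range j)ᗮ → S ξ = 0) ∧ ‖S‖ ≤ C := by
  let L : Submodule ℂ H := (LinearMap.range j).topologicalClosure
  have hLc : IsClosed (L : Set H) := Submodule.isClosed_topologicalClosure _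
  have : CompleteSpace L := hLc.completeSpace_coe
  have hmem : ∀ a, j a ∈ L := fun a =>
    Submodule.le_topologicalClosure _ (LinearMap.mem_range_self j a)
  let j' : A →ₗ[ℂ] L := j.codRestrict L hmem
  have hdense : DenseRange j' := by
    intro x
    have hx : (x : H) ∈ closure (LinearMap.range j : Set H) := by
      have h := x.2
      rwa [← SetLike.mem_coe, Submodule.topologicalClosure_coe] at h
    rw [mem_closure_iff_seq_limit] at hx ⊢
    obtain ⟨y, hy, hlim⟩ := hx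
    choose a ha using hy
    refine ⟨fun n => j' (a n), fun n => ⟨a n, rfl⟩, ?_⟩
    rw [tendsto_subtype_rng]
    refine hlim.congr fun n => ?_
    exact (ha n).symm
  have hnorm : ∀ a, ‖T a‖ ≤ C * ‖j' a‖ := hT
  refine ⟨(T.extendOfNorm j').comp L.orthogonalProjectionOnto, ?_, ?_, ?_⟩
  · intro a
    have h1 : L.orthogonalProjectionOnto (j a) = j' a :=
      Submodule.orthogonalProjectionOnto_mem_subspace_eq_self (j' a)
    rw [ContinuousLinearMap.comp_apply, h1]
    exact LinearMap.extendOfNorm_eq hdense ⟨C, hnorm⟩ a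
  · intro ξ hξ
    have h2 : ξ ∈ Lᗮ := by
      change ξ ∈ ((LinearMap.range j).topologicalClosure)ᗮ
      rw [Submodule.orthogonal_closure]
      exact hξ
    rw [ContinuousLinearMap.comp_apply,
      Submodule.orthogonalProjectionOnto_apply_of_mem_orthogonal h2, map_zero]
  · refine (ContinuousLinearMap.opNorm_comp_le _ _).trans ?_
    have h3 : ‖T.extendOfNorm j'‖ ≤ C :=
      LinearMap.opNorm_extendOfNorm_le hdense hC hnorm
    calc ‖T.extendOfNorm j'‖ * ‖L.orthogonalProjectionOnto‖ ≤ C * 1 := by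
          gcongr
          exact Submodule.orthogonalProjectionOnto_norm_le L
      _ = C := mul_one C

/-- Riesz vector of a functional bounded by the norm of `j a`. -/
theorem riesz_dense (j : A →ₗ[ℂ] H) (φ : A →ₗ[ℂ] ℂ) (C : ℝ) (hC : 0 ≤ C)
    (hφ : ∀ a, ‖φ a‖ ≤ C * ‖j a‖) :
    ∃ s : H, (∀ a, ⟪s, j a⟫_ℂ = φ a) ∧ (∀ ξ, ξ ∈ (LinearMap.range j)ᗮ → ⟪s, ξ⟫_ℂ = 0) ∧
      ‖s‖ ≤ C := by
  obtain ⟨S, h1, h2, h3⟩ := ext_dense j φ C hC hφ
  refine ⟨(InnerProductSpace.toDual ℂ H).symm S, fun a => ?_, fun ξ hξ => ?_, ?_⟩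
  · rw [InnerProductSpace.toDual_symm_apply, h1]
  · rw [InnerProductSpace.toDual_symm_apply, h2 ξ hξ]
  · rw [LinearIsometryEquiv.norm_map]
    exact h3

omit [CompleteSpace H] in
/-- A vector orthogonal to the orthogonal complement of a range, tested on the range. -/
theorem eq_of_range (j : A →ₗ[ℂ] H) {s t : H}
    (hs : ∀ ξ, ξ ∈ (LinearMap.range j)ᗮ → ⟪s, ξ⟫_ℂ = 0)
    (ht : ∀ ξ, ξ ∈ (LinearMap.range j)ᗮ → ⟪t, ξ⟫_ℂ = 0)
    (h : ∀ a, ⟪s, j a⟫_ℂ = ⟪t, j a⟫_ℂ) : s = t := by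
  have h1 : s - t ∈ (LinearMap.range j)ᗮ := by
    rw [Submodule.mem_orthogonal]
    rintro u ⟨a, rfl⟩
    have h2 := h a
    have h3 : ⟪s - t, j a⟫_ℂ = 0 := by rw [inner_sub_left, h2, sub_self]
    rw [← inner_conj_symm, h3, map_zero]
  have h4 : ⟪s - t, s - t⟫_ℂ = 0 := by
    rw [inner_sub_left, hs _ h1, ht _ h1, sub_zero]
  exact sub_eq_zero.1 (inner_self_eq_zero.1 h4)

/-- **Bounded sesquilinear forms on the range of `j` come from a bounded operator.** -/
theorem exists_form (j : A →ₗ[ℂ] H) (q : A → A → ℂ)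
    (hadd : ∀ a b c, q a (b + c) = q a b + q a c)
    (hsmul : ∀ (c : ℂ) a b, q a (c • b) = c * q a b)
    (hadd' : ∀ a b c, q (a + b) c = q a c + q b c)
    (hsmul' : ∀ (c : ℂ) a b, q (c • a) b = conj c * q a b)
    (C : ℝ) (hC : 0 ≤ C) (hq : ∀ a b, ‖q a b‖ ≤ C * ‖j a‖ * ‖j b‖) :
    ∃ S : H →L[ℂ] H, (∀ a b, ⟪j a, S (j b)⟫_ℂ = q a b) ∧
      (∀ ξ, ξ ∈ (LinearMap.range j)ᗮ → S ξ = 0) ∧
      (∀ η ξ, ξ ∈ (LinearMap.range j)ᗮ → ⟪S η, ξ⟫_ℂ = 0) ∧ ‖S‖ ≤ C := by
  -- Riesz vectors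
  have h1 : ∀ b : A, ∃ s : H, (∀ a, ⟪s, j a⟫_ℂ = conj (q a b)) ∧
      (∀ ξ, ξ ∈ (LinearMap.range j)ᗮ → ⟪s, ξ⟫_ℂ = 0) ∧ ‖s‖ ≤ C * ‖j b‖ := by
    intro b
    let φ : A →ₗ[ℂ] ℂ :=
      { toFun := fun a => conj (q a b)
        map_add' := fun a a' => by rw [hadd', map_add]
        map_smul' := fun c a => by
          rw [hsmul', map_mul, Complex.conj_conj]
          rfl }
    have hφ : ∀ a, ‖φ a‖ ≤ C * ‖j b‖ * ‖j a‖ := by
      intro a
      change ‖conj (q a b)‖ ≤ _
      rw [RCLike.norm_conj]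
      refine (hq a b).trans (le_of_eq (by ring))
    exact riesz_dense j φ (C * ‖j b‖) (by positivity) hφ
  choose s hs1 hs2 hs3 using h1
  let T : A →ₗ[ℂ] H :=
    { toFun := s
      map_add' := fun b b' => by
        refine eq_of_range j (hs2 _) (fun ξ hξ => ?_) fun a => ?_
        · rw [inner_add_left, hs2 b ξ hξ, hs2 b' ξ hξ, add_zero]
        · rw [inner_add_left, hs1, hs1, hs1, hadd, map_add]
      map_smul' := fun c b => by
        refine eq_of_range j (hs2 _) (fun ξ hξ => ?_) fun a => ?_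
        · rw [RingHom.id_apply, inner_smul_left, hs2 b ξ hξ, mul_zero]
        · rw [RingHom.id_apply, inner_smul_left, hs1, hs1, hsmul, map_mul] }
  obtain ⟨S, hS1, hS2, hS3⟩ := ext_dense j T C hC hs3
  refine ⟨S, fun a b => ?_, hS2, fun η ξ hξ => ?_, hS3⟩
  · rw [hS1 b, ← inner_conj_symm]
    change conj ⟪s b, j a⟫_ℂ = q a b
    rw [hs1, Complex.conj_conj]
  · -- `S η` lies in the closure of the range of `T`
    have hη : ∃ p : H, p ∈ (LinearMap.range j).topologicalClosure ∧ S η = S p := by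
      have : CompleteSpace (LinearMap.range j).topologicalClosure :=
        (Submodule.isClosed_topologicalClosure _).completeSpace_coe
      refine ⟨((LinearMap.range j).topologicalClosure.orthogonalProjectionOnto η : H),
        Subtype.coe_prop _, ?_⟩
      have h5 : η - ((LinearMap.range j).topologicalClosure.orthogonalProjectionOnto η : H) ∈
          (LinearMap.range j)ᗮ := by
        have h6 := Submodule.sub_starProjection_mem_orthogonal
          (K := (LinearMap.range j).topologicalClosure) η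
        rwa [Submodule.orthogonal_closure] at h6
      have h7 := hS2 _ h5
      rw [map_sub, sub_eq_zero] at h7
      exact h7
    obtain ⟨p, hp, hpe⟩ := hη
    rw [hpe]
    have hp' : p ∈ closure (LinearMap.range j : Set H) := by
      rwa [← SetLike.mem_coe, Submodule.topologicalClosure_coe] at hp
    have hcl : IsClosed {x : H | ⟪S x, ξ⟫_ℂ = 0} :=
      isClosed_eq (S.continuous.inner continuous_const) continuous_const
    refine closure_minimal ?_ hcl hp'
    rintro x ⟨b, rfl⟩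
    change ⟪S (j b), ξ⟫_ℂ = 0
    rw [hS1 b]
    exact hs2 b ξ hξ

end Form

section Tensor

variable {A : Type*} [AddCommGroup A] [Module ℂ A]
  {H : Type*} [NormedAddCommGroup H] [InnerProductSpace ℂ H] [CompleteSpace H]
  {K : Type*} [NormedAddCommGroup K] [InnerProductSpace ℂ K]

/-- **Tensor extension of a bounded form.**  `E a ζ` plays the role of `a ⊗ ζ`
(`⟪E a' ζ', E a ζ⟫ = ⟪E a' ω, E a ω⟫ ⟪ζ', ζ⟫`); a form `q` bounded by the norms of the `E a ω`
gives the operator `S ⊗ 1`. -/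
theorem exists_tensor {ι : Type*} (e : HilbertBasis ι ℂ K) (ω : K)
    (E : A →ₗ[ℂ] K →ₗ[ℂ] H)
    (hE : ∀ a' a ζ' ζ, ⟪E a' ζ', E a ζ⟫_ℂ = ⟪E a' ω, E a ω⟫_ℂ * ⟪ζ', ζ⟫_ℂ)
    (q : A → A → ℂ)
    (hadd : ∀ a b c, q a (b + c) = q a b + q a c)
    (hsmul : ∀ (c : ℂ) a b, q a (c • b) = c * q a b)
    (hadd' : ∀ a b c, q (a + b) c = q a c + q b c)
    (hsmul' : ∀ (c : ℂ) a b, q (c • a) b = conj c * q a b)
    (C : ℝ) (hC : 0 ≤ C) (hq : ∀ a b, ‖q a b‖ ≤ C * ‖E a ω‖ * ‖E b ω‖) :
    ∃ S : H →L[ℂ] H, (∀ a b ζ' ζ, ⟪E a ζ', S (E b ζ)⟫_ℂ = q a b * ⟪ζ', ζ⟫_ℂ) ∧ ‖S‖ ≤ C := by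
  classical
  have hnorm : ∀ a ζ, ‖E a ζ‖ = ‖E a ω‖ * ‖ζ‖ := by
    intro a ζ
    have h1 := hE a a ζ ζ
    rw [inner_self_eq_norm_sq_to_K, inner_self_eq_norm_sq_to_K, inner_self_eq_norm_sq_to_K] at h1
    have h2 : ‖E a ζ‖ ^ 2 = (‖E a ω‖ * ‖ζ‖) ^ 2 := by
      rw [mul_pow]
      exact_mod_cast h1
    exact (pow_left_inj₀ (norm_nonneg _) (by positivity) two_ne_zero).1 h2
  have hq0 : ∀ a, q a 0 = 0 := fun a => by
    have := hsmul 0 a 0
    simpa using this
  have hq0' : ∀ a, q 0 a = 0 := fun a => by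
    have := hsmul' 0 0 a
    simpa using this
  have heone : ∀ i, ⟪(e i : K), e i⟫_ℂ = 1 := fun i => by
    rw [inner_self_eq_norm_sq_to_K, e.orthonormal.1 i]
    simp
  -- finitely supported families
  let j : (ι →₀ A) →ₗ[ℂ] H := Finsupp.lsum ℂ fun i => (E.flip (e i))
  have hj : ∀ f : ι →₀ A, j f = f.sum fun i a => E a (e i) := fun f => by
    simp only [j, Finsupp.lsum_apply]
    rfl
  have hjs : ∀ (f : ι →₀ A) (s : Finset ι), f.support ⊆ s → j f = ∑ i ∈ s, E (f i) (e i) := by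
    intro f s hs
    rw [hj, Finsupp.sum_of_support_subset _ hs]
    intro i _
    simp
  have hjn : ∀ (f : ι →₀ A) (s : Finset ι), f.support ⊆ s →
      ‖j f‖ ^ 2 = ∑ i ∈ s, ‖E (f i) ω‖ ^ 2 := by
    intro f s hs
    have h1 : ⟪j f, j f⟫_ℂ = ∑ i ∈ s, ⟪E (f i) ω, E (f i) ω⟫_ℂ := by
      rw [hjs f s hs, sum_inner]
      refine Finset.sum_congr rfl fun i hi => ?_
      rw [inner_sum]
      rw [Finset.sum_eq_single i]
      · rw [hE, heone, mul_one]
      · intro k _ hk
        rw [hE, e.orthonormal.inner_eq_zero hk.symm, mul_zero]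
      · intro h
        exact absurd hi h
    have h2 := congrArg Complex.re h1
    rw [Complex.re_sum] at h2
    have h3 : ∀ x : H, (⟪x, x⟫_ℂ).re = ‖x‖ ^ 2 := fun x => inner_self_eq_norm_sq (𝕜 := ℂ) x
    rw [h3] at h2
    rw [h2]
    exact Finset.sum_congr rfl fun i _ => h3 _
  let Q : (ι →₀ A) → (ι →₀ A) → ℂ := fun f g => ∑ i ∈ f.support ∪ g.support, q (f i) (g i)
  have hQ : ∀ (f g : ι →₀ A) (s : Finset ι), f.support ∪ g.support ⊆ s →
      Q f g = ∑ i ∈ s, q (f i) (g i) := by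
    intro f g s hs
    refine Finset.sum_subset hs fun i _ hi => ?_
    rw [Finset.notMem_union, Finsupp.notMem_support_iff] at hi
    rw [hi.1, hq0']
  have key : ∃ S : H →L[ℂ] H, (∀ f g, ⟪j f, S (j g)⟫_ℂ = Q f g) ∧
      (∀ ξ, ξ ∈ (LinearMap.range j)ᗮ → S ξ = 0) ∧
      (∀ η ξ, ξ ∈ (LinearMap.range j)ᗮ → ⟪S η, ξ⟫_ℂ = 0) ∧ ‖S‖ ≤ C := by
    refine exists_form j Q ?_ ?_ ?_ ?_ C hC ?_
    · intro f g g'
      let s := f.support ∪ g.support ∪ g'.support ∪ (g + g').support
      rw [hQ f (g + g') s (by intro i; simp only [s, Finset.mem_union]; tauto),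
        hQ f g s (by intro i; simp only [s, Finset.mem_union]; tauto),
        hQ f g' s (by intro i; simp only [s, Finset.mem_union]; tauto), ← Finset.sum_add_distrib]
      exact Finset.sum_congr rfl fun i _ => by rw [Finsupp.add_apply, hadd]
    · intro c f g
      let s := f.support ∪ g.support ∪ (c • g).support
      rw [hQ f (c • g) s (by intro i; simp only [s, Finset.mem_union]; tauto),
        hQ f g s (by intro i; simp only [s, Finset.mem_union]; tauto), Finset.mul_sum]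
      exact Finset.sum_congr rfl fun i _ => by rw [Finsupp.smul_apply, hsmul]
    · intro f f' g
      let s := f.support ∪ f'.support ∪ g.support ∪ (f + f').support
      rw [hQ (f + f') g s (by intro i; simp only [s, Finset.mem_union]; tauto),
        hQ f g s (by intro i; simp only [s, Finset.mem_union]; tauto),
        hQ f' g s (by intro i; simp only [s, Finset.mem_union]; tauto), ← Finset.sum_add_distrib]
      exact Finset.sum_congr rfl fun i _ => by rw [Finsupp.add_apply, hadd']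
    · intro c f g
      let s := f.support ∪ g.support ∪ (c • f).support
      rw [hQ (c • f) g s (by intro i; simp only [s, Finset.mem_union]; tauto),
        hQ f g s (by intro i; simp only [s, Finset.mem_union]; tauto), Finset.mul_sum]
      exact Finset.sum_congr rfl fun i _ => by rw [Finsupp.smul_apply, hsmul']
    · intro f g
      let s := f.support ∪ g.support
      have h1 : ‖Q f g‖ ≤ ∑ i ∈ s, C * (‖E (f i) ω‖ * ‖E (g i) ω‖) := by
        refine (norm_sum_le _ _).trans (Finset.sum_le_sum fun i _ => ?_)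
        refine (hq _ _).trans (le_of_eq (by ring))
      rw [← Finset.mul_sum] at h1
      have h2 : ∑ i ∈ s, ‖E (f i) ω‖ * ‖E (g i) ω‖ ≤ ‖j f‖ * ‖j g‖ := by
        have h3 := Finset.sum_mul_sq_le_sq_mul_sq s (fun i => ‖E (f i) ω‖) (fun i => ‖E (g i) ω‖)
        rw [← hjn f s Finset.subset_union_left, ← hjn g s Finset.subset_union_right,
          ← mul_pow] at h3
        exact (abs_le_of_sq_le_sq' h3 (by positivity)).2
      calc ‖Q f g‖ ≤ C * ∑ i ∈ s, ‖E (f i) ω‖ * ‖E (g i) ω‖ := h1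
        _ ≤ C * (‖j f‖ * ‖j g‖) := by gcongr
        _ = C * ‖j f‖ * ‖j g‖ := by ring
  obtain ⟨S, hS, -, -, hSn⟩ := key
  refine ⟨S, ?_, hSn⟩
  have hjsingle : ∀ i a, j (Finsupp.single i a) = E a (e i) := by
    intro i a
    rw [hj, Finsupp.sum_single_index]
    simp
  -- basis vectors
  have hb : ∀ a b i k, ⟪E a (e i), S (E b (e k))⟫_ℂ = q a b * ⟪(e i : K), e k⟫_ℂ := by
    intro a b i k
    rw [← hjsingle, ← hjsingle, hS]
    rw [hQ _ _ {i, k} (by
      refine Finset.union_subset ?_ ?_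
      · exact Finsupp.support_single_subset.trans (by simp)
      · exact Finsupp.support_single_subset.trans (by simp))]
    by_cases hik : i = k
    · subst hik
      rw [heone]
      simp
    · rw [Finset.sum_pair hik, Finsupp.single_apply, Finsupp.single_apply, Finsupp.single_apply,
        Finsupp.single_apply]
      simp [hik, Ne.symm hik, hq0, hq0', e.orthonormal.inner_eq_zero hik]
  -- continuity
  let Ec : A → K →L[ℂ] H := fun a => (E a).mkContinuous ‖E a ω‖ fun ζ => le_of_eq (hnorm a ζ)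
  have hEc : ∀ a ζ, Ec a ζ = E a ζ := fun a ζ => rfl
  have hdense : Dense (Submodule.span ℂ (Set.range e) : Set K) := by
    have := e.dense_span
    rw [Submodule.dense_iff_topologicalClosure_eq_top]
    exact this
  have hc : ∀ a b i ζ, ⟪E a (e i), S (E b ζ)⟫_ℂ = q a b * ⟪(e i : K), ζ⟫_ℂ := by
    intro a b i
    let f₁ : K →L[ℂ] ℂ := (innerSL ℂ (E a (e i))).comp (S.comp (Ec b))
    let f₂ : K →L[ℂ] ℂ := (q a b) • innerSL ℂ (e i : K)
    have hf : f₁ = f₂ := by
      refine ContinuousLinearMap.ext_on hdense ?_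
      rintro _ ⟨k, rfl⟩
      exact hb a b i k
    intro ζ
    have := congrArg (fun f => f ζ) hf
    exact this
  intro a b ζ' ζ
  let g₁ : K →L[ℂ] ℂ := (innerSL ℂ (S (E b ζ))).comp (Ec a)
  let g₂ : K →L[ℂ] ℂ := (conj (q a b)) • innerSL ℂ ζ
  have hg : g₁ = g₂ := by
    refine ContinuousLinearMap.ext_on hdense ?_
    rintro _ ⟨k, rfl⟩
    change ⟪S (E b ζ), E a (e k)⟫_ℂ = conj (q a b) * ⟪ζ, (e k : K)⟫_ℂ
    rw [← inner_conj_symm, hc, map_mul, inner_conj_symm]
  have h9 : ⟪S (E b ζ), E a ζ'⟫_ℂ = conj (q a b) * ⟪ζ, ζ'⟫_ℂ := congrArg (fun f => f ζ') hg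
  rw [← inner_conj_symm, h9, map_mul, Complex.conj_conj, inner_conj_symm]

end Tensor

end Vale.Agent.P092.H76
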