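import Vale.Agent.P092.H76.DichoC
import Vale.Agent.P092.RC.Defs

/-!
P092 (helper76): the type dichotomy for a picture `RC.Pic`.
-/

set_option linter.all false

open scoped InnerProductSpace Pointwise
open Filter Topology ContinuousLinearMap

namespace Vale.Agent.P092.H76.Dicho

open Vale.Agent.P092.H859.CL hiding cfc
open Vale.Agent.P092.H76.Pur
open Vale.Agent.P092.RC (Pic Moore)

section pic

variable {Γ D K : Type} [Group Γ] [Group D] [TopologicalSpace D] [NormedAddCommGroup K]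
  [InnerProductSpace ℂ K] [CompleteSpace K] {π : D →* (K →L[ℂ] K)} {lam : Γ →* (K →L[ℂ] K)}
  {W : Set (K →L[ℂ] K)} {Ω : K}

theorem inv_of_pic (hP : Pic π lam W Ω) : Inv π lam W Ω :=
  fun T hW hπ γ => hP.inv T (fun w hw => hW w hw) hπ γ

theorem erg_of_pic (hP : Pic π lam W Ω) {Q : Set D} (hQ : Moore Q) : Erg π lam W Q :=
  fun T hW hlam hπ => hP.erg Q hQ T (fun w hw => hW w hw) hlam hπ

theorem Moore.mono {Q Q' : Set D} (hQ : Moore Q) (h : Q ⊆ Q') : Moore Q' :=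
  fun E _ _ _ u hu hc ξ hξ g => hQ E u hu hc ξ (fun g hg => hξ g (h hg)) g

theorem leg_of_pic (hP : Pic π lam W Ω) {mp : (Γ → ℝ) → (K →L[ℂ] K)}
    (hcov : ∀ γ (F : Γ → ℝ), (∀ g, |F g| ≤ 1) → lam γ * mp F * lam γ⁻¹ = mp (fun g => F (γ⁻¹ * g)))
    (hWm : ∀ w ∈ W, ∀ F : Γ → ℝ, (∀ g, |F g| ≤ 1) → w * mp F = mp F * w) :
    Leg mp π lam W where
  one := map_one π
  lmul := map_mul lam
  lone := map_one lam
  comm := hP.comm
  cov := hcov
  WP := hP.WP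
  Wm := hWm

variable {Y : Type} [TopologicalSpace Y] [CompactSpace Y] [MulAction Γ Y]
  {mp : (Γ → ℝ) → (K →L[ℂ] K)} {Bd : Set K}
  {ms : D → Set Γ → ℝ} {A : Subgroup D} {G1 G2 : Γ → ℝ} {bp : Γ → Y}

/-- **The type dichotomy for a picture**, along the powers of `b`. `N`, `N'` are subsets contracted
by `b`, `b⁻¹` with the Moore property, `L` commutes with `b`. -/
theorem dicho_pic (hP : Pic π lam W Ω) {b : D} (h : SysF mp π Bd ms A G1 G2)
    (hG : GeoF G1 G2 bp)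
    (hcov : ∀ γ (F : Γ → ℝ), (∀ g, |F g| ≤ 1) → lam γ * mp F * lam γ⁻¹ = mp (fun g => F (γ⁻¹ * g)))
    (hWm : ∀ w ∈ W, ∀ F : Γ → ℝ, (∀ g, |F g| ≤ 1) → w * mp F = mp F * w) (hS : Slow mp π Bd)
    (he : Esc (st mp) π Bd A (map (fun n : ℕ => b ^ n) atTop))
    (he' : Esc (st mp) π Bd A (map (fun n : ℕ => b⁻¹ ^ n) atTop))
    (hLU : LU mp π G1 G2 (map (fun n : ℕ => b ^ n) atTop))
    (hLU' : LU mp π G1 G2 (map (fun n : ℕ => b⁻¹ ^ n) atTop))
    (hsy : Sym mp π Ω) {C : ℝ} (hC : ∀ g, |G1 g⁻¹ - G2 g| ≤ C ∧ |G2 g⁻¹ - G1 g| ≤ C)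
    (hNI : NIS (fun (γ : Γ) (y : Y) => γ • y)) {N N' L : Set D}
    (hN : ∀ n ∈ N, Tendsto (fun i : ℕ => b ^ i * n * (b ^ i)⁻¹) atTop (𝓝 1))
    (hN' : ∀ n ∈ N', Tendsto (fun i : ℕ => (b ^ i)⁻¹ * n * b ^ i) atTop (𝓝 1))
    (hLb : ∀ n ∈ L, Commute b n) (hM : Moore N) (hM' : Moore N')
    (hcl : Subgroup.closure (N ∪ N' ∪ L) = ⊤) :
    (Full (st mp) π G1 G2 (map (fun n : ℕ => b ^ n) atTop) ∧
        Full (st mp) π G2 G1 (map (fun n : ℕ => b⁻¹ ^ n) atTop)) ∨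
      (Full (st mp) π G2 G1 (map (fun n : ℕ => b ^ n) atTop) ∧
        Full (st mp) π G1 G2 (map (fun n : ℕ => b⁻¹ ^ n) atTop)) := by
  refine dicho_pow (Q := N ∪ L) (Q' := N' ∪ L) h hG (leg_of_pic hP hcov hWm) hS he he' hLU hLU'
    hsy hC hP.nΩ hNI (inv_of_pic hP) (fun n hn => ?_) (fun n hn => ?_) ?_
    (erg_of_pic hP (Moore.mono hM Set.subset_union_left))
    (erg_of_pic hP (Moore.mono hM' Set.subset_union_left))
  · exact hn.imp (hN n) (hLb n)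
  · exact hn.imp (hN' n) (hLb n)
  · rw [eq_top_iff, ← hcl]
    refine Subgroup.closure_mono ?_
    intro x hx
    simp only [Set.mem_union] at hx ⊢
    tauto

end pic

end Vale.Agent.P092.H76.Dicho
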