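import Vale.Agent.P092.H76.DichoC

/-!
P092 (helper76), Team D / C: (T2) transport of the letters of helper859's engine along a
homomorphism `θ : D' →* D` of the source group (in use: `θ = tau`).
-/

set_option linter.all false

open scoped InnerProductSpace Pointwise
open Filter Topology ContinuousLinearMap

namespace Vale.Agent.P092.H76.TransD

open Vale.Agent.P092.H859.CL hiding cfc
open Vale.Agent.P092.H76.Dicho (LU)

section trans

variable {Γ D D' K Y : Type} [Group Γ] [Group D] [Group D'] [NormedAddCommGroup K]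
  [InnerProductSpace ℂ K] [CompleteSpace K] {m : Set Γ → (K →L[ℂ] K)}
  {mp : (Γ → ℝ) → (K →L[ℂ] K)} {R : D → (K →L[ℂ] K)} {Bd : Set K}
  {ms : D → Set Γ → ℝ} {A : Subgroup D} {G1 G2 : Γ → ℝ} {bp : Γ → Y} {lam : Γ → (K →L[ℂ] K)}
  {W : Set (K →L[ℂ] K)} {Ω : K} (θ : D' →* D) {l : Filter D'}

theorem rep_comp (h : Rep R) : Rep (fun d => R (θ d)) where
  mul v w := by rw [map_mul, h.mul]
  adj v := by rw [map_inv, h.adj]

theorem sys_comp (h : Sys m R Bd ms A G1 G2) :
    Sys m (fun d => R (θ d)) Bd (fun d => ms (θ d)) (A.comap θ) G1 G2 where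
  prj := h.prj
  rep := rep_comp θ h.rep
  dense := h.dense
  norm := h.norm
  map v := h.map (θ v)
  sep u := h.sep (θ u)
  nrm ε hε := (h.nrm ε hε).imp fun r hr u hu => hr (θ u) hu
  nrv ξ hξ ε hε := (h.nrv ξ hξ ε hε).imp fun r hr w hw => hr (θ w) hw

theorem sysF_comp (h : SysF mp R Bd ms A G1 G2) :
    SysF mp (fun d => R (θ d)) Bd (fun d => ms (θ d)) (A.comap θ) G1 G2 where
  fn := h.fn
  sys := sys_comp θ h.sys
  mpb := h.mpb

/-- a smaller subgroup -/
theorem sys_sub (h : Sys m R Bd ms A G1 G2) {A' : Subgroup D} (hA : A' ≤ A) :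
    Sys m R Bd ms A' G1 G2 where
  prj := h.prj
  rep := h.rep
  dense := h.dense
  norm := h.norm
  map := h.map
  sep := h.sep
  nrm ε hε := (h.nrm ε hε).imp fun r hr u hu => hr u (hA hu)
  nrv ξ hξ ε hε := (h.nrv ξ hξ ε hε).imp fun r hr w hw => hr w (hA hw)

theorem sysF_sub (h : SysF mp R Bd ms A G1 G2) {A' : Subgroup D} (hA : A' ≤ A) :
    SysF mp R Bd ms A' G1 G2 where
  fn := h.fn
  sys := sys_sub h.sys hA
  mpb := h.mpb

/-- exchange of the two gaps -/
theorem sys_swap (h : Sys m R Bd ms A G1 G2) : Sys m R Bd ms A G2 G1 where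
  prj := h.prj
  rep := h.rep
  dense := h.dense
  norm := h.norm
  map := h.map
  sep := h.sep
  nrm ε hε := (h.nrm ε hε).imp fun r hr u hu => by
    have e : BB G2 G1 r = BB G1 G2 r := by ext g; exact and_comm
    rw [e]; exact hr u hu
  nrv ξ hξ ε hε := (h.nrv ξ hξ ε hε).imp fun r hr w hw => by
    have e : BB G2 G1 r = BB G1 G2 r := by ext g; exact and_comm
    rw [e]; exact hr w hw

theorem sysF_swap (h : SysF mp R Bd ms A G1 G2) : SysF mp R Bd ms A G2 G1 where
  fn := h.fn
  sys := sys_swap h.sys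
  mpb := h.mpb

theorem esc_comp (h : Esc m R Bd A (l.map θ)) :
    Esc m (fun d => R (θ d)) Bd (A.comap θ) l where
  mem := h.mem
  esc g ξ hξ := (h.esc g ξ hξ).comp tendsto_map

/-- a smaller subgroup -/
theorem esc_sub {l : Filter D} (h : Esc m R Bd A l) {A' : Subgroup D} (hA : ∀ᶠ w in l, w ∈ A') :
    Esc m R Bd A' l where
  mem := hA
  esc := h.esc

theorem slow_comp [TopologicalSpace D] [TopologicalSpace D'] (h : Slow mp R Bd)
    (hθ : Tendsto θ (𝓝 1) (𝓝 1)) : Slow mp (fun d => R (θ d)) Bd :=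
  fun ε hε => hθ.eventually (h ε hε)

theorem LU_comp (h : LU mp R G1 G2 (l.map θ)) : LU mp (fun d => R (θ d)) G1 G2 l :=
  fun F C hF hN v ξ η => (h F C hF hN (θ v) ξ η).comp tendsto_map

/-- `Neg` does not depend on the order of the gaps. -/
theorem neg_swap {F : Γ → ℂ} : H859.CL.Neg G2 G1 F ↔ H859.CL.Neg G1 G2 F := by
  have e1 : ∀ T, FF G2 G1 T = FF G1 G2 T := fun T => by ext g; exact and_comm
  have e2 : ∀ T, BB G2 G1 T = BB G1 G2 T := fun T => by ext g; exact and_comm
  unfold H859.CL.Neg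
  simp only [e1, e2]

theorem LU_swap {l : Filter D} (h : LU mp R G1 G2 l) : LU mp R G2 G1 l :=
  fun F C hF hN v ξ η => h F C hF (fun u => neg_swap.1 (hN u)) v ξ η

theorem sym_comp (h : Sym mp R Ω) : Sym mp (fun d => R (θ d)) Ω := fun u P => by
  have := h (θ u) P
  rw [← map_inv] at this
  exact this

theorem leg_comp (h : Leg mp R lam W) : Leg mp (fun d => R (θ d)) lam W where
  one := by rw [map_one]; exact h.one
  lmul := h.lmul
  lone := h.lone
  comm g := h.comm (θ g)
  cov := h.cov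
  WP w hw g := by
    have := h.WP w hw (θ g)
    rwa [← map_inv] at this
  Wm := h.Wm

theorem P_comp (w : D') (S : Set Γ) : P m (fun d => R (θ d)) w S = P m R (θ w) S := by
  rw [P, P, map_inv]

theorem PC_comp (w : D') (F : Γ → ℂ) : PC mp (fun d => R (θ d)) w F = PC mp R (θ w) F := by
  rw [PC, PC, map_inv]

theorem full_comp : Full m (fun d => R (θ d)) G1 G2 l ↔ Full m R G1 G2 (l.map θ) := by
  unfold Full
  simp only [P_comp, map_one, tendsto_map'_iff]
  rfl

theorem isLim_comp [TopologicalSpace Y] [CompactSpace Y] {β : C(Y, ℂ) →⋆ₐ[ℂ] (K →L[ℂ] K)} :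
    IsLim mp (fun d => R (θ d)) G1 G2 bp l β ↔ IsLim mp R G1 G2 bp (l.map θ) β := by
  unfold IsLim
  simp only [PC_comp, tendsto_map'_iff]
  rfl

/-- the filters along the powers -/
theorem map_pow_hom {b : D'} : (map (fun n : ℕ => b ^ n) atTop).map θ =
    map (fun n : ℕ => θ b ^ n) atTop := by
  rw [Filter.map_map]
  congr 1
  funext n
  exact map_pow θ b n

theorem map_pow_inv {b : D} : (map (fun n : ℕ => b ^ n) atTop).map (·⁻¹) =
    map (fun n : ℕ => b⁻¹ ^ n) atTop := by
  rw [Filter.map_map]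
  congr 1
  funext n
  simp only [Function.comp_apply, inv_pow]

theorem map_inv_pow {b : D} : map (fun n : ℕ => (b ^ n)⁻¹) atTop =
    map (fun n : ℕ => b⁻¹ ^ n) atTop := by
  congr 1
  funext n
  rw [inv_pow]

end trans

end Vale.Agent.P092.H76.TransD
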