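import Vale.Agent.P092.H76.EngD
import Vale.Agent.P092.H76.DichoD
import Vale.Agent.P092.H541.RowU
import Vale.Agent.P092.H541.CTor
import Vale.Agent.P092.H575.GeoSD
import Vale.Agent.P092.H945.EmbCt
import Vale.Agent.P092.RC.Pict
import Vale.Agent.P092.H761.CoarseD

/-!
P092 (helper76), Team C, [A-DIS]: the engine on the row model of a lattice of `SL_3(k)`, `k`
nonarchimedean: for `q = ` the inclusion or its contragredient the wall limits exist and give a
boundary homomorphism.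
-/

set_option linter.all false

open scoped InnerProductSpace ENNReal
open Filter Topology ContinuousLinearMap MeasureTheory TopologicalSpace

namespace Vale.Agent.P092.H76.HalfD

open Vale.Agent.P092.SR Vale.Agent.P092.H160
open Vale.Agent.P092.H859.CL hiding cfc
open Vale.Agent.P092.RC
open Vale.Agent.P092.H432 (lx ep ARep)
open Vale.Agent.P092.H76.Pur (NIS Inv Erg)
open Vale.Agent.P092.H76.Dicho (Ctr Ctr' moore_ctr moore_ctr' closure_ctr)
open Vale.Agent.P092.H541 (ctr_inv ctr'_inv)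
open Vale.Agent.P092.H575 (g1 g2 bp tg)
open Vale.Agent.P092.SD (G3 bw nm)

/-! ### Transport of ergodicity and invariance -/

section tw

variable {G Γ K K' : Type} [Group G] [TopologicalSpace G] [Group Γ]
  [NormedAddCommGroup K] [InnerProductSpace ℂ K] [CompleteSpace K]
  [NormedAddCommGroup K'] [InnerProductSpace ℂ K'] [CompleteSpace K']
  {u : K ≃ₗᵢ[ℂ] K'} {π : G →* (K →L[ℂ] K)} {lam : Γ →* (K →L[ℂ] K)}
    {W : Set (K →L[ℂ] K)} {Ω : K} {π' : G →* (K' →L[ℂ] K')} {lam' : Γ →* (K' →L[ℂ] K')}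
    {W' : Set (K' →L[ℂ] K')} {Ω' : K'}

theorem erg_tw (t : Tw u π lam W Ω π' lam' W' Ω') {Q : Set G} (h : Erg π' lam' W' Q) :
    Erg π lam W Q := by
  intro T hW hlam hπ
  obtain ⟨z, hz⟩ := h (cj u T) (fun w hw => (cm_cj u (W := W)).2 (fun v hv => hW v hv) w (t.W ▸ hw))
    (fun γ => by rw [t.lam]; exact (cj_comm u).2 (hlam γ))
    (fun g hg => by rw [t.pi]; exact (cj_comm u).2 (hπ g hg))
  refine ⟨z, cj_inj u ?_⟩
  rw [hz, map_smul, map_one]

theorem inv_tw (t : Tw u π lam W Ω π' lam' W' Ω') (h : Inv π' lam' W' Ω') : Inv π lam W Ω := by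
  intro T hW hπ γ
  have h1 := h (cj u T) (fun w hw => (cm_cj u (W := W)).2 (fun v hv => hW v hv) w (t.W ▸ hw))
    (fun g => by rw [t.pi]; exact (cj_comm u).2 (hπ g)) γ
  rw [t.lam, t.lam, ← map_mul, ← map_mul, t.Om, cj_ap, cj_ap, u.inner_map_map,
    u.inner_map_map] at h1
  exact h1

end tw

/-! ### The row model -/

section con

variable {k : Type} [NontriviallyNormedField k] {m : ℕ} [LocallyCompactSpace (GG k m)]
  [SecondCountableTopology (GG k m)] [MeasurableSpace (GG k m)] [BorelSpace (GG k m)]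
  {Γ : Subgroup (GG k m)} [DiscreteTopology Γ] [Countable Γ] [MeasurableSpace (GG k m ⧸ Γ)]
  [BorelSpace (GG k m ⧸ Γ)] {ν : Measure (GG k m ⧸ Γ)} [IsProbabilityMeasure ν]
  (hν : ∀ g : GG k m, ν.map (fun x => g • x) = ν)
  {Λ : Type} [Group Λ] {α : Γ →* (Ell2 Λ →L[ℂ] Ell2 Λ)} (hα : Frame α)

/-- the representation of the source group on the row model -/
noncomputable def piR : GG k m →* (KR hν →L[ℂ] KR hν) where
  toFun := H790.Ri (H85.cdat ν hν) (VR hα)
  map_one' := H776.Leg1.ri_one' (H85.cdat ν hν) (arep_VR hα) (VR_one hα)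
  map_mul' g h := (H21.rep_ri (H85.cdat ν hν) (arep_VR hα)).mul g h

/-- the target on the row model -/
noncomputable def lamR : Γ →* (KR hν →L[ℂ] KR hν) where
  toFun γ := H790.lxt (H85.cdat ν hν).μ (γ, (1 : Γ))
  map_one' := H790.lxt_one
  map_mul' γ γ' := by rw [← H790.lxt_mul, Prod.mk_mul_mk, one_mul]

/-- the coefficients of the row model -/
def WR : Set (KR hν →L[ℂ] KR hν) := H776.Leg1.WL (H85.cdat ν hν) Γ Γ Unit

/-- the vector of the row model -/
noncomputable def OmR : KR hν := H790.ept (H85.cdat ν hν).μ ()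

/-- the multiplication operators of the row model -/
noncomputable def mpR : (Γ → ℝ) → (KR hν →L[ℂ] KR hν) :=
  (H538.fst (H790.baseL (H85.cdat ν hν).μ (Γ × Γ) Unit)).mp

/-- **The row model is the picture of the first leg.** -/
theorem tw_row : Tw (JC hν hα) (piR hν hα) (lamR hν) (WR hν) (OmR hν) (piC hν hα)
    (lamC hν (RR₁ α)) (XC hν Λ ∪ Set.range (lamC hν (RR₂ α))) (OmC hν Λ) where
  pi g := (cj_JC_pi hν hα g).symm
  lam γ := (cj_JC_lam₁ hν hα γ).symm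
  W := by
    ext T
    constructor
    · rintro (⟨S, hS, rfl⟩ | ⟨g, rfl⟩)
      · exact ⟨_, Or.inl ⟨S, hS, rfl⟩, cj_JC_ind hν hα hS⟩
      · exact ⟨_, Or.inr ⟨g, rfl⟩, cj_JC_lam₂ hν hα g⟩
    · rintro ⟨_, (⟨S, hS, rfl⟩ | ⟨g, rfl⟩), rfl⟩
      · exact Or.inl ⟨S, hS, cj_JC_ind hν hα hS⟩
      · exact Or.inr ⟨g, (cj_JC_lam₂ hν hα g).symm⟩
  Om := (JC_Om hν hα ()).symm

theorem norm_OmR (hP : Pic (piC hν hα) (lamC hν (RR₁ α)) (XC hν Λ ∪ Set.range (lamC hν (RR₂ α)))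
    (OmC hν Λ)) : ‖OmR hν‖ = 1 := by
  rw [← hP.nΩ, (tw_row hν hα).Om, (JC hν hα).norm_map]

end con

section dis

variable {k : Type} [NontriviallyNormedField k] [ProperSpace k] [IsUltrametricDist k]

/-- finite balls of a lattice -/
theorem fin_nm {Γ : Type} [Group Γ] {q : Γ →* GG k 2} (hq : Emb q) (C : ℝ) :
    {γ : Γ | nm (q γ) ≤ C}.Finite := by
  have hd := hq.lat.disc
  have hcl : IsClosed (q.range : Set (Matrix.SpecialLinearGroup (Fin 3) k)) :=
    Subgroup.isClosed_of_discrete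
  have hK := (H575.isCompact_sl (k := k) (n := 3) C).inter_right hcl
  have hfin : ({M : Matrix.SpecialLinearGroup (Fin 3) k | ∀ i j, ‖M.1 i j‖ ≤ C} ∩
      (q.range : Set _)).Finite := by
    refine hK.finite (isDiscrete_iff_discreteTopology.2 ?_)
    exact DiscreteTopology.of_subset (s := (q.range : Set (Matrix.SpecialLinearGroup (Fin 3) k)))
      hd Set.inter_subset_right
  refine (hfin.preimage (hq.inj.injOn (s := q ⁻¹' _))).subset ?_
  intro γ hγ
  refine ⟨fun i j => ?_, ⟨γ, rfl⟩⟩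
  have h1 : ‖(q γ).1 i j‖ ≤ nm (q γ) :=
    (norm_le_pi_norm (fun j => (q γ).1 i j) j).trans
      (norm_le_pi_norm (fun i j => (q γ).1 i j : Fin 3 → Fin 3 → k) i)
  exact h1.trans hγ

variable [LocallyCompactSpace (GG k 2)]
  [SecondCountableTopology (GG k 2)] [MeasurableSpace (GG k 2)] [BorelSpace (GG k 2)]
  {Γ : Subgroup (GG k 2)} [DiscreteTopology Γ] [Countable Γ] [MeasurableSpace (GG k 2 ⧸ Γ)]
  [BorelSpace (GG k 2 ⧸ Γ)] {ν : Measure (GG k 2 ⧸ Γ)} [IsProbabilityMeasure ν]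
  (hν : ∀ g : GG k 2, ν.map (fun x => g • x) = ν)
  {Λ : Type} [Group Λ] {α : Γ →* (Ell2 Λ →L[ℂ] Ell2 Λ)} (hα : Frame α)

/-- All inputs of the engine on the row model, for an embedding of the target. -/
theorem row_in {w : kˣ} (hw : ‖(w : k)‖ < 1) {q : Γ →* GG k 2} (hq : Emb q) :
    H541.RowIn (mpR hν) (fun g => piR hν hα g) (H357.BdL2 (H85.cdat ν hν).μ Γ Γ Unit)
      (H43.BfL (H85.cdat ν hν).μ (Γ × Γ) Unit) (H21.msL (H85.cdat ν hν) (VR hα))
      (fun γ => lamR hν γ) (WR hν) (OmR hν) ((bw w : G3 k)⁻¹) (fun γ => g1 (q γ).1)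
      (fun γ => g2 (q γ).1) := by
  have h := H541.row_ultra (k := k) (k' := k) Γ ν hν (Γ := Γ) (Q := Γ) (R := VR hα)
    (arep_VR hα) (VR_one hα) (H761.covFam_coarse (H761.coarse_V (H931.dual_frame hα)))
    (fun A s => H761.et_lx (H761.coarse_V (H931.dual_frame hα)) A s) hw q (fin_nm hq)
  have e0 : (fun γ => g1 (q γ).1) = fun γ => H933.gap 0 (q γ).1 :=
    funext fun γ => H575.g1_eq_gap (by norm_num) (q γ).1
  have e1 : (fun γ => g2 (q γ).1) = fun γ => H933.gap 1 (q γ).1 :=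
    funext fun γ => H575.g2_eq_gap (q γ).1
  rw [e0, e1]
  exact h

/-- **[A-DIS]** The engine on the row model: for one of the two types of the target the wall limits
exist. -/
theorem dis_row (hΓ : H515.St.IsLattice Γ)
    (hP : Pic (piC hν hα) (lamC hν (RR₁ α)) (XC hν Λ ∪ Set.range (lamC hν (RR₂ α))) (OmC hν Λ))
    {w : kˣ} (hw : ‖(w : k)‖ < 1) :
    ∃ q : Γ →* GG k 2, (q = Γ.subtype ∨ q = ct.comp Γ.subtype) ∧ Emb q ∧
      ∃ β : C(YY k 2, ℂ) →⋆ₐ[ℂ] (KR hν →L[ℂ] KR hν),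
        @EngOut Γ (GG k 2) (KR hν) (YY k 2) _ _ _ _ _ _ _ _
          (MulAction.compHom (YY k 2) q).toSMul (mpR hν) (fun g => piR hν hα g)
          (fun γ => lamR hν γ) (WR hν) ((bw w : G3 k)⁻¹) (fun γ => g1 (q γ).1)
          (fun γ => g2 (q γ).1) (fun γ => bp (by omega) (tg q γ)) β := by
  have hq : Emb Γ.subtype := H945.emb_sub hΓ
  have hr := row_in hν hα hw hq
  have hNI : NIS (fun (γ : Γ) (y : YY k 2) => (MulAction.compHom (YY k 2) Γ.subtype).smul γ y) :=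
    H76.Pur.nis_P (show (0 : Fin 3) ≠ 1 by decide) Γ.subtype hq.lat.covol
  have hmo : Moore (Ctr ((bw w : G3 k)⁻¹)) := by rw [ctr_inv]; exact moore_ctr' hw
  have hmo' : Moore (Ctr' ((bw w : G3 k)⁻¹)) := by rw [ctr'_inv]; exact moore_ctr hw
  have hcl : Subgroup.closure ((Ctr ((bw w : G3 k)⁻¹) ∪ {g | Commute ((bw w : G3 k)⁻¹) g}) ∪
      (Ctr' ((bw w : G3 k)⁻¹) ∪ {g | Commute ((bw w : G3 k)⁻¹) g})) = ⊤ := by
    rw [eq_top_iff, ← closure_ctr hw, ctr_inv, ctr'_inv]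
    refine Subgroup.closure_mono ?_
    rintro g ((hg | hg) | hg)
    · exact Or.inr (Or.inl hg)
    · exact Or.inl (Or.inl hg)
    · exact Or.inl (Or.inr (Commute.inv_left_iff.2 hg))
  have herg : ∀ S : Set (GG k 2), Moore S → Erg (piR hν hα) (lamR hν) (WR hν) S := fun S hS =>
    erg_tw (tw_row hν hα) (H76.Dicho.erg_of_pic hP hS)
  have h1 := EngD.eng_dicho (MulAction.compHom (YY k 2) Γ.subtype)
    (MulAction.compHom (YY k 2) (ct.comp Γ.subtype)) hr.sys
    (H575.geoF_rc le_rfl hq) (H575.geoF_rc_ct hq) hr.leg hr.slow hr.loc hr.esc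
    hr.esc' hr.sym (C := 0) (fun γ => ?_) (norm_OmR hν hα hP) hNI
    (inv_tw (tw_row hν hα) (H76.Dicho.inv_of_pic hP)) (Q := Ctr ((bw w : G3 k)⁻¹) ∪
      {g | Commute ((bw w : G3 k)⁻¹) g}) (Q' := Ctr' ((bw w : G3 k)⁻¹) ∪
      {g | Commute ((bw w : G3 k)⁻¹) g}) (fun n hn => hn) (fun n hn => hn) hcl
    (herg _ (H76.Dicho.Moore.mono hmo Set.subset_union_left))
    (herg _ (H76.Dicho.Moore.mono hmo' Set.subset_union_left))
  · rcases h1 with ⟨β, hβ⟩ | ⟨β, hβ⟩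
    · exact ⟨Γ.subtype, Or.inl rfl, hq, β, hβ⟩
    · refine ⟨ct.comp Γ.subtype, Or.inr rfl, H945.emb_ct_sub hΓ, β, ?_⟩
      have e1 : (fun γ : Γ => g1 ((ct.comp Γ.subtype : Γ →* GG k 2) γ).1) =
          fun γ => g2 (Γ.subtype γ).1 := funext fun γ => H575.g1_ct (Γ.subtype γ)
      have e2 : (fun γ : Γ => g2 ((ct.comp Γ.subtype : Γ →* GG k 2) γ).1) =
          fun γ => g1 (Γ.subtype γ).1 := funext fun γ => H575.g2_ct (Γ.subtype γ)
      rw [e1, e2]
      exact hβ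
  · rw [map_inv]
    have e1 : g1 ((Γ.subtype γ)⁻¹).1 = g2 (Γ.subtype γ).1 := H575.g1_inv' _
    have e2 : g2 ((Γ.subtype γ)⁻¹).1 = g1 (Γ.subtype γ).1 := H575.g2_inv' _
    rw [e1, e2, sub_self, sub_self, abs_zero]
    exact ⟨le_rfl, le_rfl⟩

end dis

end Vale.Agent.P092.H76.HalfD
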