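import Vale.Agent.P092.H76.CommW
import Vale.Agent.P092.H978.LimC
import Vale.Agent.P092.RC.HalfT

/-!
P092 (helper76), Teams C and D, all `t`: the boundary maps of the two legs commute, from the output of
the engine (field `comm` of `RC.HalfT`, input `hc` of H448/TF6).
-/

set_option linter.all false

open scoped InnerProductSpace ENNReal
open MeasureTheory Filter Topology ContinuousLinearMap TopologicalSpace

namespace Vale.Agent.P092.H76.CommT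

open Vale.Agent.P092.H790 (CData Ri baseL)
open Vale.Agent.P092.H160 Vale.Agent.P092.H432 Vale.Agent.P092.SR
open Vale.Agent.P092.H553 (ind ind_nonneg ind_le_one abs_ind_le ind_pos ind_neg)
open Vale.Agent.P092.H859.CL
open Vale.Agent.P092.H538 (fst)
open Vale.Agent.P092.H21
open Vale.Agent.P092.H978.LimC (ci ci_pos ci_neg mc_ci)

section abs

variable {α K : Type} [NormedAddCommGroup K] [InnerProductSpace ℂ K] [CompleteSpace K]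
  {l : Filter α}

/-- Commutation of the limits from the asymptotic commutation. -/
theorem comm_of_hc [l.NeBot] {m₁ m₂ E₁ E₂ : K →L[ℂ] K} {π : α → (K →L[ℂ] K)}
    (hπ : ∀ w x y, ⟪π w x, π w y⟫_ℂ = ⟪x, y⟫_ℂ)
    (hm₁ : ∀ x y, ⟪m₁ x, y⟫_ℂ = ⟪x, m₁ y⟫_ℂ) (hm₂ : ∀ x y, ⟪m₂ x, y⟫_ℂ = ⟪x, m₂ y⟫_ℂ)
    (l₁ : ∀ ξ, Tendsto (fun w => m₁ (π w ξ) - π w (E₁ ξ)) l (𝓝 0))
    (l₂ : ∀ ξ, Tendsto (fun w => m₂ (π w ξ) - π w (E₂ ξ)) l (𝓝 0))
    (hc : ∀ x y, Tendsto (fun w => ⟪m₁ (π w x), m₂ (π w y)⟫_ℂ - ⟪m₂ (π w x), m₁ (π w y)⟫_ℂ)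
      l (𝓝 0)) : E₁ * E₂ = E₂ * E₁ := by
  have hn : ∀ w v, ‖π w v‖ = ‖v‖ := fun w => norm_of_inner (hπ w)
  have key : ∀ x y : K, ⟪E₁ x, E₂ y⟫_ℂ = ⟪E₂ x, E₁ y⟫_ℂ := by
    intro x y
    have a1 := inner_diff (x := fun w => m₁ (π w x)) (x' := fun w => π w (E₁ x))
      (y := fun w => m₂ (π w y)) (y' := fun w => π w (E₂ y)) (C := max (‖m₁‖ * ‖x‖) ‖E₂ y‖)
      (fun w => ((m₁.le_opNorm _).trans_eq (by rw [hn])).trans (le_max_left _ _))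
      (fun w => (hn w _).le.trans (le_max_right _ _)) (l₁ x) (l₂ y)
    have a2 := inner_diff (x := fun w => m₂ (π w x)) (x' := fun w => π w (E₂ x))
      (y := fun w => m₁ (π w y)) (y' := fun w => π w (E₁ y)) (C := max (‖m₂‖ * ‖x‖) ‖E₁ y‖)
      (fun w => ((m₂.le_opNorm _).trans_eq (by rw [hn])).trans (le_max_left _ _))
      (fun w => (hn w _).le.trans (le_max_right _ _)) (l₂ x) (l₁ y)
    have a3 := (a1.sub a2).sub (hc x y)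
    have a4 : ∀ w, (⟪m₁ (π w x), m₂ (π w y)⟫_ℂ - ⟪π w (E₁ x), π w (E₂ y)⟫_ℂ) -
        (⟪m₂ (π w x), m₁ (π w y)⟫_ℂ - ⟪π w (E₂ x), π w (E₁ y)⟫_ℂ) -
        (⟪m₁ (π w x), m₂ (π w y)⟫_ℂ - ⟪m₂ (π w x), m₁ (π w y)⟫_ℂ) =
        ⟪E₂ x, E₁ y⟫_ℂ - ⟪E₁ x, E₂ y⟫_ℂ := fun w => by
      rw [hπ, hπ]; ring
    have a5 := a3.congr a4
    rw [sub_zero, sub_zero] at a5
    have h6 := tendsto_nhds_unique a5 tendsto_const_nhds
    exact (sub_eq_zero.1 h6.symm).symm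
  ext1 y
  refine ext_inner_left ℂ fun x => ?_
  change ⟪x, E₁ (E₂ y)⟫_ℂ = ⟪x, E₂ (E₁ y)⟫_ℂ
  rw [← sa_lim hπ hm₁ l₁ x (E₂ y), ← sa_lim hπ hm₂ l₂ x (E₁ y)]
  exact key x y

end abs

section eng

variable {D Γ ι ℋ Y : Type} [Group D] [Group Γ] [Countable Γ] [Fintype ι] [NormedAddCommGroup ℋ]
  [InnerProductSpace ℂ ℋ] [CompleteSpace ℋ] [TopologicalSpace Y] [CompactSpace Y]
  {V R₁ R₂ : Γ →* (ℋ →L[ℂ] ℋ)} {ξ : ι → ℋ}
  (d : CData D Γ) (hT : Tri V R₁ R₂ ξ) {s : ℋ →L[ℂ] ℋ}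
  {ι' : Type} [Fintype ι'] {ξ' : ι' → ℋ}
  (hΓ : ∀ g : Γ, g ≠ 1 → Set.Infinite {y : Γ | ∃ h, y = h * g * h⁻¹}) (hT' : Tri R₁ V R₂ ξ')
  (hh : Hon R₁ R₂ ξ) (hs : s * s = 1) (ha : adjoint s = s) (hsV : ∀ v, s * V v = V v * s)
  (h₁ : ∀ γ, s * R₁ γ = R₂ γ * s) (h₂ : ∀ γ, s * R₂ γ = R₁ γ * s)
  (hT₂ : Tri V R₁ R₂ fun i => s (ξ i))
  {G1 G2 : Γ → ℝ} {bp : Γ → Y} {b : D} {A : Subgroup D} {Bd : Set (Lp ℋ 2 d.μ)}
  {ms : D → Set Γ → ℝ} {β : C(Y, ℂ) →⋆ₐ[ℂ] (Lp ℋ 2 d.μ →L[ℂ] Lp ℋ 2 d.μ)}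

omit [Group Γ] [Countable Γ] [CompactSpace Y] in
theorem cfc_ci (C : Clopens Y) (g : Γ) : H859.CL.cfc G1 G2 bp (ci C) g =
    ((ind (fun g => g ∈ cn G1 G2 bp (C : Set Y)) g : ℝ) : ℂ) := by
  rw [H859.CL.cfc]
  by_cases hg : bp g ∈ C
  · rw [ci_pos hg, mul_one]
    by_cases h3 : G2 g ≤ G1 g
    · rw [ind_pos (P := fun g => G2 g ≤ G1 g) h3,
        ind_pos (P := fun g => g ∈ cn G1 G2 bp (C : Set Y)) ⟨h3, hg⟩]
    · rw [ind_neg (P := fun g => G2 g ≤ G1 g) h3,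
        ind_neg (P := fun g => g ∈ cn G1 G2 bp (C : Set Y)) (fun h4 => h3 h4.1)]
  · rw [ci_neg hg, mul_zero,
      ind_neg (P := fun g => g ∈ cn G1 G2 bp (C : Set Y)) (fun h4 => hg h4.2), Complex.ofReal_zero]

/-- The limit of leg 1 in the form `m π - π E → 0`. -/
theorem lim_dif (hf : Fn (mT d hT))
    (hβ : IsLim (mT d hT) (fun g => H34.Ind.pi d (V := V) hT.adjV g) G1 G2 bp (pw b) β)
    (C : Clopens Y) (x : Lp ℋ 2 d.μ) :
    Tendsto (fun t : ℕ => st (mT d hT) (cn G1 G2 bp (C : Set Y))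
        (H34.Ind.pi d (V := V) hT.adjV (b ^ t) x) -
      H34.Ind.pi d (V := V) hT.adjV (b ^ t) (β (ci C) x)) atTop (𝓝 0) := by
  have h1 := tendsto_pw.mp (hβ (ci C) x)
  have h2 := (h1.sub_const (β (ci C) x)).norm
  rw [sub_self, norm_zero] at h2
  refine squeeze_zero_norm (fun t => le_of_eq ?_) h2
  rw [PC, mc_ci hf]
  have h4 := norm_of_inner (pi_inner d hT (b ^ t))
    ((H34.Ind.pi d (V := V) hT.adjV (b ^ t)⁻¹ * st (mT d hT) (cn G1 G2 bp (C : Set Y)) *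
      H34.Ind.pi d (V := V) hT.adjV (b ^ t)) x - β (ci C) x)
  rw [← h4, map_sub]
  congr 2
  have h5 := congrArg (fun T : Lp ℋ 2 d.μ →L[ℂ] Lp ℋ 2 d.μ => T (st (mT d hT)
    (cn G1 G2 bp (C : Set Y)) (H34.Ind.pi d (V := V) hT.adjV (b ^ t) x)))
    (H34.Ind.pi_mul_inv d (V := V) hT.adjV (b ^ t))
  exact h5.symm

include hΓ hT' hh hs ha hsV h₁ h₂ hT₂

/-- **Asymptotic commutation of the two legs** (the form `hc` of H448/TF6). -/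
theorem hc_eng (hS : SysF (mT d hT) (fun g => H34.Ind.pi d (V := V) hT.adjV g) Bd ms A G1 G2)
    (hfin : ∀ r, (FF G1 G2 r).Finite)
    (hN : ∀ (C : Clopens Y) (u : Γ), Neg G1 G2 fun g =>
      H859.CL.cfc G1 G2 bp (ci C) (g * u) - H859.CL.cfc G1 G2 bp (ci C) g)
    (he : Esc (st (mT d hT)) (fun g => H34.Ind.pi d (V := V) hT.adjV g) Bd A (pw b))
    (hβ : IsLim (mT d hT) (fun g => H34.Ind.pi d (V := V) hT.adjV g) G1 G2 bp (pw b) β)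
    (S : Set Γ) (C : Clopens Y) (x y : Lp ℋ 2 d.μ) :
    Tendsto (fun t : ℕ => ⟪st (mT d hT) S (H34.Ind.pi d (V := V) hT.adjV (b ^ t) x),
        (Sc d s * st (mT d hT) (cn G1 G2 bp (C : Set Y)) * Sc d s)
          (H34.Ind.pi d (V := V) hT.adjV (b ^ t) y)⟫_ℂ -
      ⟪(Sc d s * st (mT d hT) (cn G1 G2 bp (C : Set Y)) * Sc d s)
          (H34.Ind.pi d (V := V) hT.adjV (b ^ t) x),
        st (mT d hT) S (H34.Ind.pi d (V := V) hT.adjV (b ^ t) y)⟫_ℂ) atTop (𝓝 0) := by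
  refine hc_T d hT hΓ hT' hh hs ha hsV h₁ h₂ hT₂ (v := fun t : ℕ => b ^ t) S
    (cn G1 G2 bp (C : Set Y)) (E := β (ci C)) (lim_dif d hT hS.fn hβ C) (fun u z => ?_) x y
  have hb : ∀ g, ‖H859.CL.cfc G1 G2 bp (ci C) (g * u) - H859.CL.cfc G1 G2 bp (ci C) g‖ ≤ 1 + 1 := by
    intro g
    refine (norm_sub_le _ _).trans (add_le_add ?_ ?_)
    · rw [cfc_ci, Complex.norm_real]
      exact abs_ind_le _ _
    · rw [cfc_ci, Complex.norm_real]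
      exact abs_ind_le _ _
  have h3 := tendsto_pw.mp (negl_fn hS hfin he hb (hN C u) z)
  have h4 : (fun g => H859.CL.cfc G1 G2 bp (ci C) (g * u) - H859.CL.cfc G1 G2 bp (ci C) g) =
      fun g => (ind (fun g => g ∈ cn G1 G2 bp (C : Set Y)) (g * u) : ℂ) -
        (ind (fun g => g ∈ cn G1 G2 bp (C : Set Y)) g : ℂ) := by
    funext g
    rw [cfc_ci, cfc_ci]
  rw [h4] at h3
  exact h3

/-- **The boundary maps of the two legs commute.** -/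
theorem comm_eng (hS : SysF (mT d hT) (fun g => H34.Ind.pi d (V := V) hT.adjV g) Bd ms A G1 G2)
    (hfin : ∀ r, (FF G1 G2 r).Finite)
    (hN : ∀ (C : Clopens Y) (u : Γ), Neg G1 G2 fun g =>
      H859.CL.cfc G1 G2 bp (ci C) (g * u) - H859.CL.cfc G1 G2 bp (ci C) g)
    (he : Esc (st (mT d hT)) (fun g => H34.Ind.pi d (V := V) hT.adjV g) Bd A (pw b))
    (hβ : IsLim (mT d hT) (fun g => H34.Ind.pi d (V := V) hT.adjV g) G1 G2 bp (pw b) β)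
    (C C' : Clopens Y) :
    β (ci C) * (Sc d s * β (ci C') * Sc d s) = Sc d s * β (ci C') * Sc d s * β (ci C) := by
  have hf := hS.fn
  refine comm_of_hc (l := atTop) (π := fun t : ℕ => H34.Ind.pi d (V := V) hT.adjV (b ^ t))
    (m₁ := st (mT d hT) (cn G1 G2 bp (C : Set Y)))
    (m₂ := Sc d s * st (mT d hT) (cn G1 G2 bp (C' : Set Y)) * Sc d s)
    (fun t => pi_inner d hT (b ^ t)) (hf.inner_left (abs_ind_le _)) (fun x y => ?_)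
    (lim_dif d hT hf hβ C) (fun x => ?_) fun x y =>
      hc_eng d hT hΓ hT' hh hs ha hsV h₁ h₂ hT₂ hS hfin hN he hβ (cn G1 G2 bp (C : Set Y)) C' x y
  · change ⟪Sc d s (st (mT d hT) _ (Sc d s x)), y⟫_ℂ = ⟪x, Sc d s (st (mT d hT) _ (Sc d s y))⟫_ℂ
    rw [Sc_inner d ha, st, hf.inner_left (abs_ind_le _), Sc_inner d ha]
  · have h3 := ((Sc d s).continuous.tendsto _).comp (lim_dif d hT hf hβ C' (Sc d s x))
    rw [map_zero] at h3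
    refine h3.congr fun t => ?_
    change Sc d s (st (mT d hT) (cn G1 G2 bp (C' : Set Y))
      (H34.Ind.pi d (V := V) hT.adjV (b ^ t) (Sc d s x)) -
      H34.Ind.pi d (V := V) hT.adjV (b ^ t) (β (ci C') (Sc d s x))) =
      Sc d s (st (mT d hT) (cn G1 G2 bp (C' : Set Y)) (Sc d s
      (H34.Ind.pi d (V := V) hT.adjV (b ^ t) x))) -
      H34.Ind.pi d (V := V) hT.adjV (b ^ t) (Sc d s (β (ci C') (Sc d s x)))
    rw [map_sub, Sc_pi d hT hsV, Sc_pi d hT hsV]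

end eng

/-! ### The letters of `RC.HalfT` -/

section con

open Vale.Agent.P092.RC Vale.Agent.P092.H103 Vale.Agent.P092.H962 Vale.Agent.P092.H333.Amp

variable {k : Type} [NontriviallyNormedField k] {m : ℕ} [LocallyCompactSpace (GG k m)]
  [SecondCountableTopology (GG k m)] [MeasurableSpace (GG k m)] [BorelSpace (GG k m)]
  {Γ : Subgroup (GG k m)} [DiscreteTopology Γ] [Countable Γ] [MeasurableSpace (GG k m ⧸ Γ)]
  [BorelSpace (GG k m ⧸ Γ)] {ν : Measure (GG k m ⧸ Γ)} [IsProbabilityMeasure ν]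
  (hν : ∀ g : GG k m, ν.map (fun x => g • x) = ν)
  {Λ I : Type} [Group Λ] [Fintype I] {α : Γ → (Ell2 (I × Λ) →L[ℂ] Ell2 (I × Λ))} (hα : AF α)
  {Y : Type} [TopologicalSpace Y] [CompactSpace Y]
  {ι : Type} [Fintype ι] {ξ : ι → HH (PT α α α)}
  (hT : Tri (V3 hα hα hα) (A3R hα hα hα) (B3R hα hα hα) ξ)
  {ι' : Type} [Fintype ι'] {ξ' : ι' → HH (PT α α α)}
  (hΓ : ∀ g : Γ, g ≠ 1 → Set.Infinite {y : Γ | ∃ h, y = h * g * h⁻¹})
  (hT' : Tri (A3R hα hα hα) (V3 hα hα hα) (B3R hα hα hα) ξ')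
  (hh : Hon (A3R hα hα hα) (B3R hα hα hα) ξ)
  {G1 G2 : Γ → ℝ} {bp : Γ → Y} {b : GG k m} {A : Subgroup (GG k m)}
  {Bd : Set (KG hν (HH (PT α α α)))} {ms : GG k m → Set Γ → ℝ}
  {β : C(Y, ℂ) →⋆ₐ[ℂ] (KG hν (HH (PT α α α)) →L[ℂ] KG hν (HH (PT α α α)))}
  (hS : SysF (mT (H85.cdat ν hν) hT) (fun g => piT hν hα g) Bd ms A G1 G2)
  (hfin : ∀ r, (FF G1 G2 r).Finite)
  (hN : ∀ (C : Clopens Y) (u : Γ), Neg G1 G2 fun g =>
    H859.CL.cfc G1 G2 bp (ci C) (g * u) - H859.CL.cfc G1 G2 bp (ci C) g)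
  (he : Esc (st (mT (H85.cdat ν hν) hT)) (fun g => piT hν hα g) Bd A (pw b))
  (hβ : IsLim (mT (H85.cdat ν hν) hT) (fun g => piT hν hα g) G1 G2 bp (pw b) β)

include hΓ hT' hh hS hfin hN he hβ

/-- **[T-COMM], the form `hc` of H448/TF6**: `m₁ = st (mT d hT)`, `m₂ = cj (flT hν hα) ∘ m₁`. -/
theorem hc_KG (S : Set Γ) (C : Clopens Y) (x y : KG hν (HH (PT α α α))) :
    Tendsto (fun t : ℕ => ⟪st (mT (H85.cdat ν hν) hT) S (piT hν hα (b ^ t) x),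
        cj (flT hν hα) (st (mT (H85.cdat ν hν) hT) (cn G1 G2 bp (C : Set Y)))
          (piT hν hα (b ^ t) y)⟫_ℂ -
      ⟪cj (flT hν hα) (st (mT (H85.cdat ν hν) hT) (cn G1 G2 bp (C : Set Y)))
          (piT hν hα (b ^ t) x),
        st (mT (H85.cdat ν hν) hT) S (piT hν hα (b ^ t) y)⟫_ℂ) atTop (𝓝 0) :=
  hc_eng (H85.cdat ν hν) hT hΓ hT' hh (swO_sq hα) (adjoint_swO hα) (swO_V hα) (swO_A hα)
    (swO_B hα) (tri_swap hα hT) hS hfin hN he hβ S C x y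

/-- **[T-COMM], the field `comm` of `RC.HalfT`** for `E C = β (ci C)`. -/
theorem comm_KG (C C' : Clopens Y) : β (ci C) * flpT hν hα (fun C => β (ci C)) C' =
    flpT hν hα (fun C => β (ci C)) C' * β (ci C) :=
  comm_eng (H85.cdat ν hν) hT hΓ hT' hh (swO_sq hα) (adjoint_swO hα) (swO_V hα) (swO_A hα)
    (swO_B hα) (tri_swap hα hT) hS hfin hN he hβ C C'

end con

end Vale.Agent.P092.H76.CommT
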