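import Vale.Agent.P092.H76.TH2
import Vale.Agent.P092.H221.Th
import Vale.Agent.P092.H35.Comm2
import Vale.Agent.P092.H325.KL

/-!
P092 (helper76), team A, block [COM]: the glue.  From the positivity block [A-POS] (hypothesis `APos`)
the values of smooth fields at two different places commute.
-/

set_option linter.all false

open MeasureTheory Filter Topology ContinuousLinearMap
open scoped InnerProductSpace ComplexConjugate ENNReal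
open Vale.Agent.P092.H160 Vale.Agent.P092.H156.Sm Vale.Agent.P092.H650
open Vale.Agent.P092.H325 (tl tr PosOp kp scalar_L1)
open Vale.Agent.P092.H132 (rl rl_ae)
open Vale.Agent.P092.H35 (ten comm2 T_tr S_unique rlo eq_rlo)
open Vale.Agent.P092.H221 (Th T4 t4)

namespace Vale.Agent.P092.H76

section thp

variable {Γ Λ G₁ G₂ H₁ H₂ K : Type} [Group Γ] [Countable Γ] [Group Λ] [Group G₁] [Group G₂]
  [Group H₁] [Group H₂]
  [TopologicalSpace G₁] [IsTopologicalGroup G₁] [SecondCountableTopology G₁] [MeasurableSpace G₁]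
  [BorelSpace G₁]
  [TopologicalSpace G₂] [IsTopologicalGroup G₂] [SecondCountableTopology G₂] [MeasurableSpace G₂]
  [BorelSpace G₂]
  [TopologicalSpace H₁] [IsTopologicalGroup H₁] [TopologicalSpace H₂] [IsTopologicalGroup H₂]
  [NormedAddCommGroup K] [InnerProductSpace ℂ K] [CompleteSpace K]
  {ι₁ : Γ →* G₁} {ι₂ : Γ →* G₂} {κ₁ : Λ →* H₁} {κ₂ : Λ →* H₂}
  {ρ : Γ →* (K →L[ℂ] K)} {V : Λ →* (K →L[ℂ] K)} {ω : K} {μ₁ : Measure G₁} {μ₂ : Measure G₂}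
  [SFinite μ₁] [SFinite μ₂] [μ₁.IsMulLeftInvariant] [μ₂.IsMulLeftInvariant]

/-- The form `Θ` of helper221 has the required properties. -/
theorem thP [μ₁.IsMulRightInvariant] (h : Frm ρ V ω) (hd₁ : DenseRange κ₁) (hd₂ : DenseRange κ₂)
    (t₁ : T4 ι₁ κ₁ ρ V ω μ₁) (t₂ : T4 ι₂ κ₂ ρ V ω μ₂) :
    ThP ι₁ ι₂ κ₁ κ₂ ρ V ω μ₁ μ₂ (fun b a' a => Th ω μ₁ μ₂ a b a' b) where
  le := fun b a' a hb ha' ha => by
    refine (H221.th_norm h t₁ t₂ ha hb ha' hb).trans (le_of_eq ?_)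
    calc √(nsq ω μ₁ a).toReal * √(nsq ω μ₂ b).toReal * √(nsq ω μ₁ a').toReal *
          √(nsq ω μ₂ b).toReal = (√(nsq ω μ₂ b).toReal * √(nsq ω μ₂ b).toReal) *
          √(nsq ω μ₁ a').toReal * √(nsq ω μ₁ a).toReal := by ring
      _ = _ := by rw [Real.mul_self_sqrt ENNReal.toReal_nonneg]
  add := fun b a' a₁ a₂ hb ha' h1 h2 => H221.th_add h t₁ t₂ h1 h2 hb ha' hb
  smul := fun c b a' a hb ha' ha => H221.th_smul h t₁ t₂ ha hb ha' hb c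
  add' := fun b a₁ a₂ a hb h1 h2 ha => H221.th_add' h t₁ t₂ ha hb h1 h2 hb
  smul' := fun c b a' a hb ha' ha => H221.th_smul' h t₁ t₂ ha hb ha' hb c
  rt := fun b a' a hb ha' ha z => H221.th_rt a a' b b z
  cj := fun b a' a hb ha' ha v => H221.th_cj h t₁ t₂ ha hb ha' hb v
  cont := fun b a' a hb ha' ha => H221.th_cont h hd₁ hd₂ t₁ t₂ ha hb ha' hb

end thp

section final

variable {Γ Λ K G₁ G₂ H₁ H₂ : Type} [Group Γ] [Countable Γ] [Group Λ] [Countable Λ]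
    [NormedAddCommGroup K] [InnerProductSpace ℂ K] [CompleteSpace K]
    [Group G₁] [TopologicalSpace G₁] [IsTopologicalGroup G₁] [LocallyCompactSpace G₁]
    [SecondCountableTopology G₁] [T2Space G₁] [MeasurableSpace G₁] [BorelSpace G₁]
    [Group G₂] [TopologicalSpace G₂] [IsTopologicalGroup G₂] [LocallyCompactSpace G₂]
    [SecondCountableTopology G₂] [T2Space G₂] [MeasurableSpace G₂] [BorelSpace G₂]
    [Group H₁] [TopologicalSpace H₁] [IsTopologicalGroup H₁] [LocallyCompactSpace H₁]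
    [SecondCountableTopology H₁] [T2Space H₁] [MeasurableSpace H₁] [BorelSpace H₁]
    [Group H₂] [TopologicalSpace H₂] [IsTopologicalGroup H₂] [LocallyCompactSpace H₂]
    [SecondCountableTopology H₂] [T2Space H₂] [MeasurableSpace H₂] [BorelSpace H₂]

/-- The averaged form. -/
noncomputable def qq (D : PA.Pic Γ Λ K) (q₁ : Λ →* H₁) (q₂ : Λ →* H₂)
    (μ₁ : Measure G₁) (μ₂ : Measure G₂) (m : Measure (H₁ × H₂)) (b : G₂ → K →L[ℂ] K)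
    (a' a : G₁ → K →L[ℂ] K) : ℂ :=
  ∫ h, Th D.Ω μ₁ μ₂ (al q₁ D.V h.1 a) (al q₂ D.V h.2 b) (al q₁ D.V h.1 a') (al q₂ D.V h.2 b) ∂m

/-- [A-POS], helper796: for the operator `S = T ⊗ 1` of the averaged form: positivity, the `L¹`
bound and the value of the constant. -/
def APos (D : PA.Pic Γ Λ K) (p₁ : Γ →* G₁) (p₂ : Γ →* G₂) (q₁ : Λ →* H₁) (q₂ : Λ →* H₂)
    (μ₁ : Measure G₁) [SigmaFinite μ₁] [μ₁.IsMulRightInvariant] (μ₂ : Measure G₂)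
    (m : Measure (H₁ × H₂)) : Prop :=
  ∀ b, PA.Smo D p₂ q₂ μ₂ b →
    ∀ (S : Lp K 2 μ₁ →L[ℂ] Lp K 2 μ₁) (T : Lp ℂ 2 μ₁ →L[ℂ] Lp ℂ 2 μ₁),
    (∀ a' a, PA.Smo D p₁ q₁ μ₁ a' → PA.Smo D p₁ q₁ μ₁ a → ∀ ζ' ζ : K,
      ∀ (h' : MemLp (fun x => a' x ζ') 2 μ₁) (h : MemLp (fun x => a x ζ) 2 μ₁),
      ⟪h'.toLp _, S (h.toLp _)⟫_ℂ = qq D q₁ q₂ μ₁ μ₂ m b a' a * ⟪ζ', ζ⟫_ℂ) →
    (∀ z ξ, S (tr μ₁ z ξ) = tr μ₁ z (S ξ)) →
    (∀ f u, S (ten μ₁ u f) = ten μ₁ u (T f)) →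
    PosOp μ₁ T ∧
    (∀ A, MeasurableSet A → μ₁ A ≠ ⊤ → kp μ₁ T A Set.univ ≤ nsq D.Ω μ₂ b * μ₁ A) ∧
    ∀ t : ℝ, (∀ a' a, PA.Smo D p₁ q₁ μ₁ a' → PA.Smo D p₁ q₁ μ₁ a →
      qq D q₁ q₂ μ₁ μ₂ m b a' a = (t : ℂ) * ip D.Ω μ₁ a' a) → t = (nsq D.Ω μ₂ b).toReal

theorem noc_open {Λ H : Type} [Group Λ] [Group H] [TopologicalSpace H] {q : Λ →* H}
    (hq : PA.Noc q) (v : Λ) (hv : v ≠ 1) :
    ¬ IsOpen ((Subgroup.centralizer {q v} : Subgroup H) : Set H) := fun ho => by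
  obtain ⟨u, hu, hne⟩ := hq v hv _ (ho.mem_nhds (Subgroup.one_mem _))
  refine hne ?_
  have := Subgroup.mem_centralizer_iff.1 hu (q v) rfl
  exact this.symm

/-- [F1] from a place. -/
theorem f1_of {Γ Λ K G H : Type} [Group Γ] [Countable Γ] [Group Λ]
    [NormedAddCommGroup K] [InnerProductSpace ℂ K] [CompleteSpace K]
    [Group G] [TopologicalSpace G] [IsTopologicalGroup G]
    [SecondCountableTopology G] [MeasurableSpace G] [BorelSpace G]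
    [Group H] [TopologicalSpace H] [IsTopologicalGroup H] [T1Space H]
    (D : PA.Pic Γ Λ K) (p : Γ →* G) (q : Λ →* H) (μ : Measure G) [μ.IsMulLeftInvariant]
    (hq : PA.Pl q) : PA.F1 D p q μ := by
  intro a b ha hb ζ η
  have hC := noc_open hq.noc
  have oa := Smo.ort D.frm hq.dense hC ha ha
  have ob := Smo.ort D.frm hq.dense hC hb hb
  have oab := Smo.ort D.frm hq.dense hC ha hb
  exact ⟨memLp_apply D.tfrm ha.toFd ha.l2 oa ζ,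
    integral_apply D.tfrm ha.toFd hb.toFd ha.l2 hb.l2 oa ob oab ζ η⟩

/-- **[COM] from [A-POS].** -/
theorem com_of_pos (D : PA.Pic Γ Λ K) (p₁ : Γ →* G₁) (p₂ : Γ →* G₂) (q₁ : Λ →* H₁)
    (q₂ : Λ →* H₂) (μ₁ : Measure G₁) [μ₁.IsHaarMeasure] [μ₁.IsMulRightInvariant]
    (μ₂ : Measure G₂) [μ₂.IsHaarMeasure] [μ₂.IsMulRightInvariant] (m : Measure (H₁ × H₂))
    (hp₁ : PA.Pl p₁) (hq₁ : PA.Pl q₁) (hq₂ : PA.Pl q₂) (hrec : H325.Rec G₁)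
    (hm : PA.Lat (q₁.prod q₂) m) (hne : PA.NeS D p₁ q₁ μ₁) (hfull : PA.Full D p₁ q₁ μ₁)
    (hpos : APos D p₁ p₂ q₁ q₂ μ₁ μ₂ m) : PA.Com D p₁ p₂ q₁ q₂ μ₁ μ₂ := by
  have f₁ := f1_of D p₁ q₁ μ₁ hq₁
  have f₂ := f1_of D p₂ q₂ μ₂ hq₂
  have t₁ : T4 p₁ q₁ D.ρ D.V D.Ω μ₁ := t4 D.tfrm hq₁.dense (noc_open hq₁.noc)
  have t₂ : T4 p₂ q₂ D.ρ D.V D.Ω μ₂ := t4 D.tfrm hq₂.dense (noc_open hq₂.noc)
  have hΘ := thP D.frm hq₁.dense hq₂.dense t₁ t₂ (ι₁ := p₁) (ι₂ := p₂)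
  have hM : ∀ a : SM p₁ q₁ D.ρ D.V D.Ω μ₁, ∀ ζ : K, MemLp (fun x => a.1 x ζ) 2 μ₁ :=
    fun a ζ => (f₁ a.1 a.1 a.2 a.2 ζ 0).1
  -- the value of the averaged form
  have key : ∀ b, PA.Smo D p₂ q₂ μ₂ b → ∀ a, PA.Smo D p₁ q₁ μ₁ a →
      qq D q₁ q₂ μ₁ μ₂ m b a a = ((nsq D.Ω μ₂ b).toReal : ℂ) * ip D.Ω μ₁ a a := by
    intro b hb a ha
    obtain ⟨S, hS, hSn, hSV, hSr, hSl⟩ := exists_S D.frm hq₁.dense hq₂.dense hΘ hm hM
      (fun a b ha hb ζ η => (f₁ a b ha hb ζ η).2)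
      (fun ξ hξ => hfull ξ fun a ha v => hξ a ha _) hb
    obtain ⟨T, hT, hTl⟩ := comm2 (μ := μ₁) D.tfrm hp₁.dense (noc_open hp₁.noc) hSV
      (fun γ ξ => by
        have e := eq_rlo (μ := μ₁) (R := rl p₁ D.ρ μ₁ γ) (fun ξ => rl_ae p₁ D.ρ γ ξ)
        rw [← e]
        exact hSl γ ξ)
    have hTr : ∀ y f, T (tr μ₁ y f) = tr μ₁ y (T f) := fun y f =>
      T_tr D.frm.norm_omega hT (hSr y) f
    have hS' : ∀ a' a, PA.Smo D p₁ q₁ μ₁ a' → PA.Smo D p₁ q₁ μ₁ a → ∀ ζ' ζ : K,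
        ∀ (h' : MemLp (fun x => a' x ζ') 2 μ₁) (h : MemLp (fun x => a x ζ) 2 μ₁),
        ⟪h'.toLp _, S (h.toLp _)⟫_ℂ = qq D q₁ q₂ μ₁ μ₂ m b a' a * ⟪ζ', ζ⟫_ℂ :=
      fun a' a ha' ha ζ' ζ h' h => hS ⟨a', ha'⟩ ⟨a, ha⟩ ζ' ζ
    obtain ⟨hP, hL, hV⟩ := hpos b hb S T hS' hSr hT
    obtain ⟨c, hc⟩ := scalar_L1 μ₁ hrec hTl hTr hP (nsq D.Ω μ₂ b) (nsq_lt_top hb.l2).ne hL
    have hSc : S = (c : ℂ) • 1 := H35.S_eq_smul D.hρ fun f u => by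
      rw [hT, hc]
      rfl
    have hω : ⟪D.Ω, D.Ω⟫_ℂ = 1 := by
      rw [inner_self_eq_norm_sq_to_K, D.frm.norm_omega]
      simp
    have hval : ∀ a' a, PA.Smo D p₁ q₁ μ₁ a' → PA.Smo D p₁ q₁ μ₁ a →
        qq D q₁ q₂ μ₁ μ₂ m b a' a = ((c : ℝ) : ℂ) * ip D.Ω μ₁ a' a := by
      intro a' a ha' ha
      have h1 := hS' a' a ha' ha D.Ω D.Ω ha'.l2 ha.l2
      rw [hω, mul_one, hSc] at h1
      rw [← h1]
      change ⟪ha'.l2.toLp _, (c : ℂ) • ha.l2.toLp _⟫_ℂ = _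
      rw [inner_smul_right, H650.inner_toLp]
      rfl
    have hcv := hV c hval
    rw [hval a a ha ha, hcv]
  intro a b ha hb x y
  have hb' : PA.Smo D p₂ q₂ μ₂ (fun y => adjoint (b y)) := smo_adj D.frm hb
  have k1 := key _ hb' a ha
  have h1 := H221.comm_of_average' (μ₁ := μ₁) (μ₂ := μ₂) f₁ f₂ hm
    (α := fun h : H₁ × H₂ => al q₁ D.V h.1 a)
    (β := fun h : H₁ × H₂ => al q₂ D.V h.2 fun y => adjoint (b y))
    (A := (nsq D.Ω μ₁ a).toReal) (B := (nsq D.Ω μ₂ fun y => adjoint (b y)).toReal)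
    (fun h => smo_al D.frm hq₁.dense ha h.1) (fun h => smo_al D.frm hq₂.dense hb' h.2)
    (fun h => by
      rw [ip_self (smo_al D.frm hq₁.dense ha h.1).l2, H221.nsq_al D.frm hq₁.dense ha]
      exact Complex.ofReal_re _)
    (fun h => by
      rw [ip_self (smo_al D.frm hq₂.dense hb' h.2).l2, H221.nsq_al D.frm hq₂.dense hb']
      exact Complex.ofReal_re _)
    (T := fun h => Th D.Ω μ₁ μ₂ (al q₁ D.V h.1 a) (al q₂ D.V h.2 fun y => adjoint (b y))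
      (al q₁ D.V h.1 a) (al q₂ D.V h.2 fun y => adjoint (b y)))
    (fun h => rfl)
    (H221.th_cont D.frm hq₁.dense hq₂.dense t₁ t₂ ha hb' ha hb')
    (fun v h => H221.th_inv D.frm hq₁.dense hq₂.dense t₁ t₂ ha hb' ha hb' v h)
    (by
      have k2 : (∫ h, Th D.Ω μ₁ μ₂ (al q₁ D.V h.1 a) (al q₂ D.V h.2 fun y => adjoint (b y))
        (al q₁ D.V h.1 a) (al q₂ D.V h.2 fun y => adjoint (b y)) ∂m) =
        qq D q₁ q₂ μ₁ μ₂ m (fun y => adjoint (b y)) a a := rfl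
      rw [k2, k1, ip_self ha.l2, ← Complex.ofReal_mul, Complex.ofReal_re, mul_comm])
    1 x y
  have e1 : al q₁ D.V (1 : H₁ × H₂).1 a x = a x := al_one D.frm hq₁.dense ha.acont x
  have e2 : al q₂ D.V (1 : H₁ × H₂).2 (fun y => adjoint (b y)) y = adjoint (b y) :=
    al_one D.frm hq₂.dense hb'.acont y
  simp only [e1, e2, adjoint_adjoint] at h1
  exact h1

end final

end Vale.Agent.P092.H76
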