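import Vale.Agent.P092.H76.Com
import Vale.Agent.P092.PA.Main

/-!
P092 (helper76), team A: `PA.ComStmt` from the positivity block.
-/

set_option linter.all false

open MeasureTheory Filter Topology ContinuousLinearMap
open scoped InnerProductSpace

namespace Vale.Agent.P092.H76

/-- The literal statement of [A-POS]. -/
def APosStmt : Prop :=
  ∀ (Γ Λ K G₁ G₂ H₁ H₂ : Type) [Group Γ] [Countable Γ] [Group Λ] [Countable Λ]
    [NormedAddCommGroup K] [InnerProductSpace ℂ K] [CompleteSpace K]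
    [Group G₁] [TopologicalSpace G₁] [IsTopologicalGroup G₁] [LocallyCompactSpace G₁]
    [SecondCountableTopology G₁] [T2Space G₁] [MeasurableSpace G₁] [BorelSpace G₁]
    [Group G₂] [TopologicalSpace G₂] [IsTopologicalGroup G₂] [LocallyCompactSpace G₂]
    [SecondCountableTopology G₂] [T2Space G₂] [MeasurableSpace G₂] [BorelSpace G₂]
    [Group H₁] [TopologicalSpace H₁] [IsTopologicalGroup H₁] [LocallyCompactSpace H₁]
    [SecondCountableTopology H₁] [T2Space H₁] [MeasurableSpace H₁] [BorelSpace H₁]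
    [Group H₂] [TopologicalSpace H₂] [IsTopologicalGroup H₂] [LocallyCompactSpace H₂]
    [SecondCountableTopology H₂] [T2Space H₂] [MeasurableSpace H₂] [BorelSpace H₂]
    (D : PA.Pic Γ Λ K) (p₁ : Γ →* G₁) (p₂ : Γ →* G₂) (q₁ : Λ →* H₁) (q₂ : Λ →* H₂)
    (μ₁ : Measure G₁) [μ₁.IsHaarMeasure] [μ₁.IsMulRightInvariant]
    (μ₂ : Measure G₂) [μ₂.IsHaarMeasure] [μ₂.IsMulRightInvariant] (m : Measure (H₁ × H₂)),
    PA.Pl p₁ → PA.Pl p₂ → PA.Pl q₁ → PA.Pl q₂ → PA.Lat (q₁.prod q₂) m →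
    PA.NeS D p₁ q₁ μ₁ → PA.Full D p₁ q₁ μ₁ → APos D p₁ p₂ q₁ q₂ μ₁ μ₂ m

theorem comStmt_of (h : APosStmt) : PA.ComStmt := by
  intro Γ Λ K G₁ G₂ H₁ H₂ _ _ _ _ _ _ _ _ _ _ _ _ _ _ _ _ _ _ _ _ _ _ _ _ _ _ _ _ _ _ _ _ _ _
    _ _ _ _ _ D p₁ p₂ q₁ q₂ μ₁ _ _ μ₂ _ _ m hp₁ hp₂ hq₁ hq₂ fG fH hm hne hfull
  exact com_of_pos D p₁ p₂ q₁ q₂ μ₁ μ₂ m hp₁ hq₁ hq₂ fG.recu hm hne hfull
    (h _ _ _ _ _ _ _ D p₁ p₂ q₁ q₂ μ₁ μ₂ m hp₁ hp₂ hq₁ hq₂ hm hne hfull)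

end Vale.Agent.P092.H76
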