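import Vale.Agent.P092.H43.LocUse

/-!
P092 (helper76), Teams C and D, all `t`: the boundary maps of the two legs commute. Abstract part:
the multiplication operators of leg 2 in the coordinates of leg 1 are asymptotically those of
leg 2, so the limits of the two legs commute.
-/

set_option linter.all false

open scoped InnerProductSpace
open Filter Topology ContinuousLinearMap

namespace Vale.Agent.P092.H76.CommT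

open Vale.Agent.P092.H859.CL
open Vale.Agent.P092.H43 (Loc2 key_le)

section abs

variable {α K L : Type} [NormedAddCommGroup K] [InnerProductSpace ℂ K] [CompleteSpace K]
  [NormedAddCommGroup L] [InnerProductSpace ℂ L] [CompleteSpace L] {l : Filter α}

theorem inner_diff {x x' y y' : α → L} {C : ℝ} (hx : ∀ w, ‖x w‖ ≤ C) (hy : ∀ w, ‖y' w‖ ≤ C)
    (h1 : Tendsto (fun w => x w - x' w) l (𝓝 0)) (h2 : Tendsto (fun w => y w - y' w) l (𝓝 0)) :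
    Tendsto (fun w => ⟪x w, y w⟫_ℂ - ⟪x' w, y' w⟫_ℂ) l (𝓝 0) := by
  have h3 : Tendsto (fun w => C * ‖y w - y' w‖ + C * ‖x w - x' w‖) l (𝓝 0) := by
    have h4 := (h2.norm.const_mul C).add (h1.norm.const_mul C)
    simpa using h4
  refine squeeze_zero_norm (fun w => ?_) h3
  have e : ⟪x w, y w⟫_ℂ - ⟪x' w, y' w⟫_ℂ = ⟪x w, y w - y' w⟫_ℂ + ⟪x w - x' w, y' w⟫_ℂ := by
    rw [inner_sub_right, inner_sub_left]; ring
  rw [e]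
  refine (norm_add_le _ _).trans (add_le_add ?_ ?_)
  · exact (norm_inner_le_norm _ _).trans (mul_le_mul_of_nonneg_right (hx w) (norm_nonneg _))
  · refine (norm_inner_le_norm _ _).trans ?_
    rw [mul_comm]
    exact mul_le_mul_of_nonneg_right (hy w) (norm_nonneg _)

theorem norm_of_inner {J : K →L[ℂ] L} (hJ : ∀ x y, ⟪J x, J y⟫_ℂ = ⟪x, y⟫_ℂ) (x : K) :
    ‖J x‖ = ‖x‖ := by
  have h1 := hJ x x
  rw [inner_self_eq_norm_sq_to_K, inner_self_eq_norm_sq_to_K] at h1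
  have h2 : ‖J x‖ ^ 2 = ‖x‖ ^ 2 := by exact_mod_cast h1
  exact (pow_left_inj₀ (norm_nonneg _) (norm_nonneg _) two_ne_zero).mp h2

theorem key_sq {J : K →L[ℂ] L} (hJ : ∀ x y, ⟪J x, J y⟫_ℂ = ⟪x, y⟫_ℂ) {T : L →L[ℂ] L}
    {m : K →L[ℂ] K} (hT : ∀ x y, ⟪T x, y⟫_ℂ = ⟪x, T y⟫_ℂ) (hm : ∀ x y, ⟪m x, y⟫_ℂ = ⟪x, m y⟫_ℂ)
    (b c : K) : ‖T (J b) - J c‖ ^ 2 =
      (⟪J b, T (T (J b))⟫_ℂ - ⟪b, m (m b)⟫_ℂ).re -
      2 * (⟪J c, T (J b)⟫_ℂ - ⟪c, m b⟫_ℂ).re + ‖m b - c‖ ^ 2 := by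
  have e1 : ∀ v : L, ‖v‖ ^ 2 = (⟪v, v⟫_ℂ).re := fun v => by
    rw [inner_self_eq_norm_sq_to_K]; norm_cast
  have e2 : ∀ v : K, ‖v‖ ^ 2 = (⟪v, v⟫_ℂ).re := fun v => by
    rw [inner_self_eq_norm_sq_to_K]; norm_cast
  have c1 : (⟪T (J b), J c⟫_ℂ).re = (⟪J c, T (J b)⟫_ℂ).re := by
    rw [← inner_conj_symm, Complex.conj_re]
  have c2 : (⟪m b, c⟫_ℂ).re = (⟪c, m b⟫_ℂ).re := by
    rw [← inner_conj_symm, Complex.conj_re]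
  have d1 : ⟪T (J b), T (J b)⟫_ℂ = ⟪J b, T (T (J b))⟫_ℂ := hT _ _
  have d2 : ⟪m b, m b⟫_ℂ = ⟪b, m (m b)⟫_ℂ := hm _ _
  rw [e1, e2]
  simp only [inner_sub_left, inner_sub_right, Complex.sub_re]
  rw [d1, d2, c1, c2, hJ]
  ring

/-- If the compression of `T` by `J` is asymptotically `m` (also for the squares), then `T` maps
`J π ξ` asymptotically to `J π (E ξ)`. -/
theorem star_lim {J : K →L[ℂ] L} (hJ : ∀ x y, ⟪J x, J y⟫_ℂ = ⟪x, y⟫_ℂ) {T : L →L[ℂ] L}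
    {m E : K →L[ℂ] K} {π : α → (K →L[ℂ] K)}
    (hT : ∀ x y, ⟪T x, y⟫_ℂ = ⟪x, T y⟫_ℂ) (hm : ∀ x y, ⟪m x, y⟫_ℂ = ⟪x, m y⟫_ℂ)
    (hlim : ∀ ξ, Tendsto (fun w => m (π w ξ) - π w (E ξ)) l (𝓝 0))
    (h1 : ∀ ξ η, Tendsto (fun w => ⟪J (π w η), T (J (π w ξ))⟫_ℂ - ⟪π w η, m (π w ξ)⟫_ℂ) l (𝓝 0))
    (h2 : ∀ ξ η, Tendsto (fun w => ⟪J (π w η), T (T (J (π w ξ)))⟫_ℂ -
      ⟪π w η, m (m (π w ξ))⟫_ℂ) l (𝓝 0)) (ξ : K) :
    Tendsto (fun w => T (J (π w ξ)) - J (π w (E ξ))) l (𝓝 0) := by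
  have a1 := (Complex.continuous_re.tendsto _).comp (h2 ξ ξ)
  have a2 := ((Complex.continuous_re.tendsto _).comp (h1 ξ (E ξ))).const_mul 2
  have a3 := (hlim ξ).norm.pow 2
  have a4 := (a1.sub a2).add a3
  rw [Complex.zero_re, mul_zero, sub_zero, norm_zero, zero_pow two_ne_zero, add_zero] at a4
  have a5 : Tendsto (fun w => ‖T (J (π w ξ)) - J (π w (E ξ))‖ ^ 2) l (𝓝 0) :=
    a4.congr fun w => (key_sq hJ hT hm (π w ξ) (π w (E ξ))).symm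
  have a6 := a5.sqrt
  rw [Real.sqrt_zero] at a6
  exact tendsto_zero_iff_norm_tendsto_zero.2 (a6.congr fun w => Real.sqrt_sq (norm_nonneg _))

/-- A strong limit of self-adjoint operators is self-adjoint. -/
theorem sa_lim [l.NeBot] {m E : K →L[ℂ] K} {π : α → (K →L[ℂ] K)}
    (hπ : ∀ w x y, ⟪π w x, π w y⟫_ℂ = ⟪x, y⟫_ℂ) (hm : ∀ x y, ⟪m x, y⟫_ℂ = ⟪x, m y⟫_ℂ)
    (hlim : ∀ ξ, Tendsto (fun w => m (π w ξ) - π w (E ξ)) l (𝓝 0)) (x y : K) :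
    ⟪E x, y⟫_ℂ = ⟪x, E y⟫_ℂ := by
  have hn : ∀ w v, ‖π w v‖ = ‖v‖ := fun w => norm_of_inner (hπ w)
  have hc : ∀ v : K, ∃ C : ℝ, ∀ w, ‖m (π w v)‖ ≤ C ∧ ‖π w v‖ ≤ C := fun v =>
    ⟨max (‖m‖ * ‖v‖) ‖v‖, fun w => ⟨((m.le_opNorm _).trans_eq (by rw [hn])).trans
      (le_max_left _ _), (hn w v).le.trans (le_max_right _ _)⟩⟩
  obtain ⟨C, hC⟩ := hc x
  obtain ⟨C', hC'⟩ := hc y
  have h0 : ∀ v : K, Tendsto (fun w => π w v - π w v) l (𝓝 0) := fun v => by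
    simp only [sub_self]
    exact tendsto_const_nhds
  have h1 := inner_diff (x := fun w => m (π w x)) (x' := fun w => π w (E x))
    (y := fun w => π w y) (y' := fun w => π w y) (C := max C C')
    (fun w => (hC w).1.trans (le_max_left _ _)) (fun w => (hC' w).2.trans (le_max_right _ _))
    (hlim x) (h0 y)
  have h2 := inner_diff (x := fun w => π w x) (x' := fun w => π w x)
    (y := fun w => m (π w y)) (y' := fun w => π w (E y)) (C := max C (‖E y‖))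
    (fun w => (hC w).2.trans (le_max_left _ _)) (fun w => (hn w _).le.trans (le_max_right _ _))
    (h0 x) (hlim y)
  have h3 := h1.sub h2
  have h4 : ∀ w, (⟪m (π w x), π w y⟫_ℂ - ⟪π w (E x), π w y⟫_ℂ) -
      (⟪π w x, m (π w y)⟫_ℂ - ⟪π w x, π w (E y)⟫_ℂ) = ⟪x, E y⟫_ℂ - ⟪E x, y⟫_ℂ := fun w => by
    rw [hm, hπ, hπ]; ring
  have h5 := h3.congr h4
  rw [sub_zero] at h5
  have h6 := tendsto_nhds_unique h5 tendsto_const_nhds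
  exact (sub_eq_zero.1 h6.symm).symm

/-- **Asymptotic commutation of the two legs**; `m₁` is arbitrary (in use `m S`, any `S`). -/
theorem hc_lim {J : K →L[ℂ] L} (hJ : ∀ x y, ⟪J x, J y⟫_ℂ = ⟪x, y⟫_ℂ)
    {T₁ T₂ : L →L[ℂ] L} {m₁ m₂ E₂ : K →L[ℂ] K} {π : α → (K →L[ℂ] K)}
    (hπ : ∀ w x y, ⟪π w x, π w y⟫_ℂ = ⟪x, y⟫_ℂ)
    (hT₁ : ∀ x y, ⟪T₁ x, y⟫_ℂ = ⟪x, T₁ y⟫_ℂ) (hT₂ : ∀ x y, ⟪T₂ x, y⟫_ℂ = ⟪x, T₂ y⟫_ℂ)
    (hm₂ : ∀ x y, ⟪m₂ x, y⟫_ℂ = ⟪x, m₂ y⟫_ℂ)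
    (hc : ∀ x, T₁ (T₂ x) = T₂ (T₁ x)) (hon : ∀ x, T₁ (J x) = J (m₁ x))
    (l₂ : ∀ ξ, Tendsto (fun w => m₂ (π w ξ) - π w (E₂ ξ)) l (𝓝 0))
    (h1 : ∀ ξ η, Tendsto (fun w => ⟪J (π w η), T₂ (J (π w ξ))⟫_ℂ -
      ⟪π w η, m₂ (π w ξ)⟫_ℂ) l (𝓝 0))
    (h2 : ∀ ξ η, Tendsto (fun w => ⟪J (π w η), T₂ (T₂ (J (π w ξ)))⟫_ℂ -
      ⟪π w η, m₂ (m₂ (π w ξ))⟫_ℂ) l (𝓝 0)) (x y : K) :
    Tendsto (fun w => ⟪m₁ (π w x), m₂ (π w y)⟫_ℂ - ⟪m₂ (π w x), m₁ (π w y)⟫_ℂ) l (𝓝 0) := by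
  have hn : ∀ w v, ‖π w v‖ = ‖v‖ := fun w => norm_of_inner (hπ w)
  have hJn : ∀ v, ‖J v‖ = ‖v‖ := norm_of_inner hJ
  have s2 := star_lim hJ hT₂ hm₂ l₂ h1 h2
  have z1 : ∀ f : α → K, Tendsto (fun w => f w - f w) l (𝓝 0) := fun f => by
    simp only [sub_self]
    exact tendsto_const_nhds
  have z2 : ∀ f : α → L, Tendsto (fun w => f w - f w) l (𝓝 0) := fun f => by
    simp only [sub_self]
    exact tendsto_const_nhds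
  have b1 : ∀ w v, ‖m₁ (π w v)‖ ≤ ‖m₁‖ * ‖v‖ := fun w v =>
    (m₁.le_opNorm _).trans_eq (by rw [hn])
  have b2 : ∀ w v, ‖T₁ (J (π w v))‖ ≤ ‖m₁‖ * ‖v‖ := fun w v => by
    rw [hon, hJn]; exact b1 w v
  have a1 := inner_diff (x := fun w => m₁ (π w x)) (x' := fun w => m₁ (π w x))
    (y := fun w => m₂ (π w y)) (y' := fun w => π w (E₂ y)) (C := max (‖m₁‖ * ‖x‖) ‖E₂ y‖)
    (fun w => (b1 w x).trans (le_max_left _ _))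
    (fun w => (hn w _).le.trans (le_max_right _ _)) (z1 _) (l₂ y)
  have a2 := inner_diff (x := fun w => T₁ (J (π w x))) (x' := fun w => T₁ (J (π w x)))
    (y := fun w => T₂ (J (π w y))) (y' := fun w => J (π w (E₂ y)))
    (C := max (‖m₁‖ * ‖x‖) ‖E₂ y‖)
    (fun w => (b2 w x).trans (le_max_left _ _))
    (fun w => (by rw [hJn, hn] : ‖J (π w (E₂ y))‖ = ‖E₂ y‖).le.trans (le_max_right _ _))
    (z2 _) (s2 y)
  have a3 := inner_diff (x' := fun w => π w (E₂ x)) (x := fun w => m₂ (π w x))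
    (y := fun w => m₁ (π w y)) (y' := fun w => m₁ (π w y)) (C := max (‖m₂‖ * ‖x‖) (‖m₁‖ * ‖y‖))
    (fun w => ((m₂.le_opNorm _).trans_eq (by rw [hn])).trans (le_max_left _ _))
    (fun w => (b1 w y).trans (le_max_right _ _)) (l₂ x) (z1 _)
  have a4 := inner_diff (x' := fun w => J (π w (E₂ x))) (x := fun w => T₂ (J (π w x)))
    (y := fun w => T₁ (J (π w y))) (y' := fun w => T₁ (J (π w y)))
    (C := max (‖T₂‖ * ‖x‖) (‖m₁‖ * ‖y‖))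
    (fun w => ((T₂.le_opNorm _).trans_eq (by rw [hJn, hn])).trans (le_max_left _ _))
    (fun w => (b2 w y).trans (le_max_right _ _)) (s2 x) (z2 _)
  have a5 := (a1.sub a2).sub (a3.sub a4)
  rw [sub_zero, sub_zero] at a5
  refine a5.congr fun w => ?_
  rw [hon, hon, hJ, hJ, ← hon, ← hon, hT₁, hc, ← hT₂]
  ring

/-- **The limits of the two legs commute.** -/
theorem comm_lim [l.NeBot] {J : K →L[ℂ] L} (hJ : ∀ x y, ⟪J x, J y⟫_ℂ = ⟪x, y⟫_ℂ)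
    {T₁ T₂ : L →L[ℂ] L} {m₁ m₂ E₁ E₂ : K →L[ℂ] K} {π : α → (K →L[ℂ] K)}
    (hπ : ∀ w x y, ⟪π w x, π w y⟫_ℂ = ⟪x, y⟫_ℂ)
    (hT₁ : ∀ x y, ⟪T₁ x, y⟫_ℂ = ⟪x, T₁ y⟫_ℂ) (hT₂ : ∀ x y, ⟪T₂ x, y⟫_ℂ = ⟪x, T₂ y⟫_ℂ)
    (hm₁ : ∀ x y, ⟪m₁ x, y⟫_ℂ = ⟪x, m₁ y⟫_ℂ) (hm₂ : ∀ x y, ⟪m₂ x, y⟫_ℂ = ⟪x, m₂ y⟫_ℂ)
    (hc : ∀ x, T₁ (T₂ x) = T₂ (T₁ x)) (hon : ∀ x, T₁ (J x) = J (m₁ x))
    (l₁ : ∀ ξ, Tendsto (fun w => m₁ (π w ξ) - π w (E₁ ξ)) l (𝓝 0))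
    (l₂ : ∀ ξ, Tendsto (fun w => m₂ (π w ξ) - π w (E₂ ξ)) l (𝓝 0))
    (h1 : ∀ ξ η, Tendsto (fun w => ⟪J (π w η), T₂ (J (π w ξ))⟫_ℂ -
      ⟪π w η, m₂ (π w ξ)⟫_ℂ) l (𝓝 0))
    (h2 : ∀ ξ η, Tendsto (fun w => ⟪J (π w η), T₂ (T₂ (J (π w ξ)))⟫_ℂ -
      ⟪π w η, m₂ (m₂ (π w ξ))⟫_ℂ) l (𝓝 0)) : E₁ * E₂ = E₂ * E₁ := by
  have hn : ∀ w v, ‖π w v‖ = ‖v‖ := fun w => norm_of_inner (hπ w)
  have hJn : ∀ v, ‖J v‖ = ‖v‖ := norm_of_inner hJ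
  have s2 := star_lim hJ hT₂ hm₂ l₂ h1 h2
  have s1 : ∀ ξ, Tendsto (fun w => T₁ (J (π w ξ)) - J (π w (E₁ ξ))) l (𝓝 0) := fun ξ => by
    have h3 := (J.continuous.tendsto 0).comp (l₁ ξ)
    rw [map_zero] at h3
    refine h3.congr fun w => ?_
    rw [hon]
    exact map_sub J _ _
  have key : ∀ x y : K, ⟪E₁ x, E₂ y⟫_ℂ = ⟪E₂ x, E₁ y⟫_ℂ := by
    intro x y
    have a1 := inner_diff (x := fun w => T₁ (J (π w x))) (x' := fun w => J (π w (E₁ x)))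
      (y := fun w => T₂ (J (π w y))) (y' := fun w => J (π w (E₂ y)))
      (C := max (‖T₁‖ * ‖x‖) ‖E₂ y‖)
      (fun w => ((T₁.le_opNorm _).trans_eq (by rw [hJn, hn])).trans (le_max_left _ _))
      (fun w => (by rw [hJn, hn] : ‖J (π w (E₂ y))‖ = ‖E₂ y‖).le.trans (le_max_right _ _))
      (s1 x) (s2 y)
    have a2 := inner_diff (x := fun w => T₂ (J (π w x))) (x' := fun w => J (π w (E₂ x)))
      (y := fun w => T₁ (J (π w y))) (y' := fun w => J (π w (E₁ y)))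
      (C := max (‖T₂‖ * ‖x‖) ‖E₁ y‖)
      (fun w => ((T₂.le_opNorm _).trans_eq (by rw [hJn, hn])).trans (le_max_left _ _))
      (fun w => (by rw [hJn, hn] : ‖J (π w (E₁ y))‖ = ‖E₁ y‖).le.trans (le_max_right _ _))
      (s2 x) (s1 y)
    have a3 := a1.sub a2
    have a4 : ∀ w, (⟪T₁ (J (π w x)), T₂ (J (π w y))⟫_ℂ - ⟪J (π w (E₁ x)), J (π w (E₂ y))⟫_ℂ) -
        (⟪T₂ (J (π w x)), T₁ (J (π w y))⟫_ℂ - ⟪J (π w (E₂ x)), J (π w (E₁ y))⟫_ℂ) =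
        ⟪E₂ x, E₁ y⟫_ℂ - ⟪E₁ x, E₂ y⟫_ℂ := fun w => by
      rw [hJ, hJ, hπ, hπ, hT₁, hT₂, hc]; ring
    have a5 := a3.congr a4
    rw [sub_zero] at a5
    have h6 := tendsto_nhds_unique a5 tendsto_const_nhds
    exact (sub_eq_zero.1 h6.symm).symm
  ext1 y
  refine ext_inner_left ℂ fun x => ?_
  change ⟪x, E₁ (E₂ y)⟫_ℂ = ⟪x, E₂ (E₁ y)⟫_ℂ
  rw [← sa_lim hπ hm₁ l₁ x (E₂ y), ← sa_lim hπ hm₂ l₂ x (E₁ y)]
  exact key x y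

end abs

section cmp

variable {Γ α K L : Type} [Group Γ] [NormedAddCommGroup K] [InnerProductSpace ℂ K]
  [CompleteSpace K] [NormedAddCommGroup L] [InnerProductSpace ℂ L] [CompleteSpace L]
  {l : Filter α} {mp : (Γ → ℝ) → (L →L[ℂ] L)} {V : L →L[ℂ] L} {Bd Bf : Set L} {C : ℝ}

/-- Weak asymptotic commutation with an operator `V` of the right algebra. -/
theorem cmp (hf : Fn mp) (hL : Loc2 mp (fun _ : Unit => V) Bd Bf) (hn : ∀ ζ ∈ Bf, ‖ζ‖ ≤ 1)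
    {A B : α → (K →L[ℂ] L)} (hA : ∀ w, ‖A w‖ ≤ 1) (hB : ∀ w, ‖B w‖ ≤ 1) {S : Set K}
    (hS : Dense ((Submodule.span ℂ S : Submodule ℂ K) : Set K))
    (hAS : ∀ w, ∀ ξ ∈ S, A w ξ ∈ Bf) (hBS : ∀ w, ∀ ξ ∈ S, B w ξ ∈ Bf) {F : Γ → ℂ}
    (hF : ∀ g, ‖F g‖ ≤ C)
    (hz : ∀ u, ∀ ξ ∈ S, Tendsto (fun w => mc mp (fun g => F (g * u) - F g) (A w ξ)) l (𝓝 0))
    (ξ η : K) :
    Tendsto (fun w => ⟪B w η, (mc mp F * V - V * mc mp F) (A w ξ)⟫_ℂ) l (𝓝 0) := by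
  obtain ⟨T, hT⟩ : ∃ T, T = mc mp F * V - V * mc mp F := ⟨_, rfl⟩
  rw [← hT]
  have hAn : ∀ w x, ‖A w x‖ ≤ ‖x‖ := fun w x => ((A w).le_opNorm x).trans
    (mul_le_of_le_one_left (norm_nonneg _) (hA w))
  have hBn : ∀ w x, ‖B w x‖ ≤ ‖x‖ := fun w x => ((B w).le_opNorm x).trans
    (mul_le_of_le_one_left (norm_nonneg _) (hB w))
  refine bform_of_total (B := fun w x y => ⟪B w x, T (A w y)⟫_ℂ) (C := ‖T‖) (norm_nonneg _)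
    (fun w x y => ?_) (fun w x x' y => ?_) (fun w x y y' => ?_) (fun w c x y => ?_)
    (fun w c x y => ?_) hS (fun η hη ξ hξ => ?_) η ξ
  · have h1 : ‖T (A w y)‖ ≤ ‖T‖ * ‖y‖ := (T.le_opNorm _).trans
      (mul_le_mul_of_nonneg_left (hAn w y) (norm_nonneg _))
    calc _ ≤ ‖B w x‖ * ‖T (A w y)‖ := norm_inner_le_norm _ _
      _ ≤ ‖x‖ * (‖T‖ * ‖y‖) := mul_le_mul (hBn w x) h1 (norm_nonneg _) (norm_nonneg _)
      _ = ‖T‖ * ‖x‖ * ‖y‖ := by ring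
  · simp only [map_add, inner_add_left]
  · simp only [map_add, inner_add_right]
  · simp only [map_smul, inner_smul_left, norm_mul, RCLike.norm_conj]
  · simp only [map_smul, inner_smul_right, norm_mul]
  · obtain ⟨C', hC'⟩ : ∃ C' : ℝ, C' = |C| + 1 := ⟨_, rfl⟩
    have hC0 : 0 < C' := by rw [hC']; positivity
    have hF' : ∀ g, ‖F g‖ ≤ C' := fun g => by
      rw [hC']
      have := hF g
      have := le_abs_self C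
      linarith
    rw [Metric.tendsto_nhds]
    intro δ hδ
    obtain ⟨S', N, hN0, hk⟩ := key_le hf hL hn () (ε := δ / (2 * C')) (by positivity)
    have h1 : ∀ u, Tendsto (fun w => ‖mc mp (fun g => F (g * u) - F g) (A w ξ)‖) l (𝓝 0) := by
      intro u
      have h2 := (hz u ξ hξ).norm
      rwa [norm_zero] at h2
    have h2 : Tendsto (fun w => N * ∑ u ∈ S', ‖mc mp (fun g => F (g * u) - F g) (A w ξ)‖) l
        (𝓝 0) := by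
      have h3 := (tendsto_finsetSum S' fun u _ => h1 u).const_mul N
      rwa [Finset.sum_const_zero, mul_zero] at h3
    filter_upwards [(Metric.tendsto_nhds.mp h2) (δ / 2) (by positivity)] with w hw
    rw [dist_zero_right, Real.norm_eq_abs] at hw
    rw [dist_zero_right]
    have h4 := hk C' hC0 F hF' (A w ξ) (hAS w ξ hξ) (B w η) (hBS w η hη)
    rw [← hT] at h4
    have h5 : C' * (δ / (2 * C')) = δ / 2 := by field_simp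
    rw [h5] at h4
    have h6 := (abs_lt.mp hw).2
    linarith

/-- **The compressions of the multiplication operators by two isometries are asymptotically
equal.** -/
theorem cmp_iso (hf : Fn mp) {J J' : K →L[ℂ] L} (hL : Loc2 mp (fun _ : Unit => V) Bd Bf)
    (hn : ∀ ζ ∈ Bf, ‖ζ‖ ≤ 1) (hJn : ∀ x, ‖J x‖ = ‖x‖) (hJn' : ∀ x, ‖J' x‖ = ‖x‖)
    (hV : ∀ x, V (J' x) = J x) (hV' : ∀ x, adjoint V (J x) = J' x)
    {π : α → (K →L[ℂ] K)} (hπ : ∀ w x, ‖π w x‖ = ‖x‖) {S : Set K}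
    (hS : Dense ((Submodule.span ℂ S : Submodule ℂ K) : Set K))
    (hAS : ∀ w, ∀ ξ ∈ S, J' (π w ξ) ∈ Bf) (hBS : ∀ w, ∀ ξ ∈ S, J (π w ξ) ∈ Bf) {F : Γ → ℂ}
    (hF : ∀ g, ‖F g‖ ≤ C)
    (hz : ∀ u, ∀ ξ ∈ S, Tendsto (fun w => mc mp (fun g => F (g * u) - F g) (J' (π w ξ))) l (𝓝 0))
    (ξ η : K) :
    Tendsto (fun w => ⟪J (π w η), mc mp F (J (π w ξ))⟫_ℂ -
      ⟪J' (π w η), mc mp F (J' (π w ξ))⟫_ℂ) l (𝓝 0) := by
  have h1 := cmp (V := V) (l := l) hf hL hn (A := fun w => J' ∘L π w) (B := fun w => J ∘L π w)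
    (fun w => ContinuousLinearMap.opNorm_le_bound _ zero_le_one fun x => by
      change ‖J' (π w x)‖ ≤ 1 * ‖x‖
      rw [hJn', hπ, one_mul])
    (fun w => ContinuousLinearMap.opNorm_le_bound _ zero_le_one fun x => by
      change ‖J (π w x)‖ ≤ 1 * ‖x‖
      rw [hJn, hπ, one_mul]) hS hAS hBS hF hz ξ η
  refine h1.congr fun w => ?_
  change ⟪J (π w η), mc mp F (V (J' (π w ξ))) - V (mc mp F (J' (π w ξ)))⟫_ℂ = _
  rw [inner_sub_right, hV, ← adjoint_inner_left V, hV']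

end cmp

end Vale.Agent.P092.H76.CommT
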