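import Vale.Agent.P092.H43.Loc2
import Vale.Agent.P092.H76.CommA

/-!
P092 (helper76), Teams C and D, all `t`: locality of the operators of the right algebra with respect
to the functions of the second coordinate.
-/

set_option linter.all false

open scoped InnerProductSpace ENNReal
open MeasureTheory Filter Topology ContinuousLinearMap

namespace Vale.Agent.P092.H76.CommT

open Vale.Agent.P092.H790 (CData Ri baseL fld_comp ae_comp ri_ae RAt lxt mpt ept ept_ae ind_ae)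
open Vale.Agent.P092.H160 Vale.Agent.P092.H553 Vale.Agent.P092.H432
open Vale.Agent.P092.H859.CL
open Vale.Agent.P092.H43 (Loc2 BfL LB rat_sub both_le bfl_dense regroup)

section row

variable {X : Type} [MeasurableSpace X] {μ : Measure X} [IsProbabilityMeasure μ]
  {Γ Γ₂ ι : Type} [Group Γ] [Group Γ₂] [Countable Γ] [Countable Γ₂] [Fintype ι]

/-- Multiplication by the functions of the second coordinate. -/
noncomputable def mp2 (μ : Measure X) [IsProbabilityMeasure μ] (Γ ι : Type) [Group Γ]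
    (F : Γ₂ → ℝ) : Lp (Ell2 ((Γ × Γ₂) × ι)) 2 μ →L[ℂ] Lp (Ell2 ((Γ × Γ₂) × ι)) 2 μ :=
  mpt μ ι (fun x : Γ × Γ₂ => F x.2)

theorem fn_mp2 : Fn (mp2 (Γ₂ := Γ₂) μ Γ ι) where
  one := (baseL μ (Γ × Γ₂) ι).mp_one
  add := fun {F G C D} hF hG => (baseL μ (Γ × Γ₂) ι).mp_add (F := fun x : Γ × Γ₂ => F x.2)
    (G := fun x : Γ × Γ₂ => G x.2) (C := C) (D := D) (fun x => hF _) (fun x => hG _)
  smul := fun c {F C} hF => (baseL μ (Γ × Γ₂) ι).mp_smul c (F := fun x : Γ × Γ₂ => F x.2)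
    (C := C) (fun x => hF _)
  mul := fun {F G C D} hF hG => (baseL μ (Γ × Γ₂) ι).mp_mul (F := fun x : Γ × Γ₂ => F x.2)
    (G := fun x : Γ × Γ₂ => G x.2) (C := C) (D := D) (fun x => hF _) (fun x => hG _)
  adj := fun {F C} hF => (baseL μ (Γ × Γ₂) ι).mp_adj (F := fun x : Γ × Γ₂ => F x.2)
    (C := C) (fun x => hF _)

/-- Locality of an operator of the right algebra, functions of the second coordinate. -/
theorem loc_snd {V : Lp (Ell2 ((Γ × Γ₂) × ι)) 2 μ →L[ℂ] Lp (Ell2 ((Γ × Γ₂) × ι)) 2 μ}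
    (hV : RAt μ V) {ε : ℝ} (hε : 0 < ε) :
    ∃ (S : Finset Γ₂) (Y : Γ₂ → (Lp (Ell2 ((Γ × Γ₂) × ι)) 2 μ →L[ℂ]
        Lp (Ell2 ((Γ × Γ₂) × ι)) 2 μ)),
    (∀ u ∈ S, ∀ F : Γ₂ → ℝ, (∀ g, |F g| ≤ 1) → mp2 μ Γ ι F * Y u =
      Y u * mp2 μ Γ ι (fun g => F (g * u))) ∧
    ∀ ζ ∈ BfL μ (Γ × Γ₂) ι, ‖V ζ - ∑ u ∈ S, Y u ζ‖ ≤ ε ∧
      ‖adjoint V ζ - ∑ u ∈ S, adjoint (Y u) ζ‖ ≤ ε := by
  obtain ⟨Y, ⟨n, Z, u, h1, h2, rfl⟩, h3⟩ := H790.exists_ap V (ε := ε ^ 2) (by positivity)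
  have hW : RAt μ (V - ∑ j, Z j) := rat_sub hV h1
  have a1 : ContinuousLinearMap.adjoint
      (1 : Lp (Ell2 ((Γ × Γ₂) × ι)) 2 μ →L[ℂ] Lp (Ell2 ((Γ × Γ₂) × ι)) 2 μ) = 1 := by
    rw [← star_eq_adjoint, star_one]
  refine regroup (fun F : Γ₂ → ℝ => mp2 μ Γ ι F) Z (fun j => (u j).2) V V (V - ∑ j, Z j) 1
    (fun j F hF => h2 j (F := fun x : Γ × Γ₂ => F x.2) (C := 1) (fun x => hF x.2))
    (fun F hF => by rw [one_mul, mul_one]) (mul_one V).symm rfl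
    (fun ζ hζ => (both_le hW hε.le h3 hζ).1) (fun ζ hζ => ?_)
  rw [a1]
  exact (both_le hW hε.le h3 hζ).2

/-- `Loc2` for an operator of the right algebra which preserves the left bounded fields. -/
theorem loc2_snd {V : Lp (Ell2 ((Γ × Γ₂) × ι)) 2 μ →L[ℂ] Lp (Ell2 ((Γ × Γ₂) × ι)) 2 μ}
    (hV : RAt μ V) (hm : ∀ ζ ∈ BfL μ (Γ × Γ₂) ι, V ζ ∈ BfL μ (Γ × Γ₂) ι) :
    Loc2 (mp2 (Γ₂ := Γ₂) μ Γ ι) (fun _ : Unit => V) (BfL μ (Γ × Γ₂) ι) (BfL μ (Γ × Γ₂) ι) where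
  sub := subset_rfl
  dense := bfl_dense
  map := fun _ ζ hζ => hm ζ hζ
  loc := fun _ ε hε => loc_snd hV hε

theorem bfl_norm_le {ζ : Lp (Ell2 (Γ × ι)) 2 μ} (hζ : ζ ∈ BfL μ Γ ι) : ‖ζ‖ ≤ 1 := by
  have h1 : ‖ζ‖ ^ 2 ≤ 1 := by
    rw [H43.norm_sq_int']
    have h2 : ∫ x, ‖(ζ x : Ell2 (Γ × ι))‖ ^ 2 ∂μ ≤ ∫ x, (1 : ℝ) ∂μ := by
      refine integral_mono_ae ((Lp.memLp ζ).integrable_norm_pow (by norm_num))
        (integrable_const _) ?_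
      filter_upwards [H43.bfl_norm hζ] with x hx
      exact pow_le_one₀ (norm_nonneg _) hx
    rwa [integral_const, smul_eq_mul, mul_one, probReal_univ] at h2
  nlinarith [norm_nonneg ζ]

end row

end Vale.Agent.P092.H76.CommT
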