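import Vale.Agent.P092.H76.CommV
import Vale.Agent.P092.H21.RowM

/-!
P092 (helper76), Teams C and D, all `t`: the multiplication operators of the two legs commute
asymptotically, on the picture `L²(X; ℋ)` of a triple with an honest Parseval family and a flip.
-/

set_option linter.all false

open scoped InnerProductSpace ENNReal
open MeasureTheory Filter Topology ContinuousLinearMap

namespace Vale.Agent.P092.H76.CommT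

open Vale.Agent.P092.H790 (CData Ri baseL fld_comp ae_comp ri_ae RAt lxt mpt ept ept_ae ind_ae
  comp_mul)
open Vale.Agent.P092.H160 Vale.Agent.P092.H432 Vale.Agent.P092.SR
open Vale.Agent.P092.H553 hiding ind
open Vale.Agent.P092.H859.CL
open Vale.Agent.P092.H538 (fst)
open Vale.Agent.P092.H43 (Loc2 BfL LB)
open Vale.Agent.P092.H21

/-! ### The fibre -/

section fib

variable {Γ ι ℋ : Type} [Group Γ] [Fintype ι] [NormedAddCommGroup ℋ] [InnerProductSpace ℂ ℋ]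
  [CompleteSpace ℋ] {V R₁ R₂ : Γ →* (ℋ →L[ℂ] ℋ)} {ξ ξ₂ : ι → ℋ} (hT : Tri V R₁ R₂ ξ)
  (hT₂ : Tri V R₁ R₂ ξ₂) {s : ℋ →L[ℂ] ℋ}

/-- The change of families. -/
noncomputable def CF : Ell2 ((Γ × Γ) × ι) →L[ℂ] Ell2 ((Γ × Γ) × ι) :=
  UT hT ∘L adjoint (UT hT₂)

theorem CF_lx (g : Γ × Γ) (ζ : Ell2 ((Γ × Γ) × ι)) :
    CF hT hT₂ (lx g ζ) = lx g (CF hT hT₂ ζ) := by
  change UT hT (adjoint (UT hT₂) (lx g ζ)) = lx g (UT hT (adjoint (UT hT₂) ζ))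
  rw [adjUT_lx, UT_lx]

theorem CF_norm : ‖CF hT hT₂‖ ≤ 1 := by
  refine ContinuousLinearMap.opNorm_le_bound _ zero_le_one fun ζ => ?_
  change ‖UT hT (adjoint (UT hT₂) ζ)‖ ≤ _
  rw [UT_norm, one_mul]
  refine (ContinuousLinearMap.le_opNorm _ _).trans ?_
  have h1 : ‖adjoint (UT hT₂)‖ ≤ 1 := by
    rw [LinearIsometryEquiv.norm_map]
    exact ContinuousLinearMap.opNorm_le_bound _ zero_le_one fun η => by rw [UT_norm, one_mul]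
  exact mul_le_of_le_one_left (norm_nonneg _) h1

theorem CF_adj : adjoint (CF hT hT₂) = CF hT₂ hT := by
  rw [CF, adjoint_comp, adjoint_adjoint]; rfl

theorem CF_UT (v : ℋ) : CF hT hT₂ (UT hT₂ v) = UT hT v := by
  change UT hT (adjoint (UT hT₂) (UT hT₂ v)) = _
  rw [UT_left]

theorem UT_flip (ha : adjoint s = s) (h₁ : ∀ γ, s * R₁ γ = R₂ γ * s)
    (h₂ : ∀ γ, s * R₂ γ = R₁ γ * s) (hT₂ : Tri V R₁ R₂ fun i => s (ξ i)) (η : ℋ) (g h : Γ)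
    (i : ι) : UT hT₂ η ((g, h), i) = UT hT (s η) ((h, g), i) := by
  rw [UT_ap, UT_ap]
  change ⟪R₁ g (R₂ h (s (ξ i))), η⟫_ℂ = ⟪R₁ h (R₂ g (ξ i)), s η⟫_ℂ
  have e1 : R₂ h (s (ξ i)) = s (R₁ h (ξ i)) :=
    (congrArg (fun T : ℋ →L[ℂ] ℋ => T (ξ i)) (h₁ h)).symm
  have e2 : R₁ g (s (R₁ h (ξ i))) = s (R₂ g (R₁ h (ξ i))) :=
    (congrArg (fun T : ℋ →L[ℂ] ℋ => T (R₁ h (ξ i))) (h₂ g)).symm
  have e3 : ∀ x : ℋ, ⟪x, s η⟫_ℂ = ⟪s x, η⟫_ℂ := fun x => by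
    rw [← adjoint_inner_left, ha]
  rw [e1, e2, ← app12 hT, e3]

theorem flip_pt (hs : s * s = 1) (ha : adjoint s = s) (h₁ : ∀ γ, s * R₁ γ = R₂ γ * s)
    (h₂ : ∀ γ, s * R₂ γ = R₁ γ * s) (hT₂ : Tri V R₁ R₂ fun i => s (ξ i)) {F : Γ → ℝ} {C : ℝ}
    (hF : ∀ g, |F g| ≤ C) {v w : ℋ}
    (hvw : UT hT v = mp ι (fun x : Γ × Γ => F x.1) (UT hT (s w))) :
    UT hT₂ (s v) = mp ι (fun x : Γ × Γ => F x.2) (UT hT₂ w) := by
  apply ext_inner_dl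
  rintro ⟨⟨g, h⟩, i⟩
  have hss : s (s v) = v := congrArg (fun T : ℋ →L[ℂ] ℋ => T v) hs
  rw [mp, H553.mo_apply (F := fun x : (Γ × Γ) × ι => F x.1.2) (C := C) fun x => hF _]
  change UT hT₂ (s v) ((g, h), i) = (F h : ℂ) * UT hT₂ w ((g, h), i)
  rw [UT_flip hT ha h₁ h₂ hT₂, UT_flip hT ha h₁ h₂ hT₂, hss, hvw, mp,
    H553.mo_apply (F := fun x : (Γ × Γ) × ι => F x.1.1) (C := C) fun x => hF _]

end fib

/-! ### The picture -/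

section pic

variable {D Γ ι ℋ : Type} [Group D] [Group Γ] [Countable Γ] [Fintype ι] [NormedAddCommGroup ℋ]
  [InnerProductSpace ℂ ℋ] [CompleteSpace ℋ] {V R₁ R₂ : Γ →* (ℋ →L[ℂ] ℋ)} {ξ ξ₂ : ι → ℋ}
  (d : CData D Γ) (hT : Tri V R₁ R₂ ξ) (hT₀ : Tri V R₁ R₂ ξ₂) {s : ℋ →L[ℂ] ℋ}

/-- The change of families, on the row model. -/
noncomputable def VC : Lp (Ell2 ((Γ × Γ) × ι)) 2 d.μ →L[ℂ] Lp (Ell2 ((Γ × Γ) × ι)) 2 d.μ :=
  (CF hT hT₀).compLpL 2 d.μ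

theorem VC_ae (ζ : Lp (Ell2 ((Γ × Γ) × ι)) 2 d.μ) :
    ⇑(VC d hT hT₀ ζ) =ᵐ[d.μ] fun x => CF hT hT₀ (ζ x) :=
  (CF hT hT₀).coeFn_compLpL (p := 2) (μ := d.μ) ζ

theorem VC_adj : adjoint (VC d hT hT₀) = VC d hT₀ hT := by
  rw [VC, adjoint_compL, CF_adj]; rfl

theorem VC_JT (x : Lp ℋ 2 d.μ) : VC d hT hT₀ (JT d hT₀ x) = JT d hT x := by
  refine Lp.ext ?_
  filter_upwards [VC_ae d hT hT₀ (JT d hT₀ x), JT_ae d hT₀ x, JT_ae d hT x] with a h1 h2 h3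
  rw [h1, h2, h3, CF_UT]

theorem VC_rat : RAt d.μ (VC d hT hT₀) := by
  constructor
  · intro g
    have h1 : CF hT hT₀ * lx g = lx g * CF hT hT₀ := by
      ext1 ζ
      exact CF_lx hT hT₀ g ζ
    change (CF hT hT₀).compLpL 2 d.μ * (lx g).compLpL 2 d.μ =
      (lx g).compLpL 2 d.μ * (CF hT hT₀).compLpL 2 d.μ
    rw [← comp_mul, ← comp_mul, h1]
  · intro S hS
    exact H790.ind_comp hS _

theorem VC_bfl {ζ : Lp (Ell2 ((Γ × Γ) × ι)) 2 d.μ} (hζ : ζ ∈ BfL d.μ (Γ × Γ) ι) :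
    VC d hT hT₀ ζ ∈ BfL d.μ (Γ × Γ) ι := by
  change ∀ᵐ x ∂d.μ, LB (VC d hT hT₀ ζ x : Ell2 ((Γ × Γ) × ι))
  have h0 : ∀ᵐ x ∂d.μ, LB (ζ x : Ell2 ((Γ × Γ) × ι)) := hζ
  filter_upwards [h0, VC_ae d hT hT₀ ζ] with x h1 h2
  rw [h2]
  exact h1.map (fun s ξ => CF_lx hT hT₀ s ξ) (CF_norm hT hT₀)

/-- The flip of the picture. -/
noncomputable def Sc (s : ℋ →L[ℂ] ℋ) : Lp ℋ 2 d.μ →L[ℂ] Lp ℋ 2 d.μ := s.compLpL 2 d.μ

theorem Sc_ae (s : ℋ →L[ℂ] ℋ) (x : Lp ℋ 2 d.μ) : ⇑(Sc d s x) =ᵐ[d.μ] fun a => s (x a) :=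
  s.coeFn_compLpL (p := 2) (μ := d.μ) x

theorem Sc_Sc (hs : s * s = 1) (x : Lp ℋ 2 d.μ) : Sc d s (Sc d s x) = x := by
  refine Lp.ext ?_
  filter_upwards [Sc_ae d s (Sc d s x), Sc_ae d s x] with a h1 h2
  rw [h1, h2]
  exact congrArg (fun T : ℋ →L[ℂ] ℋ => T (x a)) hs

theorem Sc_adj (ha : adjoint s = s) : adjoint (Sc d s) = Sc d s := by
  rw [Sc, adjoint_compL, ha]

theorem Sc_inner (ha : adjoint s = s) (x y : Lp ℋ 2 d.μ) :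
    ⟪Sc d s x, y⟫_ℂ = ⟪x, Sc d s y⟫_ℂ := by
  rw [← adjoint_inner_right, Sc_adj d ha]

theorem Sc_pi (hsV : ∀ v, s * V v = V v * s) (g : D) (x : Lp ℋ 2 d.μ) :
    Sc d s (H34.Ind.pi d (V := V) hT.adjV g x) = H34.Ind.pi d (V := V) hT.adjV g (Sc d s x) :=
  (congrArg (fun T : Lp ℋ 2 d.μ →L[ℂ] Lp ℋ 2 d.μ => T x)
    (H34.Ind.pi_comp d (V := V) hT.adjV g hsV)).symm

/-- **The multiplication operators of leg 2 are honest in the second coordinate.** -/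
theorem JT_flip (hh : Hon R₁ R₂ ξ) (hs : s * s = 1) (ha : adjoint s = s)
    (h₁ : ∀ γ, s * R₁ γ = R₂ γ * s) (h₂ : ∀ γ, s * R₂ γ = R₁ γ * s)
    (hT₂ : Tri V R₁ R₂ fun i => s (ξ i)) {F : Γ → ℝ} {C : ℝ} (hF : ∀ g, |F g| ≤ C)
    (x : Lp ℋ 2 d.μ) :
    mp2 d.μ Γ ι F (JT d hT₂ x) = JT d hT₂ (Sc d s (mT d hT F (Sc d s x))) := by
  obtain ⟨ζ, hζ⟩ : ∃ ζ, ζ = mT d hT F (Sc d s x) := ⟨_, rfl⟩
  have h0 : JT d hT ζ = (fst (baseL d.μ (Γ × Γ) ι)).mp F (JT d hT (Sc d s x)) := by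
    rw [hζ]
    exact JT_mT d hT hh hF _
  rw [← hζ]
  have h3 : ⇑((fst (baseL d.μ (Γ × Γ) ι)).mp F (JT d hT (Sc d s x))) =ᵐ[d.μ]
      fun a => mp ι (fun x : Γ × Γ => F x.1) (JT d hT (Sc d s x) a) :=
    (mp ι (fun x : Γ × Γ => F x.1)).coeFn_compLpL (p := 2) (μ := d.μ) _
  have h4 : ⇑(mp2 d.μ Γ ι F (JT d hT₂ x)) =ᵐ[d.μ]
      fun a => mp ι (fun x : Γ × Γ => F x.2) (JT d hT₂ x a) :=
    (mp ι (fun x : Γ × Γ => F x.2)).coeFn_compLpL (p := 2) (μ := d.μ) _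
  have h5 := JT_ae d hT ζ
  rw [h0] at h5
  refine Lp.ext ?_
  filter_upwards [h3, h4, h5, JT_ae d hT (Sc d s x), JT_ae d hT₂ x, JT_ae d hT₂ (Sc d s ζ),
    Sc_ae d s x, Sc_ae d s ζ] with a a1 a2 a3 a4 a5 a6 a7 a8
  rw [a2, a5, a6, a8]
  refine (flip_pt hT hs ha h₁ h₂ hT₂ hF ?_).symm
  rw [← a3, a1, a4, a7]

theorem JT_flip_mc (hh : Hon R₁ R₂ ξ) (hs : s * s = 1) (ha : adjoint s = s)
    (h₁ : ∀ γ, s * R₁ γ = R₂ γ * s) (h₂ : ∀ γ, s * R₂ γ = R₁ γ * s)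
    (hT₂ : Tri V R₁ R₂ fun i => s (ξ i)) {H : Γ → ℂ} {C : ℝ} (hH : ∀ g, ‖H g‖ ≤ C)
    (x : Lp ℋ 2 d.μ) :
    mc (mp2 d.μ Γ ι) H (JT d hT₂ x) = JT d hT₂ (Sc d s (mc (mT d hT) H (Sc d s x))) := by
  rw [mc_ap, mc_ap, map_add, map_add, map_smul, map_smul,
    JT_flip d hT hh hs ha h₁ h₂ hT₂ (abs_re_le' hH), JT_flip d hT hh hs ha h₁ h₂ hT₂
    (abs_im_le' hH)]

theorem pi_inner (g : D) (x y : Lp ℋ 2 d.μ) :
    ⟪H34.Ind.pi d (V := V) hT.adjV g x, H34.Ind.pi d (V := V) hT.adjV g y⟫_ℂ = ⟪x, y⟫_ℂ := by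
  rw [← adjoint_inner_right, H34.Ind.adjoint_pi]
  have h1 := congrArg (fun T : Lp ℋ 2 d.μ →L[ℂ] Lp ℋ 2 d.μ => T y)
    (H34.Ind.pi_inv_mul d (V := V) hT.adjV g)
  exact congrArg (fun z => ⟪x, z⟫_ℂ) h1

variable {ι' : Type} [Fintype ι'] {ξ' : ι' → ℋ}
  (hΓ : ∀ g : Γ, g ≠ 1 → Set.Infinite {y : Γ | ∃ h, y = h * g * h⁻¹}) (hT' : Tri R₁ V R₂ ξ')
  (hh : Hon R₁ R₂ ξ) (hs : s * s = 1) (ha : adjoint s = s) (hsV : ∀ v, s * V v = V v * s)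
  (h₁ : ∀ γ, s * R₁ γ = R₂ γ * s) (h₂ : ∀ γ, s * R₂ γ = R₁ γ * s)
  (hT₂ : Tri V R₁ R₂ fun i => s (ξ i)) {α : Type} {l : Filter α} {v : α → D}

include hΓ hT' hh hs ha hsV h₁ h₂ hT₂

/-- The compression of the functions of the second coordinate by the isometry of leg 1 is
asymptotically the multiplication operator of leg 2. -/
theorem comp_lim {F : Γ → ℝ} (hF : ∀ g, |F g| ≤ 1)
    (hn : ∀ u x, Tendsto (fun w => mc (mT d hT) (fun g => (F (g * u) : ℂ) - (F g : ℂ))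
      (H34.Ind.pi d (V := V) hT.adjV (v w) x)) l (𝓝 0)) (x y : Lp ℋ 2 d.μ) :
    Tendsto (fun w => ⟪JT d hT (H34.Ind.pi d (V := V) hT.adjV (v w) y),
        mp2 d.μ Γ ι F (JT d hT (H34.Ind.pi d (V := V) hT.adjV (v w) x))⟫_ℂ -
      ⟪H34.Ind.pi d (V := V) hT.adjV (v w) y,
        Sc d s (mT d hT F (Sc d s (H34.Ind.pi d (V := V) hT.adjV (v w) x)))⟫_ℂ) l (𝓝 0) := by
  have hR := arepT hT hΓ hT'
  have hFc : ∀ g, ‖((F g : ℝ) : ℂ)‖ ≤ 1 := fun g => by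
    rw [Complex.norm_real]; exact hF g
  have k1 : ∀ w, ∀ ζ ∈ BfT d hT, JT d hT (H34.Ind.pi d (V := V) hT.adjV (v w) ζ) ∈
      BfL d.μ (Γ × Γ) ι := fun w ζ hζ => (loc2_T d hT hΓ hT' hh).map (v w) ζ hζ
  have k2 : ∀ w, ∀ ζ ∈ BfT d hT, JT d hT₂ (H34.Ind.pi d (V := V) hT.adjV (v w) ζ) ∈
      BfL d.μ (Γ × Γ) ι := fun w ζ hζ => by
    rw [← VC_JT d hT₂ hT]
    exact VC_bfl d hT₂ hT (k1 w ζ hζ)
  have hz : ∀ u, ∀ ζ ∈ BfT d hT, Tendsto (fun w => mc (mp2 d.μ Γ ι)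
      (fun g => (F (g * u) : ℂ) - (F g : ℂ))
      (JT d hT₂ (H34.Ind.pi d (V := V) hT.adjV (v w) ζ))) l (𝓝 0) := by
    intro u ζ _
    have h3 := ((JT d hT₂).continuous.tendsto _).comp
      (((Sc d s).continuous.tendsto _).comp (hn u (Sc d s ζ)))
    rw [map_zero, map_zero] at h3
    refine h3.congr fun w => ?_
    have h4 : ∀ g, ‖(F (g * u) : ℂ) - (F g : ℂ)‖ ≤ 1 + 1 := fun g =>
      (norm_sub_le _ _).trans (add_le_add (hFc _) (hFc _))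
    rw [JT_flip_mc d hT hh hs ha h₁ h₂ hT₂ h4, Sc_pi d hT hsV]
    rfl
  have h5 := cmp_iso (mp := mp2 d.μ Γ ι) (V := VC d hT hT₂) (Bd := BfL d.μ (Γ × Γ) ι)
    (J := JT d hT) (J' := JT d hT₂) fn_mp2
    (loc2_snd (VC_rat d hT hT₂) fun ζ hζ => VC_bfl d hT hT₂ hζ) (fun ζ hζ => bfl_norm_le hζ)
    (ijT d hT).norm (ijT d hT₂).norm (VC_JT d hT hT₂)
    (fun x => by rw [VC_adj]; exact VC_JT d hT₂ hT x)
    (π := fun w => H34.Ind.pi d (V := V) hT.adjV (v w)) (l := l)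
    (fun w x => norm_of_inner (pi_inner d hT (v w)) x)
    (S := BfT d hT) (loc2_T d hT hΓ hT' hh).dense k2 k1 (F := fun g => (F g : ℂ)) (C := 1) hFc
    hz x y
  refine h5.congr fun w => ?_
  rw [mc_real fn_mp2, JT_flip d hT hh hs ha h₁ h₂ hT₂ hF, (ijT d hT₂).inner]

/-- **Asymptotic commutation of the two legs**, the form `hc` of H448/TF6: `S` is arbitrary, the
functions of the set `T` are slowly varying. -/
theorem hc_T (S T : Set Γ) {E : Lp ℋ 2 d.μ →L[ℂ] Lp ℋ 2 d.μ}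
    (hE : ∀ x, Tendsto (fun w => st (mT d hT) T (H34.Ind.pi d (V := V) hT.adjV (v w) x) -
      H34.Ind.pi d (V := V) hT.adjV (v w) (E x)) l (𝓝 0))
    (hn : ∀ u x, Tendsto (fun w => mc (mT d hT) (fun g => (H553.ind (fun g => g ∈ T) (g * u) : ℂ) -
      (H553.ind (fun g => g ∈ T) g : ℂ)) (H34.Ind.pi d (V := V) hT.adjV (v w) x)) l (𝓝 0))
    (x y : Lp ℋ 2 d.μ) :
    Tendsto (fun w => ⟪st (mT d hT) S (H34.Ind.pi d (V := V) hT.adjV (v w) x),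
        (Sc d s * st (mT d hT) T * Sc d s) (H34.Ind.pi d (V := V) hT.adjV (v w) y)⟫_ℂ -
      ⟪(Sc d s * st (mT d hT) T * Sc d s) (H34.Ind.pi d (V := V) hT.adjV (v w) x),
        st (mT d hT) S (H34.Ind.pi d (V := V) hT.adjV (v w) y)⟫_ℂ) l (𝓝 0) := by
  have hfn := fn_T d hT hh
  have hfn2 : Fn (mp2 (Γ₂ := Γ) d.μ Γ ι) := fn_mp2
  have hfb := fn_base (fst (baseL d.μ (Γ × Γ) ι))
  have hiT : ∀ g, |H553.ind (fun g => g ∈ T) g| ≤ 1 := abs_ind_le _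
  have hiS : ∀ g, |H553.ind (fun g => g ∈ S) g| ≤ 1 := abs_ind_le _
  have c1 := comp_lim d hT hΓ hT' hh hs ha hsV h₁ h₂ hT₂ (l := l) (v := v) hiT hn
  have idT : ∀ z, mp2 d.μ Γ ι (H553.ind fun g => g ∈ T) (mp2 d.μ Γ ι (H553.ind fun g => g ∈ T) z)
      = mp2 d.μ Γ ι (H553.ind fun g => g ∈ T) z := fun z =>
    congrArg (fun A : Lp (Ell2 ((Γ × Γ) × ι)) 2 d.μ →L[ℂ] Lp (Ell2 ((Γ × Γ) × ι)) 2 d.μ => A z)
      (hfn2.prj.idem T)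
  have idm : ∀ z, mT d hT (H553.ind fun g => g ∈ T) (mT d hT (H553.ind fun g => g ∈ T) z)
      = mT d hT (H553.ind fun g => g ∈ T) z := fun z =>
    congrArg (fun A : Lp ℋ 2 d.μ →L[ℂ] Lp ℋ 2 d.μ => A z) (hfn.prj.idem T)
  refine hc_lim (J := JT d hT) (ijT d hT).inner
    (T₁ := (fst (baseL d.μ (Γ × Γ) ι)).mp (H553.ind fun g => g ∈ S))
    (T₂ := mp2 d.μ Γ ι (H553.ind fun g => g ∈ T)) (E₂ := Sc d s * E * Sc d s)
    (m₁ := st (mT d hT) S) (m₂ := Sc d s * st (mT d hT) T * Sc d s)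
    (π := fun w => H34.Ind.pi d (V := V) hT.adjV (v w))
    (fun w => pi_inner d hT (v w)) (hfb.inner_left hiS) (hfn2.inner_left hiT) (fun x y => ?_)
    (fun x => ?_) (fun x => (JT_mT d hT hh hiS x).symm) (fun x => ?_) (fun x y => ?_)
    (fun x y => ?_) x y
  · change ⟪Sc d s (st (mT d hT) T (Sc d s x)), y⟫_ℂ = ⟪x, Sc d s (st (mT d hT) T (Sc d s y))⟫_ℂ
    rw [Sc_inner d ha, st, hfn.inner_left hiT, Sc_inner d ha]
  · have e1 := (baseL d.μ (Γ × Γ) ι).mp_mul (F := fun x : Γ × Γ => H553.ind (fun g => g ∈ S) x.1)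
      (G := fun x : Γ × Γ => H553.ind (fun g => g ∈ T) x.2) (C := 1) (D := 1) (fun x => hiS _)
      (fun x => hiT _)
    have e2 := (baseL d.μ (Γ × Γ) ι).mp_mul (F := fun x : Γ × Γ => H553.ind (fun g => g ∈ T) x.2)
      (G := fun x : Γ × Γ => H553.ind (fun g => g ∈ S) x.1) (C := 1) (D := 1) (fun x => hiT _)
      (fun x => hiS _)
    have e3 : (fun x : Γ × Γ => H553.ind (fun g => g ∈ S) x.1 * H553.ind (fun g => g ∈ T) x.2) =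
        fun x : Γ × Γ => H553.ind (fun g => g ∈ T) x.2 * H553.ind (fun g => g ∈ S) x.1 := by
      funext x
      ring
    rw [e3, e2] at e1
    exact (congrArg (fun A : Lp (Ell2 ((Γ × Γ) × ι)) 2 d.μ →L[ℂ] Lp (Ell2 ((Γ × Γ) × ι)) 2 d.μ =>
      A x) e1).symm
  · have h3 := ((Sc d s).continuous.tendsto _).comp (hE (Sc d s x))
    rw [map_zero] at h3
    refine h3.congr fun w => ?_
    change Sc d s (st (mT d hT) T (H34.Ind.pi d (V := V) hT.adjV (v w) (Sc d s x)) -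
      H34.Ind.pi d (V := V) hT.adjV (v w) (E (Sc d s x))) = Sc d s (st (mT d hT) T (Sc d s
      (H34.Ind.pi d (V := V) hT.adjV (v w) x))) -
      H34.Ind.pi d (V := V) hT.adjV (v w) (Sc d s (E (Sc d s x)))
    rw [map_sub, Sc_pi d hT hsV, Sc_pi d hT hsV]
  · exact c1 x y
  · refine (c1 x y).congr fun w => ?_
    rw [idT]
    congr 2
    change _ = Sc d s (mT d hT (H553.ind fun g => g ∈ T) (Sc d s (Sc d s (mT d hT
      (H553.ind fun g => g ∈ T) (Sc d s (H34.Ind.pi d (V := V) hT.adjV (v w) x))))))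
    rw [Sc_Sc d hs, idm]

end pic

end Vale.Agent.P092.H76.CommT
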