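import Vale.Agent.P092.H76.Half
import Vale.Agent.P092.H859.CLD

/-!
P092 (helper76), Team D, block [D0-PUR]: the type dichotomy in the letters of helper859's wall limit
engine `CL`.
-/

set_option linter.all false

open scoped InnerProductSpace Pointwise
open Filter Topology ContinuousLinearMap

namespace Vale.Agent.P092.H76.Dicho

open Vale.Agent.P092.H859.CL hiding cfc
open Vale.Agent.P092.H553 (ind ind_nonneg ind_le_one abs_ind_le ind_pos ind_neg)
open Vale.Agent.P092.H76.Pur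

section mcs

variable {Γ D K Y : Type} [NormedAddCommGroup K] [InnerProductSpace ℂ K]
  [CompleteSpace K] {mp : (Γ → ℝ) → (K →L[ℂ] K)} {F G : Γ → ℂ} {C C' : ℝ}

theorem re_bd (hF : ∀ g, ‖F g‖ ≤ C) (g : Γ) : |(F g).re| ≤ C := (Complex.abs_re_le_norm _).trans (hF g)
theorem im_bd (hF : ∀ g, ‖F g‖ ≤ C) (g : Γ) : |(F g).im| ≤ C := (Complex.abs_im_le_norm _).trans (hF g)

theorem mcx_add (h : Fn mp) (hF : ∀ g, ‖F g‖ ≤ C) (hG : ∀ g, ‖G g‖ ≤ C') :
    mc mp (fun g => F g + G g) = mc mp F + mc mp G := by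
  unfold mc
  simp only [Complex.add_re, Complex.add_im]
  rw [h.add (re_bd hF) (re_bd hG), h.add (im_bd hF) (im_bd hG), smul_add]
  abel

theorem mcx_smul (h : Fn mp) (c : ℂ) (hF : ∀ g, ‖F g‖ ≤ C) :
    mc mp (fun g => c * F g) = c • mc mp F := by
  unfold mc
  have e1 : (fun g => (c * F g).re) = fun g => c.re * (F g).re + (-c.im) * (F g).im := by
    funext g; rw [Complex.mul_re]; ring
  have e2 : (fun g => (c * F g).im) = fun g => c.re * (F g).im + c.im * (F g).re := by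
    funext g; rw [Complex.mul_im]
  have hb : ∀ (a : ℝ) (u : Γ → ℝ), (∀ g, |u g| ≤ C) → ∀ g, |a * u g| ≤ |a| * C := fun a u hu g => by
    rw [abs_mul]; exact mul_le_mul_of_nonneg_left (hu g) (abs_nonneg _)
  rw [e1, e2, h.add (hb _ _ (re_bd hF)) (hb _ _ (im_bd hF)),
    h.add (hb _ _ (im_bd hF)) (hb _ _ (re_bd hF)), h.smul _ (re_bd hF), h.smul _ (im_bd hF),
    h.smul _ (im_bd hF), h.smul _ (re_bd hF)]
  have e3 : c = (c.re : ℂ) + Complex.I * (c.im : ℂ) := by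
    rw [mul_comm]; exact (Complex.re_add_im c).symm
  conv_rhs => rw [e3]
  simp only [smul_add, add_smul, smul_smul]
  have e4 : (Complex.I * (c.im : ℂ)) * Complex.I = ((-c.im : ℝ) : ℂ) := by
    rw [mul_right_comm, Complex.I_mul_I]; push_cast; ring
  rw [add_mul, add_smul, e4, mul_comm (c.re : ℂ) Complex.I]
  abel

theorem mcx_mul (h : Fn mp) (hF : ∀ g, ‖F g‖ ≤ C) (hG : ∀ g, ‖G g‖ ≤ C') :
    mc mp (fun g => F g * G g) = mc mp F * mc mp G := by
  unfold mc
  have hb : ∀ (u v : Γ → ℝ), (∀ g, |u g| ≤ C) → (∀ g, |v g| ≤ C') → ∀ g, |u g * v g| ≤ C * C' :=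
    fun u v hu hv g => by
      rw [abs_mul]
      exact mul_le_mul (hu g) (hv g) (abs_nonneg _) ((abs_nonneg _).trans (hu g))
  have e1 : (fun g => (F g * G g).re) = fun g => (F g).re * (G g).re - (F g).im * (G g).im := by
    funext g; rw [Complex.mul_re]
  have e2 : (fun g => (F g * G g).im) = fun g => (F g).re * (G g).im + (F g).im * (G g).re := by
    funext g; rw [Complex.mul_im]
  rw [e1, e2, h.sub (hb _ _ (re_bd hF) (re_bd hG)) (hb _ _ (im_bd hF) (im_bd hG)),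
    h.add (hb _ _ (re_bd hF) (im_bd hG)) (hb _ _ (im_bd hF) (re_bd hG)),
    h.mul (re_bd hF) (re_bd hG), h.mul (im_bd hF) (im_bd hG), h.mul (re_bd hF) (im_bd hG),
    h.mul (im_bd hF) (re_bd hG)]
  simp only [mul_add, add_mul, smul_mul_assoc, mul_smul_comm, smul_smul, Complex.I_mul_I,
    neg_smul, one_smul, smul_add]
  abel

theorem mcx_adj (h : Fn mp) (hF : ∀ g, ‖F g‖ ≤ C) :
    adjoint (mc mp F) = mc mp (fun g => (starRingEnd ℂ) (F g)) := by
  unfold mc
  simp only [Complex.conj_re, Complex.conj_im]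
  have e : (fun g => -(F g).im) = fun g => (-1 : ℝ) * (F g).im := by funext g; ring
  rw [e, h.smul _ (im_bd hF), map_add, map_smulₛₗ, h.adj (re_bd hF), h.adj (im_bd hF)]
  simp [smul_smul]

theorem mcx_real (h : Fn mp) (u : Γ → ℝ) : mc mp (fun g => (u g : ℂ)) = mp u := by
  unfold mc
  simp only [Complex.ofReal_re, Complex.ofReal_im]
  rw [h.zero, smul_zero, add_zero]

end mcs

section net

variable {Γ D K Y : Type} [Group Γ] [Group D] [NormedAddCommGroup K] [InnerProductSpace ℂ K]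
  [CompleteSpace K] {mp : (Γ → ℝ) → (K →L[ℂ] K)} {R : D → (K →L[ℂ] K)} {Bd : Set K}
  {ms : D → Set Γ → ℝ} {A : Subgroup D} {G1 G2 : Γ → ℝ} {bp : Γ → Y} {l l' : Filter D}

theorem cfc_bd {f : Y → ℂ} {C : ℝ} (hf : ∀ y, ‖f y‖ ≤ C) (g : Γ) : ‖H859.CL.cfc G1 G2 bp f g‖ ≤ C := by
  unfold H859.CL.cfc
  rw [norm_mul, Complex.norm_real, Real.norm_eq_abs]
  exact (mul_le_of_le_one_left (norm_nonneg _) (abs_ind_le _ g)).trans (hf _)

theorem cfc_split (f : Y → ℂ) :
    mc mp (H859.CL.cfc G1 G2 bp f) = mp (cf G1 G2 bp fun y => (f y).re) +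
      Complex.I • mp (cf G1 G2 bp fun y => (f y).im) := by
  unfold mc H859.CL.cfc cf
  simp only [Complex.re_ofReal_mul, Complex.im_ofReal_mul]

variable [TopologicalSpace Y] [CompactSpace Y]

/-- The net of cut-offs. -/
noncomputable def net (h : Fn mp) (R : D → (K →L[ℂ] K)) (G1 G2 : Γ → ℝ) (bp : Γ → Y) (w : D) :
    C(Y, ℂ) →ₗ[ℂ] (K →L[ℂ] K) where
  toFun f := PC mp R w (H859.CL.cfc G1 G2 bp f)
  map_add' f g := by
    have e : H859.CL.cfc G1 G2 bp (f + g : C(Y, ℂ)) = fun x => H859.CL.cfc G1 G2 bp f x + H859.CL.cfc G1 G2 bp g x := by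
      funext x; simp [H859.CL.cfc, mul_add]
    rw [e, PC, mcx_add h (cfc_bd fun y => f.norm_coe_le_norm y)
      (cfc_bd fun y => g.norm_coe_le_norm y), mul_add, add_mul]
    rfl
  map_smul' c f := by
    have e : H859.CL.cfc G1 G2 bp (c • f : C(Y, ℂ)) = fun x => c * H859.CL.cfc G1 G2 bp f x := by
      funext x
      simp only [H859.CL.cfc, ContinuousMap.smul_apply, smul_eq_mul]
      ring
    rw [e, PC, mcx_smul h c (cfc_bd fun y => f.norm_coe_le_norm y), mul_smul_comm,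
      smul_mul_assoc]
    rfl

theorem net_apply (h : Fn mp) (w : D) (f : C(Y, ℂ)) :
    net h R G1 G2 bp w f = PC mp R w (H859.CL.cfc G1 G2 bp f) := rfl

theorem net_split (h : Fn mp) (w : D) (f : C(Y, ℂ)) :
    net h R G1 G2 bp w f = PF mp R w (cf G1 G2 bp fun y => (f y).re) +
      Complex.I • PF mp R w (cf G1 G2 bp fun y => (f y).im) := by
  rw [net_apply, PC, cfc_split, mul_add, add_mul, mul_smul_comm, smul_mul_assoc]
  rfl

theorem net_one (h : Fn mp) (w : D) :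
    net h R G1 G2 bp w 1 = P (st mp) R w {g | G2 g ≤ G1 g} := by
  rw [net_apply]
  have e : H859.CL.cfc G1 G2 bp (1 : C(Y, ℂ)) = fun g => (ind (fun g => G2 g ≤ G1 g) g : ℂ) := by
    funext g; simp [H859.CL.cfc]
  rw [PC, e, mcx_real h]
  rfl

theorem net_ucp (h : Fn mp) (hR : Rep R) (w : D) : UCP (net h R G1 G2 bp w) := by
  have hb : ∀ f : C(Y, ℂ), ∀ g, ‖H859.CL.cfc G1 G2 bp f g‖ ≤ ‖f‖ := fun f =>
    cfc_bd fun y => f.norm_coe_le_norm y
  refine ⟨fun f => ?_, fun f ξ => ?_, fun ξ => ?_⟩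
  · have e : (fun g => (starRingEnd ℂ) (H859.CL.cfc G1 G2 bp f g)) = H859.CL.cfc G1 G2 bp (star f : C(Y, ℂ)) := by
      funext g
      simp only [H859.CL.cfc, map_mul, Complex.conj_ofReal, ContinuousMap.star_apply, Complex.star_def]
    rw [net_apply, net_apply, PC, PC, ← star_eq_adjoint, star_mul, star_mul, star_eq_adjoint,
      star_eq_adjoint, star_eq_adjoint, hR.adj, hR.adj, inv_inv, mcx_adj h (hb f), e, mul_assoc]
  · have e : H859.CL.cfc G1 G2 bp (star f * f : C(Y, ℂ)) =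
        fun g => (starRingEnd ℂ) (H859.CL.cfc G1 G2 bp f g) * H859.CL.cfc G1 G2 bp f g := by
      funext g
      have h1 : ind (fun g => G2 g ≤ G1 g) g * ind (fun g => G2 g ≤ G1 g) g =
          ind (fun g => G2 g ≤ G1 g) g := by
        by_cases hg : G2 g ≤ G1 g
        · rw [ind_pos (P := fun g => G2 g ≤ G1 g) hg, one_mul]
        · rw [ind_neg (P := fun g => G2 g ≤ G1 g) hg, zero_mul]
      have h2 : ((ind (fun g => G2 g ≤ G1 g) g : ℝ) : ℂ) * (ind (fun g => G2 g ≤ G1 g) g : ℝ) =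
          (ind (fun g => G2 g ≤ G1 g) g : ℝ) := by
        rw [← Complex.ofReal_mul, h1]
      simp only [H859.CL.cfc, map_mul, Complex.conj_ofReal, ContinuousMap.mul_apply,
        ContinuousMap.star_apply, Complex.star_def]
      linear_combination (-((starRingEnd ℂ) (f (bp g)) * f (bp g))) * h2
    rw [net_apply, net_apply, e]
    have h1 : ⟪ξ, PC mp R w (fun g => (starRingEnd ℂ) (H859.CL.cfc G1 G2 bp f g) * H859.CL.cfc G1 G2 bp f g) ξ⟫_ℂ =
        ⟪mc mp (H859.CL.cfc G1 G2 bp f) (R w ξ), mc mp (H859.CL.cfc G1 G2 bp f) (R w ξ)⟫_ℂ := by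
      rw [PC, mcx_mul h (F := fun g => (starRingEnd ℂ) (H859.CL.cfc G1 G2 bp f g)) (C := ‖f‖)
        (fun g => by rw [RCLike.norm_conj]; exact hb f g) (hb f), ← mcx_adj h (hb f)]
      change ⟪ξ, R w⁻¹ (adjoint (mc mp (H859.CL.cfc G1 G2 bp f)) (mc mp (H859.CL.cfc G1 G2 bp f) (R w ξ)))⟫_ℂ = _
      rw [hR.inner_right, inv_inv, adjoint_inner_right]
    rw [h1, inner_self_eq_norm_sq_to_K]
    have h2 : ‖PC mp R w (H859.CL.cfc G1 G2 bp f) ξ‖ ≤ ‖mc mp (H859.CL.cfc G1 G2 bp f) (R w ξ)‖ := by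
      change ‖R w⁻¹ (mc mp (H859.CL.cfc G1 G2 bp f) (R w ξ))‖ ≤ _
      exact hR.norm_le _ _
    have h3 := pow_le_pow_left₀ (norm_nonneg _) h2 2
    refine h3.trans (le_of_eq ?_)
    norm_cast
  · rw [net_one, P_ap, hR.inner_right, inv_inv, ← inner_conj_symm, Complex.conj_re,
      h.prj.inner_self, Complex.ofReal_re]
    have h1 := (h.prj.norm_le {g | G2 g ≤ G1 g} (R w ξ)).trans (hR.norm_le w ξ)
    exact pow_le_pow_left₀ (norm_nonneg _) h1 2

variable [MulAction Γ Y]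

/-- the separation for real functions -/
theorem sep_real (h : SysF mp R Bd ms A G1 G2) (hg : GeoF G1 G2 bp)
    (he : Esc (st mp) R Bd A l) (he' : Esc (st mp) R Bd A l') (f g : C(Y, ℝ))
    (hfg : ∀ y, f y = 0 ∨ g y = 0) (ξ η : K) :
    Tendsto (fun p : D × D => ⟪PF mp R p.1 (cf G1 G2 bp f) ξ, PF mp R p.2 (cf G1 G2 bp g) η⟫_ℂ)
      (l ×ˢ l') (𝓝 0) := by
  -- nonnegative `f`
  have key : ∀ f g : C(Y, ℝ), (∀ y, f y = 0 ∨ g y = 0) → (∀ y, 0 ≤ f y) →
      Tendsto (fun p : D × D => ⟪PF mp R p.1 (cf G1 G2 bp f) ξ, PF mp R p.2 (cf G1 G2 bp g) η⟫_ℂ)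
      (l ×ˢ l') (𝓝 0) := by
    intro f g hfg hf0
    obtain ⟨N, hN⟩ : ∃ N : ℝ, N = ‖f‖ + ‖g‖ + 1 := ⟨_, rfl⟩
    have hN0 : 0 < N := by rw [hN]; positivity
    have hfN : ∀ y, |N⁻¹ * f y| ≤ 1 := fun y => by
      have := f.norm_coe_le_norm y
      rw [Real.norm_eq_abs] at this
      rw [abs_mul, abs_of_pos (inv_pos.2 hN0), inv_mul_le_iff₀ hN0, mul_one]
      linarith [norm_nonneg g]
    have hgN : ∀ y, |N⁻¹ * g y| ≤ 1 := fun y => by
      have := g.norm_coe_le_norm y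
      rw [Real.norm_eq_abs] at this
      rw [abs_mul, abs_of_pos (inv_pos.2 hN0), inv_mul_le_iff₀ hN0, mul_one]
      linarith [norm_nonneg f]
    have hs : SepF G1 G2 bp (fun y => N⁻¹ * f y) := by
      intro c d hcd
      have hc1 : IsClosed {y | N⁻¹ * f y ≤ c} := isClosed_le (by fun_prop) continuous_const
      have hc2 : IsClosed {y | d ≤ N⁻¹ * f y} := isClosed_le continuous_const (by fun_prop)
      have hd : Disjoint {y | N⁻¹ * f y ≤ c} {y | d ≤ N⁻¹ * f y} :=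
        Set.disjoint_left.2 fun y hy hy' => by
          have h1 : N⁻¹ * f y ≤ c := hy
          have h2 : d ≤ N⁻¹ * f y := hy'
          linarith
      exact ⟨hg.sep _ _ hc1 hc2 hd, hg.sep _ _ hc2 hc1 hd.symm⟩
    have h1 := key01 h hg.fin he he' (f := fun y => N⁻¹ * f y) (g := fun y => N⁻¹ * g y)
      (fun y => ⟨mul_nonneg (inv_pos.2 hN0).le (hf0 y), (le_abs_self _).trans (hfN y)⟩) hs hgN ξ η
    have e0 : (fun y => N⁻¹ * f y * (N⁻¹ * g y)) = fun _ => (0 : ℝ) := by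
      funext y
      rcases hfg y with h | h <;> rw [h] <;> ring
    have e1 : cf G1 G2 bp (fun _ : Y => (0 : ℝ)) = fun _ => (0 : ℝ) := by
      funext x; simp [cf]
    have e2 : ∀ (w : D) (u : Y → ℝ) (C : ℝ) (hu : ∀ y, |u y| ≤ C),
        PF mp R w (cf G1 G2 bp fun y => N⁻¹ * u y) = ((N⁻¹ : ℝ) : ℂ) • PF mp R w (cf G1 G2 bp u) := by
      intro w u C hu
      have e3 : cf G1 G2 bp (fun y => N⁻¹ * u y) = fun x => N⁻¹ * cf G1 G2 bp u x := by
        funext x; simp only [cf]; ring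
      rw [e3, PF_smul h.fn h.sys.rep w N⁻¹ (cf_abs hu)]
    have hfb : ∀ y, |f y| ≤ ‖f‖ := fun y => by
      have := f.norm_coe_le_norm y; rwa [Real.norm_eq_abs] at this
    have hgb : ∀ y, |g y| ≤ ‖g‖ := fun y => by
      have := g.norm_coe_le_norm y; rwa [Real.norm_eq_abs] at this
    have h2 : Tendsto (fun p : D × D => ((N⁻¹ : ℝ) : ℂ) * ((N⁻¹ : ℝ) : ℂ) *
        ⟪PF mp R p.1 (cf G1 G2 bp f) ξ, PF mp R p.2 (cf G1 G2 bp g) η⟫_ℂ) (l ×ˢ l') (𝓝 0) := by
      have h3 := h1.neg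
      rw [neg_zero] at h3
      refine h3.congr fun p => ?_
      rw [e0, e1, e2 p.1 f _ hfb, e2 p.2 g _ hgb]
      have e4 : PF mp R p.2 (fun _ => (0 : ℝ)) = 0 := by
        rw [PF, h.fn.zero, mul_zero, zero_mul]
      rw [e4, zero_apply, inner_zero_right, zero_sub, neg_neg, smul_apply, smul_apply,
        inner_smul_left, inner_smul_right, Complex.conj_ofReal]
      ring
    have h3 := h2.const_mul ((N : ℂ) * N)
    rw [mul_zero] at h3
    refine h3.congr fun p => ?_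
    have hNc : (N : ℂ) ≠ 0 := by exact_mod_cast hN0.ne'
    push_cast
    field_simp
  obtain ⟨fp, hfp⟩ : ∃ fp : C(Y, ℝ), ∀ y, fp y = max (f y) 0 :=
    ⟨⟨fun y => max (f y) 0, by fun_prop⟩, fun y => rfl⟩
  obtain ⟨fm, hfm⟩ : ∃ fm : C(Y, ℝ), ∀ y, fm y = max (-f y) 0 :=
    ⟨⟨fun y => max (-f y) 0, by fun_prop⟩, fun y => rfl⟩
  have k1 := key fp g (fun y => by
    rcases hfg y with h | h
    · left; rw [hfp, h, max_self]
    · right; exact h) (fun y => by rw [hfp]; exact le_max_right _ _)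
  have k2 := key fm g (fun y => by
    rcases hfg y with h | h
    · left; rw [hfm, h, neg_zero, max_self]
    · right; exact h) (fun y => by rw [hfm]; exact le_max_right _ _)
  have k3 := k1.sub k2
  rw [sub_zero] at k3
  refine k3.congr fun p => ?_
  have hb : ∀ u : C(Y, ℝ), ∀ y, |u y| ≤ ‖u‖ := fun u y => by
    have := u.norm_coe_le_norm y; rwa [Real.norm_eq_abs] at this
  have e : PF mp R p.1 (cf G1 G2 bp f) + PF mp R p.1 (cf G1 G2 bp fm) =
      PF mp R p.1 (cf G1 G2 bp fp) := by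
    rw [← PF_add h.fn h.sys.rep p.1 (cf_abs (hb f)) (cf_abs (hb fm))]
    congr 1
    funext x
    simp only [cf]
    rw [← mul_add, hfp, hfm]
    congr 1
    rcases le_total 0 (f (bp x)) with h0 | h0
    · rw [max_eq_left h0, max_eq_right (by linarith), add_zero]
    · rw [max_eq_right h0, max_eq_left (by linarith)]; ring
  rw [← inner_sub_left, ← e]
  simp

/-- the separation for complex functions -/
theorem sep_cplx (h : SysF mp R Bd ms A G1 G2) (hg : GeoF G1 G2 bp)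
    (he : Esc (st mp) R Bd A l) (he' : Esc (st mp) R Bd A l') (f g : C(Y, ℂ))
    (hfg : Disjoint (tsupport f) (tsupport g)) (ξ η : K) :
    Tendsto (fun p : D × D => ⟪net h.fn R G1 G2 bp p.1 f ξ, net h.fn R G1 G2 bp p.2 g η⟫_ℂ)
      (l ×ˢ l') (𝓝 0) := by
  have h0 : ∀ y, f y = 0 ∨ g y = 0 := by
    intro y
    by_contra hn
    push Not at hn
    exact Set.disjoint_left.1 hfg (subset_tsupport _ hn.1) (subset_tsupport _ hn.2)
  obtain ⟨fr, hfr⟩ : ∃ u : C(Y, ℝ), ∀ y, u y = (f y).re := ⟨⟨fun y => (f y).re, by fun_prop⟩, fun y => rfl⟩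
  obtain ⟨fi, hfi⟩ : ∃ u : C(Y, ℝ), ∀ y, u y = (f y).im := ⟨⟨fun y => (f y).im, by fun_prop⟩, fun y => rfl⟩
  obtain ⟨gr, hgr⟩ : ∃ u : C(Y, ℝ), ∀ y, u y = (g y).re := ⟨⟨fun y => (g y).re, by fun_prop⟩, fun y => rfl⟩
  obtain ⟨gi, hgi⟩ : ∃ u : C(Y, ℝ), ∀ y, u y = (g y).im := ⟨⟨fun y => (g y).im, by fun_prop⟩, fun y => rfl⟩
  have k : ∀ u v : C(Y, ℝ), (∀ y, u y = 0 ∨ v y = 0) → _ := fun u v huv =>
    sep_real h hg he he' u v huv ξ η
  have k1 := k fr gr fun y => (h0 y).imp (fun e => by rw [hfr, e]; rfl) fun e => by rw [hgr, e]; rfl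
  have k2 := k fr gi fun y => (h0 y).imp (fun e => by rw [hfr, e]; rfl) fun e => by rw [hgi, e]; rfl
  have k3 := k fi gr fun y => (h0 y).imp (fun e => by rw [hfi, e]; rfl) fun e => by rw [hgr, e]; rfl
  have k4 := k fi gi fun y => (h0 y).imp (fun e => by rw [hfi, e]; rfl) fun e => by rw [hgi, e]; rfl
  have k5 := ((k1.add (k2.const_mul Complex.I)).add (k3.const_mul (-Complex.I))).add k4
  simp only [mul_zero, add_zero] at k5
  refine k5.congr fun p => ?_
  have e1 : (fun y => (f y).re) = ⇑fr := funext fun y => (hfr y).symm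
  have e2 : (fun y => (f y).im) = ⇑fi := funext fun y => (hfi y).symm
  have e3 : (fun y => (g y).re) = ⇑gr := funext fun y => (hgr y).symm
  have e4 : (fun y => (g y).im) = ⇑gi := funext fun y => (hgi y).symm
  rw [net_split, net_split, e1, e2, e3, e4, add_apply, add_apply, smul_apply, smul_apply,
    inner_add_left, inner_add_right, inner_add_right, inner_smul_left, inner_smul_left,
    inner_smul_right, inner_smul_right, Complex.conj_I]
  have := Complex.I_mul_I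
  linear_combination (⟪PF mp R p.1 (cf G1 G2 bp ⇑fi) ξ, PF mp R p.2 (cf G1 G2 bp ⇑gi) η⟫_ℂ) * this

end net

end Vale.Agent.P092.H76.Dicho
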