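import Vale.Agent.P092.H76.Dicho
import Vale.Agent.P092.H859.CLC

/-!
P092 (helper76), Team D / C, block [D0-PUR] (CLJ): the type dichotomy along a wall direction.
-/

set_option linter.all false

open scoped InnerProductSpace Pointwise
open Filter Topology ContinuousLinearMap

namespace Vale.Agent.P092.H76.Dicho

open Vale.Agent.P092.H859.CL hiding cfc
open Vale.Agent.P092.H553 (ind ind_nonneg ind_le_one abs_ind_le ind_pos ind_neg)
open Vale.Agent.P092.H76.Pur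

section sym

variable {Γ D K Y : Type} [Group Γ] [Group D] [NormedAddCommGroup K] [InnerProductSpace ℂ K]
  [CompleteSpace K] {mp : (Γ → ℝ) → (K →L[ℂ] K)} {R : D → (K →L[ℂ] K)} {Bd : Set K}
  {ms : D → Set Γ → ℝ} {A : Subgroup D} {G1 G2 : Γ → ℝ} {bp : Γ → Y} {l : Filter D} {Ω : K}

/-- the band `|G1 - G2| ≤ C` is negligible -/
theorem band_sub (G1 G2 : Γ → ℝ) (C r : ℝ) :
    {g | |G1 g - G2 g| ≤ C} ⊆ FF G1 G2 (r + C) ∪ BB G1 G2 r := by
  intro g hg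
  have h1 : |G1 g - G2 g| ≤ C := hg
  have h2 := abs_le.1 h1
  by_cases h3 : G1 g ≤ r
  · left; exact ⟨by linarith [(abs_nonneg (G1 g - G2 g)).trans h1], by linarith [h2.1]⟩
  · by_cases h4 : G2 g ≤ r
    · left; exact ⟨by linarith [h2.2], by linarith [(abs_nonneg (G1 g - G2 g)).trans h1]⟩
    · right; exact ⟨not_le.1 h3, not_le.1 h4⟩

theorem net_inner (h : Fn mp) (hR : Rep R) [TopologicalSpace Y] [CompactSpace Y] (w : D) (ξ : K) :
    ⟪ξ, net h R G1 G2 bp w 1 ξ⟫_ℂ =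
      ((‖st mp {g | G2 g ≤ G1 g} (R w ξ)‖ ^ 2 : ℝ) : ℂ) := by
  rw [net_one, ← P_adj h.prj hR, P_inner h.prj hR]

/-- The symmetry under inversion: the two masses add up to `1`. -/
theorem sym_lim [TopologicalSpace Y] [CompactSpace Y] (h : SysF mp R Bd ms A G1 G2)
    (hfin : ∀ r, (FF G1 G2 r).Finite) (he : Esc (st mp) R Bd A l) (hsy : Sym mp R Ω) {C : ℝ}
    (hC : ∀ g, |G1 g⁻¹ - G2 g| ≤ C ∧ |G2 g⁻¹ - G1 g| ≤ C) (h1 : R 1 = 1) (hΩ : ‖Ω‖ = 1) :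
    Tendsto (fun w => ⟪Ω, net h.fn R G1 G2 bp w 1 Ω⟫_ℂ +
      ⟪Ω, net h.fn R G1 G2 bp w⁻¹ 1 Ω⟫_ℂ) l (𝓝 1) := by
  obtain ⟨S, hS⟩ : ∃ S : Set Γ, S = {g | G2 g ≤ G1 g} := ⟨_, rfl⟩
  obtain ⟨S', hS'⟩ : ∃ S' : Set Γ, S' = {g | G2 g⁻¹ ≤ G1 g⁻¹} := ⟨_, rfl⟩
  obtain ⟨N, hN⟩ : ∃ N : Set Γ, N = {g | |G1 g - G2 g| ≤ 2 * C} := ⟨_, rfl⟩
  have hneg := negl h.sys he hfin (N := N) (fun r => ⟨r + 2 * C, by
    rw [hN]; exact band_sub G1 G2 (2 * C) r⟩) Ω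
  have hprj := h.fn.prj
  have k1 : ∀ w, ⟪Ω, net h.fn R G1 G2 bp w 1 Ω⟫_ℂ + ⟪Ω, net h.fn R G1 G2 bp w⁻¹ 1 Ω⟫_ℂ =
      ((‖st mp S (R w Ω)‖ ^ 2 + ‖st mp S' (R w Ω)‖ ^ 2 : ℝ) : ℂ) := by
    intro w
    rw [net_inner h.fn h.sys.rep, net_inner h.fn h.sys.rep, ← hS]
    have k2 := hsy w S'
    have e : {g : Γ | g⁻¹ ∈ S'} = S := by
      ext g
      rw [hS', hS]
      simp only [Set.mem_setOf_eq, inv_inv]
    rw [e] at k2
    rw [k2]
    push_cast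
    rfl
  have k3 : ∀ w, ‖st mp S (R w Ω)‖ ^ 2 + ‖st mp Sᶜ (R w Ω)‖ ^ 2 = 1 := by
    intro w
    rw [hprj.norm_sq_add, h.sys.rep.norm_eq, h1]
    change ‖Ω‖ ^ 2 = 1
    rw [hΩ, one_pow]
  have k4 : ∀ w, |‖st mp S (R w Ω)‖ ^ 2 + ‖st mp S' (R w Ω)‖ ^ 2 - 1| ≤
      4 * ‖st mp N (R w Ω)‖ := by
    intro w
    have e1 : ‖st mp S (R w Ω)‖ ^ 2 + ‖st mp S' (R w Ω)‖ ^ 2 - 1 =
        (‖st mp S' (R w Ω)‖ - ‖st mp Sᶜ (R w Ω)‖) * (‖st mp S' (R w Ω)‖ + ‖st mp Sᶜ (R w Ω)‖) := by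
      linear_combination k3 w
    have e2 : ‖st mp S' (R w Ω) - st mp Sᶜ (R w Ω)‖ ≤ 2 * ‖st mp N (R w Ω)‖ := by
      refine hprj.sub_le (fun g hg => ?_) _
      rw [hN] at hg
      have hg1 : ¬ |G1 g - G2 g| ≤ 2 * C := hg
      rw [hS', hS]
      simp only [Set.mem_setOf_eq, Set.mem_compl_iff, not_le]
      obtain ⟨c1, c2⟩ := hC g
      have c1' := abs_le.1 c1
      have c2' := abs_le.1 c2
      constructor
      · intro h3
        by_contra h4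
        push Not at h4
        exact hg1 (abs_le.2 ⟨by linarith [(abs_nonneg _).trans c1], by linarith⟩)
      · intro h3
        by_contra h4
        push Not at h4
        exact hg1 (abs_le.2 ⟨by linarith, by linarith [(abs_nonneg _).trans c1]⟩)
    have e3 : ∀ T : Set Γ, ‖st mp T (R w Ω)‖ ≤ 1 := fun T => by
      have := (hprj.norm_le T (R w Ω)).trans (h.sys.rep.norm_le w Ω)
      rwa [hΩ] at this
    have e4 := (abs_norm_sub_norm_le (st mp S' (R w Ω)) (st mp Sᶜ (R w Ω))).trans e2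
    rw [e1, abs_mul]
    have e5 : |‖st mp S' (R w Ω)‖ + ‖st mp Sᶜ (R w Ω)‖| ≤ 2 := by
      rw [abs_of_nonneg (by positivity)]
      linarith [e3 S', e3 Sᶜ]
    calc _ ≤ (2 * ‖st mp N (R w Ω)‖) * 2 := mul_le_mul e4 e5 (abs_nonneg _) (by positivity)
      _ = _ := by ring
  have k5 : Tendsto (fun w => ‖st mp S (R w Ω)‖ ^ 2 + ‖st mp S' (R w Ω)‖ ^ 2 - 1) l (𝓝 0) := by
    have h4 := hneg.const_mul 4
    rw [mul_zero] at h4
    exact squeeze_zero_norm (fun w => k4 w) h4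
  have k6 := k5.add_const 1
  rw [zero_add] at k6
  have k7 := (Complex.continuous_ofReal.tendsto _).comp k6
  rw [Complex.ofReal_one] at k7
  refine k7.congr fun w => ?_
  rw [k1 w]
  simp only [Function.comp_apply, sub_add_cancel]

end sym

section lim

variable {I Γ D K Y : Type} [Group Γ] [Group D] [NormedAddCommGroup K] [InnerProductSpace ℂ K]
  [CompleteSpace K] {mp : (Γ → ℝ) → (K →L[ℂ] K)} {π : D →* (K →L[ℂ] K)}
  {lam : Γ →* (K →L[ℂ] K)} {W : Set (K →L[ℂ] K)} {Q : Set D} {Ω : K}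
  [TopologicalSpace Y] [CompactSpace Y] [MulAction Γ Y]

/-- Weak limits of nets with the asymptotic properties. -/
theorem limF_of {P : I → (C(Y, ℂ) →ₗ[ℂ] (K →L[ℂ] K))} {l : Filter I}
    (hcov : ∀ (s : Γ) (f f' : C(Y, ℂ)), (∀ y, f' (s • y) = f y) → ∀ ξ η : K,
      Tendsto (fun i => ⟪η, (lam s * P i f * lam s⁻¹ - P i f') ξ⟫_ℂ) l (𝓝 0))
    (hcm : ∀ a ∈ W, ∀ i f, a * P i f = P i f * a)
    (hpar : ∀ n ∈ Q, ∀ f (ξ η : K),
      Tendsto (fun i => ⟪η, (P i f * π n - π n * P i f) ξ⟫_ℂ) l (𝓝 0))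
    {U : Filter I} [U.NeBot] (hU : U ≤ l) {E : C(Y, ℂ) →ₗ[ℂ] (K →L[ℂ] K)}
    (hE : WLim P U E) : LimF (fun (γ : Γ) (y : Y) => γ • y) π lam W Q E := by
  refine ⟨fun s f f' hff => ?_, fun f a ha => ?_, fun f n hn => ?_⟩
  · refine ContinuousLinearMap.ext fun ξ => ext_inner_left ℂ fun η => ?_
    have h1 := (hcov s f f' hff ξ η).mono_left hU
    have h2 := (hE f (adjoint (lam s) η) (lam s⁻¹ ξ)).sub (hE f' η ξ)
    have h3 := tendsto_nhds_unique (h2.congr fun i => ?_) h1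
    · rw [adjoint_inner_left] at h3
      exact sub_eq_zero.1 h3
    · rw [adjoint_inner_left, ← inner_sub_right]
      rfl
  · refine ContinuousLinearMap.ext fun ξ => ext_inner_left ℂ fun η => ?_
    have h1 := hE f (adjoint a η) ξ
    have h2 := hE f η (a ξ)
    have h3 := tendsto_nhds_unique (h2.congr fun i => ?_) h1
    · rw [adjoint_inner_left] at h3
      exact h3
    · rw [adjoint_inner_left]
      have := congrArg (fun T : K →L[ℂ] K => ⟪η, T ξ⟫_ℂ) (hcm a ha i f)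
      exact this.symm
  · refine ContinuousLinearMap.ext fun ξ => ext_inner_left ℂ fun η => ?_
    have h1 := (hpar n hn f ξ η).mono_left hU
    have h2 := (hE f η (π n ξ)).sub (hE f (adjoint (π n) η) ξ)
    have h3 := tendsto_nhds_unique (h2.congr fun i => ?_) h1
    · rw [adjoint_inner_left] at h3
      exact sub_eq_zero.1 h3
    · rw [adjoint_inner_left, ← inner_sub_right]
      rfl

/-- If the vector state of the masses tends to zero, the masses tend strongly to zero. -/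
theorem zero_of {X G : Type*} [Group G] [TopologicalSpace X] [CompactSpace X] {act : Γ → X → X}
    {π : G →* (K →L[ℂ] K)} {Q : Set G} {P : I → (C(X, ℂ) →ₗ[ℂ] (K →L[ℂ] K))} {l : Filter I}
    (hP : ∀ i, UCP (P i))
    (hΩ : ‖Ω‖ = 1) (herg : Erg π lam W Q)
    (hL : ∀ U : Ultrafilter I, (U : Filter I) ≤ l → ∀ E, WLim P U E → LimF act π lam W Q E)
    (h0 : Tendsto (fun i => ⟪Ω, P i 1 Ω⟫_ℂ) l (𝓝 0)) (ξ : K) :
    Tendsto (fun i => P i 1 ξ) l (𝓝 0) := by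
  have hΩ1 : ⟪Ω, Ω⟫_ℂ = 1 := by rw [inner_self_eq_norm_sq_to_K, hΩ]; simp
  have h1 : Tendsto (fun i => (⟪ξ, P i 1 ξ⟫_ℂ).re) l (𝓝 0) := by
    rw [tendsto_iff_ultrafilter]
    intro U hU
    obtain ⟨E, hE⟩ := exists_wlim hP U
    obtain ⟨c, hc⟩ := exists_scalar herg (hL U hU E hE).cov (hL U hU E hE).cm (hL U hU E hE).par
    have h2 := tendsto_nhds_unique (hE 1 Ω Ω) (h0.mono_left hU)
    rw [hc, smul_apply, inner_smul_right] at h2
    change c * ⟪Ω, Ω⟫_ℂ = 0 at h2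
    rw [hΩ1, mul_one] at h2
    have h3 := (Complex.continuous_re.tendsto _).comp (hE 1 ξ ξ)
    rw [hc, h2, zero_smul, zero_apply, inner_zero_right, Complex.zero_re] at h3
    exact h3
  have h2 : Tendsto (fun i => ‖P i 1 ξ‖ ^ 2) l (𝓝 0) :=
    squeeze_zero (fun i => sq_nonneg _) (fun i => by
      have h4 := (hP i).sch 1 ξ
      rwa [star_one, one_mul] at h4) h1
  have h5 := h2.sqrt
  rw [Real.sqrt_zero] at h5
  exact tendsto_zero_iff_norm_tendsto_zero.2 (h5.congr fun i => Real.sqrt_sq (norm_nonneg _))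

end lim

section dicho

variable {Γ D K Y : Type} [Group Γ] [Group D] [NormedAddCommGroup K] [InnerProductSpace ℂ K]
  [CompleteSpace K] {mp : (Γ → ℝ) → (K →L[ℂ] K)} {Bd : Set K}
  {ms : D → Set Γ → ℝ} {A : Subgroup D} {G1 G2 : Γ → ℝ} {bp : Γ → Y} {l : Filter D}
  {W : Set (K →L[ℂ] K)} {Q Q' : Set D} {Ω : K}
  [TopologicalSpace Y] [CompactSpace Y]

/-- If the masses of type one tend to zero, the type is two. -/
theorem full_of_zero {R : D → (K →L[ℂ] K)} (h : SysF mp R Bd ms A G1 G2)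
    (hfin : ∀ r, (FF G1 G2 r).Finite) (he : Esc (st mp) R Bd A l)
    (h0 : ∀ ξ, Tendsto (fun w => net h.fn R G1 G2 bp w 1 ξ) l (𝓝 0)) :
    Full (st mp) R G2 G1 l := by
  intro ξ
  obtain ⟨N, hN⟩ : ∃ N : Set Γ, N = {g | |G1 g - G2 g| ≤ 0} := ⟨_, rfl⟩
  have hneg := negl h.sys he hfin (N := N) (fun r => ⟨r + 0, by
    rw [hN]; exact band_sub G1 G2 0 r⟩) ξ
  have h1 : Tendsto (fun w => P (st mp) R w {g | G1 g ≤ G2 g} ξ -
      P (st mp) R w {g | G2 g ≤ G1 g}ᶜ ξ) l (𝓝 0) := by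
    have h4 := hneg.const_mul 2
    rw [mul_zero] at h4
    refine squeeze_zero_norm (fun w => P_sub_le h.fn.prj h.sys.rep w (fun g hg => ?_) ξ) h4
    rw [hN] at hg
    have hg1 : ¬ |G1 g - G2 g| ≤ 0 := hg
    simp only [Set.mem_setOf_eq, Set.mem_compl_iff, not_le]
    constructor
    · intro h3
      refine lt_of_le_of_ne h3 fun h5 => hg1 ?_
      rw [h5, sub_self, abs_zero]
    · exact fun h3 => h3.le
  have h2 := (h0 ξ).const_sub (R 1 ξ)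
  rw [sub_zero] at h2
  have h3 := h1.add h2
  rw [zero_add] at h3
  refine h3.congr fun w => ?_
  rw [net_one, P_compl h.fn.prj h.sys.rep, sub_apply]
  abel

variable [MulAction Γ Y] {π : D →* (K →L[ℂ] K)} {lam : Γ →* (K →L[ℂ] K)}

/-- **[D0-PUR], type dichotomy**, from the asymptotic statements. -/
theorem dicho_asy (h : SysF mp π Bd ms A G1 G2) (hG : GeoF G1 G2 bp)
    (he : Esc (st mp) π Bd A l) (he' : Esc (st mp) π Bd A (l.map (·⁻¹)))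
    (hsy : Sym mp π Ω) {C : ℝ} (hC : ∀ g, |G1 g⁻¹ - G2 g| ≤ C ∧ |G2 g⁻¹ - G1 g| ≤ C)
    (hΩ : ‖Ω‖ = 1) (hNI : NIS (fun (γ : Γ) (y : Y) => γ • y)) (hinv : Inv π lam W Ω)
    (hQ : Subgroup.closure (Q ∪ Q') = ⊤) (herg : Erg π lam W Q) (herg' : Erg π lam W Q')
    (hcov : ∀ l' : Filter D, Esc (st mp) π Bd A l' → ∀ (s : Γ) (f f' : C(Y, ℂ)),
      (∀ y, f' (s • y) = f y) → ∀ ξ : K, Tendsto (fun w =>
        (lam s * PC mp π w (H859.CL.cfc G1 G2 bp f) * lam s⁻¹ -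
          PC mp π w (H859.CL.cfc G1 G2 bp f')) ξ) l' (𝓝 0))
    (hcm : ∀ a ∈ W, ∀ w (f : C(Y, ℂ)), a * PC mp π w (H859.CL.cfc G1 G2 bp f) =
      PC mp π w (H859.CL.cfc G1 G2 bp f) * a)
    (hpar : ∀ n ∈ Q, ∀ (f : C(Y, ℂ)) (ξ η : K), Tendsto (fun w =>
      ⟪η, (PC mp π w (H859.CL.cfc G1 G2 bp f) * π n -
        π n * PC mp π w (H859.CL.cfc G1 G2 bp f)) ξ⟫_ℂ) l (𝓝 0))
    (hpar' : ∀ n ∈ Q', ∀ (f : C(Y, ℂ)) (ξ η : K), Tendsto (fun w =>
      ⟪η, (PC mp π w (H859.CL.cfc G1 G2 bp f) * π n -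
        π n * PC mp π w (H859.CL.cfc G1 G2 bp f)) ξ⟫_ℂ) (l.map (·⁻¹)) (𝓝 0)) :
    (Full (st mp) π G1 G2 l ∧ Full (st mp) π G2 G1 (l.map (·⁻¹))) ∨
      (Full (st mp) π G2 G1 l ∧ Full (st mp) π G1 G2 (l.map (·⁻¹))) := by
  have h1 : π 1 = 1 := map_one π
  have hi : Tendsto (fun w : D => w⁻¹) l (l.map (·⁻¹)) := tendsto_map
  have hsym := sym_lim (bp := bp) h hG.fin he hsy hC h1 hΩ
  have hL : ∀ U : Ultrafilter D, (U : Filter D) ≤ l → ∀ E, WLim (net h.fn π G1 G2 bp) U E →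
      LimF (fun (γ : Γ) (y : Y) => γ • y) π lam W Q E := fun U hU E hE =>
    limF_of (P := net h.fn π G1 G2 bp) (l := l) (fun s f f' hff ξ η => by
      have h3 := (tendsto_const_nhds (x := η)).inner (𝕜 := ℂ) (hcov l he s f f' hff ξ)
      rw [inner_zero_right] at h3
      exact h3) (fun a ha i f => hcm a ha i f) (fun n hn f ξ η => hpar n hn f ξ η) hU hE
  have hL' : ∀ U : Ultrafilter D, (U : Filter D) ≤ l → ∀ E,
      WLim (fun w => net h.fn π G1 G2 bp w⁻¹) U E →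
      LimF (fun (γ : Γ) (y : Y) => γ • y) π lam W Q' E := fun U hU E hE =>
    limF_of (P := fun w => net h.fn π G1 G2 bp w⁻¹) (l := l) (fun s f f' hff ξ η => by
      have h3 := (tendsto_const_nhds (x := η)).inner (𝕜 := ℂ)
        ((hcov _ he' s f f' hff ξ).comp hi)
      rw [inner_zero_right] at h3
      exact h3) (fun a ha i f => hcm a ha i⁻¹ f)
      (fun n hn f ξ η => (hpar' n hn f ξ η).comp hi) hU hE
  have hP : ∀ w, UCP (net h.fn π G1 G2 bp w) := fun w => net_ucp h.fn h.sys.rep w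
  have hsep : ∀ f g : C(Y, ℂ), Disjoint (tsupport f) (tsupport g) → ∀ ξ η,
      Tendsto (fun p : D × D => ⟪net h.fn π G1 G2 bp p.1 f ξ,
        net h.fn π G1 G2 bp p.2⁻¹ g η⟫_ℂ) (l ×ˢ l) (𝓝 0) := fun f g hfg ξ η =>
    (sep_cplx h hG he he' f g hfg ξ η).comp (tendsto_fst.prodMk (hi.comp tendsto_snd))
  have fin1 : ∀ l' : Filter D, (∀ ξ, Tendsto (fun w => net h.fn π G1 G2 bp w 1 ξ) l' (𝓝 ξ)) →
      Full (st mp) π G1 G2 l' := fun l' hl ξ => by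
    rw [h1]
    exact (hl ξ).congr fun w => by rw [net_one]
  rcases half hNI hΩ hinv hQ herg herg' (P := net h.fn π G1 G2 bp)
    (P' := fun w => net h.fn π G1 G2 bp w⁻¹) hP (fun w => hP w⁻¹) hL hL' hsep hsym with hh | hh
  · refine Or.inl ⟨fin1 l hh, full_of_zero (bp := bp) h hG.fin he' fun ξ => ?_⟩
    rw [tendsto_map'_iff]
    refine zero_of (P := fun w => net h.fn π G1 G2 bp w⁻¹) (fun w => hP w⁻¹) hΩ herg' hL' ?_ ξ
    have h3 := (tendsto_const_nhds (x := Ω)).inner (𝕜 := ℂ) (hh Ω)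
    have h4 := hsym.sub h3
    have hΩ1 : ⟪Ω, Ω⟫_ℂ = 1 := by rw [inner_self_eq_norm_sq_to_K, hΩ]; simp
    rw [hΩ1, sub_self] at h4
    exact h4.congr fun w => by ring
  · refine Or.inr ⟨full_of_zero (bp := bp) h hG.fin he fun ξ => ?_, fin1 _ fun ξ => ?_⟩
    · refine zero_of (P := net h.fn π G1 G2 bp) hP hΩ herg hL ?_ ξ
      have h3 := (tendsto_const_nhds (x := Ω)).inner (𝕜 := ℂ) (hh Ω)
      have h4 := hsym.sub h3
      have hΩ1 : ⟪Ω, Ω⟫_ℂ = 1 := by rw [inner_self_eq_norm_sq_to_K, hΩ]; simp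
      rw [hΩ1, sub_self] at h4
      exact h4.congr fun w => by ring
    · rw [tendsto_map'_iff]
      exact hh ξ

end dicho

end Vale.Agent.P092.H76.Dicho
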