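import Vale.Agent.P092.H76.DichoD
import Vale.Agent.P092.H76.TransD
import Vale.Agent.P092.H801.Gen
import Vale.Agent.P092.H411.AgrSD
import Vale.Agent.P092.H252.UGap
import Vale.Agent.P092.H107.Dual

/-!
P092 (helper76), Team D: the type dichotomy for `SL_3(k)` (source) and the wall element `bw w`.
-/

set_option linter.all false

open scoped InnerProductSpace Pointwise Matrix
open Filter Topology ContinuousLinearMap Matrix.SpecialLinearGroup

namespace Vale.Agent.P092.H76.Dicho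

open Vale.Agent.P092.H859.CL hiding cfc
open Vale.Agent.P092.H76.Pur
open Vale.Agent.P092.RC (Pic Moore)
open Vale.Agent.P092.SD (G3 PP bw tau)
open Vale.Agent.P092.H944 (gap)

/-! ### the gaps of the inverse -/

section gap

open Vale.Agent.P092.H944

variable {n : ℕ}

theorem svd_transpose {g k1 k2 : Matrix (Fin n) (Fin n) ℝ} {a : Fin n → ℝ}
    (h : IsSVD g k1 a k2) : IsSVD gᵀ k2ᵀ a k1ᵀ where
  o1 := by rw [Matrix.transpose_transpose]; exact h.o2'
  o1' := by rw [Matrix.transpose_transpose]; exact h.o2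
  o2 := by rw [Matrix.transpose_transpose]; exact h.o1'
  o2' := by rw [Matrix.transpose_transpose]; exact h.o1
  pos := h.pos
  anti := h.anti
  eq := by
    rw [h.eq, Matrix.transpose_mul, Matrix.transpose_mul, Matrix.diagonal_transpose,
      Matrix.mul_assoc]

theorem sv_transpose {g : Matrix (Fin n) (Fin n) ℝ} (hg : g.det ≠ 0) : sv gᵀ = sv g :=
  H107.sv_unique (isSVD (by rw [Matrix.det_transpose]; exact hg)) (svd_transpose (isSVD hg))

theorem gap_transpose {g : Matrix (Fin n) (Fin n) ℝ} (hg : g.det ≠ 0) (j : ℕ) :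
    gap j gᵀ = gap j g := by
  unfold gap la
  rw [sv_transpose hg]

theorem gap_inv3 (h : G3 ℝ) (j : ℕ) : gap j (h⁻¹).1 = gap j (tau ℝ h).1 := by
  have e : (tau ℝ h).1 = (h⁻¹).1ᵀ := rfl
  rw [e, gap_transpose]
  rw [(h⁻¹).2]
  exact one_ne_zero

theorem gap0_inv (h : G3 ℝ) : gap 0 (h⁻¹).1 = gap 1 h.1 := by
  rw [gap_inv3, H107.gap0_tau]

theorem gap1_inv (h : G3 ℝ) : gap 1 (h⁻¹).1 = gap 0 h.1 := by
  rw [gap_inv3, H107.gap1_tau]

end gap

/-! ### the contraction groups -/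

section moore

variable {k : Type} [NontriviallyNormedField k]

theorem moore_root {i j : Fin 3} (hij : i ≠ j) :
    Moore (Set.range fun x : k => (transvection hij x : G3 k)) := by
  intro E _ _ _ u hu hc ξ hξ
  have hσ : H933.URep u := ⟨hu, fun η => by
    have := (hc η).tendsto 1
    rwa [map_one] at this⟩
  exact H252.mem_fixed hσ hij fun x => hξ _ ⟨x, rfl⟩

/-- the elements contracted by `b` -/
def Ctr {D : Type} [Group D] [TopologicalSpace D] (b : D) : Set D :=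
  {n | Tendsto (fun i : ℕ => b ^ i * n * (b ^ i)⁻¹) atTop (𝓝 1)}

/-- the elements contracted by `b⁻¹` -/
def Ctr' {D : Type} [Group D] [TopologicalSpace D] (b : D) : Set D :=
  {n | Tendsto (fun i : ℕ => (b ^ i)⁻¹ * n * b ^ i) atTop (𝓝 1)}

theorem moore_ctr {w : kˣ} (hw : ‖(w : k)‖ < 1) : Moore (Ctr (bw w)) := by
  refine Moore.mono (moore_root (k := k) (show (1 : Fin 3) ≠ 0 by decide)) ?_
  rintro _ ⟨x, rfl⟩
  have h1 := H801.tendsto_of_lt w (show (1 : Fin 3) ≠ 0 by decide) x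
    (H801.ratio_lt w hw (by decide))
  refine h1.congr fun N => ?_
  rw [inv_pow]

theorem moore_ctr' {w : kˣ} (hw : ‖(w : k)‖ < 1) : Moore (Ctr' (bw w)) := by
  refine Moore.mono (moore_root (k := k) (show (0 : Fin 3) ≠ 1 by decide)) ?_
  rintro _ ⟨x, rfl⟩
  have h1 := H801.tendsto_of_lt w⁻¹ (show (0 : Fin 3) ≠ 1 by decide) x (by
    rw [H801.bd_inv, H801.bd_inv, inv_inv, mul_comm]
    exact H801.ratio_lt w hw (by decide))
  rw [← H801.bw_inv, inv_inv] at h1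
  refine h1.congr fun N => ?_
  rw [inv_pow]

theorem closure_ctr {w : kˣ} (hw : ‖(w : k)‖ < 1) :
    Subgroup.closure (Ctr (bw w) ∪ Ctr' (bw w) ∪ {g | Commute (bw w) g}) = ⊤ := by
  have h := H801.closure_wall w hw (Q := Ctr' (bw w) ∪ {g | Commute (bw w) g})
    (Q' := Ctr (bw w)) (fun g hg => Or.inr hg.symm)
    (fun g hg => Or.inl (hg.congr fun N => by rw [inv_pow]))
    (fun g hg => hg.congr fun N => by rw [inv_pow])
  rw [eq_top_iff, ← h]
  refine Subgroup.closure_mono fun x hx => ?_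
  simp only [Set.mem_union] at hx ⊢
  tauto

end moore

/-! ### the dichotomy -/

section dicho

variable {k : Type} [NontriviallyNormedField k] {Γ K : Type} [Group Γ]
  [NormedAddCommGroup K] [InnerProductSpace ℂ K] [CompleteSpace K]
  {π : G3 k →* (K →L[ℂ] K)} {lam : Γ →* (K →L[ℂ] K)} {W : Set (K →L[ℂ] K)} {Ω : K}
  {mp : (Γ → ℝ) → (K →L[ℂ] K)} {Bd : Set K} {ms : G3 k → Set Γ → ℝ} {A : Subgroup (G3 k)}

/-- **The type dichotomy for the wall element of `SL_3(k)`**; the target space is any compact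
`Γ`-space without invariant states. -/
theorem dicho_wall {Y : Type} [TopologicalSpace Y] [CompactSpace Y] [MulAction Γ Y]
    {G1 G2 : Γ → ℝ} {bp : Γ → Y} (hP : Pic π lam W Ω) {w : kˣ} (hw : ‖(w : k)‖ < 1)
    (h : SysF mp π Bd ms A G1 G2) (hG : GeoF G1 G2 bp)
    (hcov : ∀ γ (F : Γ → ℝ), (∀ g, |F g| ≤ 1) → lam γ * mp F * lam γ⁻¹ = mp (fun g => F (γ⁻¹ * g)))
    (hWm : ∀ w ∈ W, ∀ F : Γ → ℝ, (∀ g, |F g| ≤ 1) → w * mp F = mp F * w) (hS : Slow mp π Bd)
    (he : Esc (st mp) π Bd A (map (fun n : ℕ => bw w ^ n) atTop))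
    (he' : Esc (st mp) π Bd A (map (fun n : ℕ => (bw w)⁻¹ ^ n) atTop))
    (hLU : LU mp π G1 G2 (map (fun n : ℕ => bw w ^ n) atTop))
    (hLU' : LU mp π G1 G2 (map (fun n : ℕ => (bw w)⁻¹ ^ n) atTop))
    (hsy : Sym mp π Ω) {C : ℝ} (hC : ∀ g, |G1 g⁻¹ - G2 g| ≤ C ∧ |G2 g⁻¹ - G1 g| ≤ C)
    (hNI : NIS (fun (γ : Γ) (y : Y) => γ • y)) :
    (Full (st mp) π G1 G2 (map (fun n : ℕ => bw w ^ n) atTop) ∧
        Full (st mp) π G2 G1 (map (fun n : ℕ => (bw w)⁻¹ ^ n) atTop)) ∨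
      (Full (st mp) π G2 G1 (map (fun n : ℕ => bw w ^ n) atTop) ∧
        Full (st mp) π G1 G2 (map (fun n : ℕ => (bw w)⁻¹ ^ n) atTop)) :=
  dicho_pic hP h hG hcov hWm hS he he' hLU hLU' hsy hC hNI (fun n hn => hn) (fun n hn => hn)
    (fun n hn => hn) (moore_ctr hw) (moore_ctr' hw) (closure_ctr hw)

/-- **The type dichotomy, real target.** `q` is the embedding of the target lattice. -/
theorem dicho_real (q : Γ →* G3 ℝ) {bp : Γ → PP ℝ} (hP : Pic π lam W Ω) {w : kˣ}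
    (hw : ‖(w : k)‖ < 1)
    (h : SysF mp π Bd ms A (fun γ => gap 0 (q γ).1) (fun γ => gap 1 (q γ).1))
    (hG : @GeoF Γ (PP ℝ) _ _ (MulAction.compHom (PP ℝ) q) (fun γ => gap 0 (q γ).1)
      (fun γ => gap 1 (q γ).1) bp)
    (hcov : ∀ γ (F : Γ → ℝ), (∀ g, |F g| ≤ 1) → lam γ * mp F * lam γ⁻¹ = mp (fun g => F (γ⁻¹ * g)))
    (hWm : ∀ w ∈ W, ∀ F : Γ → ℝ, (∀ g, |F g| ≤ 1) → w * mp F = mp F * w) (hS : Slow mp π Bd)
    (he : Esc (st mp) π Bd A (map (fun n : ℕ => bw w ^ n) atTop))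
    (he' : Esc (st mp) π Bd A (map (fun n : ℕ => (bw w)⁻¹ ^ n) atTop))
    (hLU : LU mp π (fun γ => gap 0 (q γ).1) (fun γ => gap 1 (q γ).1)
      (map (fun n : ℕ => bw w ^ n) atTop))
    (hLU' : LU mp π (fun γ => gap 0 (q γ).1) (fun γ => gap 1 (q γ).1)
      (map (fun n : ℕ => (bw w)⁻¹ ^ n) atTop))
    (hsy : Sym mp π Ω) (hNI : NIS (fun (γ : Γ) (x : PP ℝ) => q γ • x)) :
    (Full (st mp) π (fun γ => gap 0 (q γ).1) (fun γ => gap 1 (q γ).1)
          (map (fun n : ℕ => bw w ^ n) atTop) ∧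
        Full (st mp) π (fun γ => gap 1 (q γ).1) (fun γ => gap 0 (q γ).1)
          (map (fun n : ℕ => (bw w)⁻¹ ^ n) atTop)) ∨
      (Full (st mp) π (fun γ => gap 1 (q γ).1) (fun γ => gap 0 (q γ).1)
          (map (fun n : ℕ => bw w ^ n) atTop) ∧
        Full (st mp) π (fun γ => gap 0 (q γ).1) (fun γ => gap 1 (q γ).1)
          (map (fun n : ℕ => (bw w)⁻¹ ^ n) atTop)) := by
  letI : MulAction Γ (PP ℝ) := MulAction.compHom (PP ℝ) q
  refine dicho_wall (C := 0) (bp := bp) hP hw h hG hcov hWm hS he he' hLU hLU' hsy (fun g => ?_) hNI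
  rw [map_inv, gap0_inv, gap1_inv, sub_self, sub_self, abs_zero]
  exact ⟨le_rfl, le_rfl⟩

end dicho

end Vale.Agent.P092.H76.Dicho
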