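import Vale.Agent.P092.H76.DichoC

/-!
P092 (helper76), all amplifications: the type dichotomy with two independent inputs: the invariant
vector `Ω'` and the family `Ωs` of trace vectors.
-/

set_option linter.all false

open scoped InnerProductSpace Pointwise
open Filter Topology ContinuousLinearMap

namespace Vale.Agent.P092.H76.DichoT

open Vale.Agent.P092.H859.CL hiding cfc
open Vale.Agent.P092.H553 (ind ind_nonneg ind_le_one abs_ind_le ind_pos ind_neg)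
open Vale.Agent.P092.H76.Pur
open Vale.Agent.P092.H76.Dicho

section half

variable {G Γ X K I κ : Type*} [Group G] [Group Γ] [TopologicalSpace X] [CompactSpace X]
  [NormedAddCommGroup K] [InnerProductSpace ℂ K] [CompleteSpace K] [Fintype κ]

theorem sum_inner_smul (Ωs : κ → K) (c : ℂ) :
    ∑ j, ⟪Ωs j, (c • (1 : K →L[ℂ] K)) (Ωs j)⟫_ℂ = c * ((∑ j, ‖Ωs j‖ ^ 2 : ℝ) : ℂ) := by
  have e : ∀ j, ⟪Ωs j, (c • (1 : K →L[ℂ] K)) (Ωs j)⟫_ℂ = c * ((‖Ωs j‖ ^ 2 : ℝ) : ℂ) := fun j => by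
    rw [smul_apply, inner_smul_right]
    change c * ⟪Ωs j, Ωs j⟫_ℂ = _
    rw [inner_self_eq_norm_sq_to_K]
    norm_cast
  rw [Finset.sum_congr rfl fun j _ => e j, ← Finset.mul_sum, ← Complex.ofReal_sum]

/-- **[D0-PUR], the type dichotomy**, with separate inputs. -/
theorem half {act : Γ → X → X} (hNI : NIS act) {π : G →* (K →L[ℂ] K)}
    {lam : Γ →* (K →L[ℂ] K)} {W : Set (K →L[ℂ] K)} {Ω : K} (hΩ : ‖Ω‖ = 1)
    (hinv : Inv π lam W Ω) {Ωs : κ → K} (hs : 0 < ∑ j, ‖Ωs j‖ ^ 2)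
    {Q Q' : Set G} (hQ : Subgroup.closure (Q ∪ Q') = ⊤)
    (herg : Erg π lam W Q) (herg' : Erg π lam W Q')
    {P P' : I → (C(X, ℂ) →ₗ[ℂ] (K →L[ℂ] K))} (hP : ∀ i, UCP (P i)) (hP' : ∀ i, UCP (P' i))
    {l : Filter I}
    (hL : ∀ U : Ultrafilter I, (U : Filter I) ≤ l → ∀ E, WLim P U E → LimF act π lam W Q E)
    (hL' : ∀ U : Ultrafilter I, (U : Filter I) ≤ l → ∀ E, WLim P' U E → LimF act π lam W Q' E)
    (hsep : ∀ f g : C(X, ℂ), Disjoint (tsupport f) (tsupport g) → ∀ ξ η,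
      Tendsto (fun p : I × I => ⟪P p.1 f ξ, P' p.2 g η⟫_ℂ) (l ×ˢ l) (𝓝 0))
    (hsym : Tendsto (fun i => ∑ j, ⟪Ωs j, P i 1 (Ωs j)⟫_ℂ + ∑ j, ⟪Ωs j, P' i 1 (Ωs j)⟫_ℂ) l
      (𝓝 ((∑ j, ‖Ωs j‖ ^ 2 : ℝ) : ℂ))) :
    (∀ ξ, Tendsto (fun i => P i 1 ξ) l (𝓝 ξ)) ∨ (∀ ξ, Tendsto (fun i => P' i 1 ξ) l (𝓝 ξ)) := by
  have hs0 : ((∑ j, ‖Ωs j‖ ^ 2 : ℝ) : ℂ) ≠ 0 := by exact_mod_cast hs.ne'
  have hsum : ∀ U : Ultrafilter I, (U : Filter I) ≤ l → ∀ E E', WLim P U E → WLim P' U E' →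
      ∃ c c' : ℂ, E 1 = c • 1 ∧ E' 1 = c' • 1 ∧ c + c' = 1 := by
    intro U hU E E' hE hE'
    have h1 := hL U hU E hE
    have h2 := hL' U hU E' hE'
    obtain ⟨c, hc⟩ := exists_scalar herg h1.cov h1.cm h1.par
    obtain ⟨c', hc'⟩ := exists_scalar herg' h2.cov h2.cm h2.par
    refine ⟨c, c', hc, hc', ?_⟩
    have h3 := (tendsto_finset_sum Finset.univ fun j _ => hE 1 (Ωs j) (Ωs j)).add
      (tendsto_finset_sum Finset.univ fun j _ => hE' 1 (Ωs j) (Ωs j))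
    have h4 := tendsto_nhds_unique h3 (hsym.mono_left hU)
    rw [hc, hc', sum_inner_smul, sum_inner_smul, ← add_mul] at h4
    exact mul_right_cancel₀ hs0 (h4.trans (one_mul _).symm)
  by_contra hn
  rw [not_or] at hn
  obtain ⟨hn1, hn2⟩ := hn
  have hn1' : ∃ U : Ultrafilter I, (U : Filter I) ≤ l ∧ ∃ E, WLim P U E ∧ E 1 ≠ 1 := by
    by_contra hh
    push Not at hh
    exact hn1 (strong_of_weak hP hh)
  have hn2' : ∃ U : Ultrafilter I, (U : Filter I) ≤ l ∧ ∃ E, WLim P' U E ∧ E 1 ≠ 1 := by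
    by_contra hh
    push Not at hh
    exact hn2 (strong_of_weak hP' hh)
  obtain ⟨U, hU, E, hE, hE1⟩ := hn1'
  obtain ⟨U', hU', F', hF', hF1⟩ := hn2'
  obtain ⟨E', hE'⟩ := exists_wlim hP' U
  obtain ⟨F, hF⟩ := exists_wlim hP U'
  obtain ⟨c, c', hc, hc', hcc⟩ := hsum U hU E E' hE hE'
  obtain ⟨d, d', hd, hd', hdd⟩ := hsum U' hU' F F' hF hF'
  have hc0 : c' ≠ 0 := by
    intro h
    rw [h, add_zero] at hcc
    exact hE1 (by rw [hc, hcc, one_smul])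
  have hd0 : d ≠ 0 := by
    intro h
    rw [h, zero_add] at hdd
    exact hF1 (by rw [hd', hdd, one_smul])
  have h1 := hL U' hU' F hF
  have h2 := hL' U hU E' hE'
  rcases pur hNI hΩ hinv hQ (hF.ucp hP) (hE'.ucp hP') (fun f g hfg =>
    WLim.prod_zero hU' hU hP hF hE' (hsep (star f) g (hfg.mono_left (closure_mono fun x hx => by
      have h3 : star (f x) ≠ 0 := hx
      exact fun h4 => h3 (by rw [h4, star_zero])))) ) hd hc' h1.cov h1.cm h1.par h2.par with h | h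
  · exact hd0 h
  · exact hc0 h

/-- If the vector states of the masses tend to zero, the masses tend strongly to zero. -/
theorem zero_of {act : Γ → X → X}
    {π : G →* (K →L[ℂ] K)} {lam : Γ →* (K →L[ℂ] K)} {W : Set (K →L[ℂ] K)} {Q : Set G}
    {P : I → (C(X, ℂ) →ₗ[ℂ] (K →L[ℂ] K))} {l : Filter I}
    (hP : ∀ i, UCP (P i)) {Ωs : κ → K} (hs : 0 < ∑ j, ‖Ωs j‖ ^ 2) (herg : Erg π lam W Q)
    (hL : ∀ U : Ultrafilter I, (U : Filter I) ≤ l → ∀ E, WLim P U E → LimF act π lam W Q E)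
    (h0 : Tendsto (fun i => ∑ j, ⟪Ωs j, P i 1 (Ωs j)⟫_ℂ) l (𝓝 0)) (ξ : K) :
    Tendsto (fun i => P i 1 ξ) l (𝓝 0) := by
  have hs0 : ((∑ j, ‖Ωs j‖ ^ 2 : ℝ) : ℂ) ≠ 0 := by exact_mod_cast hs.ne'
  have h1 : Tendsto (fun i => (⟪ξ, P i 1 ξ⟫_ℂ).re) l (𝓝 0) := by
    rw [tendsto_iff_ultrafilter]
    intro U hU
    obtain ⟨E, hE⟩ := exists_wlim hP U
    obtain ⟨c, hc⟩ := exists_scalar herg (hL U hU E hE).cov (hL U hU E hE).cm (hL U hU E hE).par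
    have h2 := tendsto_nhds_unique
      (tendsto_finset_sum Finset.univ fun j _ => hE 1 (Ωs j) (Ωs j)) (h0.mono_left hU)
    rw [hc, sum_inner_smul] at h2
    have h5 : c = 0 := (mul_eq_zero.1 h2).resolve_right hs0
    have h3 := (Complex.continuous_re.tendsto _).comp (hE 1 ξ ξ)
    rw [hc, h5, zero_smul, zero_apply, inner_zero_right, Complex.zero_re] at h3
    exact h3
  have h2 : Tendsto (fun i => ‖P i 1 ξ‖ ^ 2) l (𝓝 0) :=
    squeeze_zero (fun i => sq_nonneg _) (fun i => by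
      have h4 := (hP i).sch 1 ξ
      rwa [star_one, one_mul] at h4) h1
  have h5 := h2.sqrt
  rw [Real.sqrt_zero] at h5
  exact tendsto_zero_iff_norm_tendsto_zero.2 (h5.congr fun i => Real.sqrt_sq (norm_nonneg _))

end half

section sym

variable {Γ D K Y κ : Type} [Group Γ] [Group D] [NormedAddCommGroup K] [InnerProductSpace ℂ K]
  [CompleteSpace K] [Fintype κ] {mp : (Γ → ℝ) → (K →L[ℂ] K)} {R : D → (K →L[ℂ] K)} {Bd : Set K}
  {ms : D → Set Γ → ℝ} {A : Subgroup D} {G1 G2 : Γ → ℝ} {bp : Γ → Y} {l : Filter D}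
  {Ωs : κ → K}

/-- The sum over the family of the masses of `R u⁻¹ Ω_j` is the image under inversion of the sum
of the masses of `R u Ω_j`. -/
def SymF {Γ D K κ : Type} [Group Γ] [Group D] [NormedAddCommGroup K] [InnerProductSpace ℂ K]
    [Fintype κ] (mp : (Γ → ℝ) → (K →L[ℂ] K)) (R : D → (K →L[ℂ] K)) (Ωs : κ → K) : Prop :=
  ∀ u (P : Set Γ), ∑ j, ‖st mp {g | g⁻¹ ∈ P} (R u⁻¹ (Ωs j))‖ ^ 2 =
    ∑ j, ‖st mp P (R u (Ωs j))‖ ^ 2

/-- The symmetry under inversion: the two masses add up. -/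
theorem sym_lim [TopologicalSpace Y] [CompactSpace Y] (h : SysF mp R Bd ms A G1 G2)
    (hfin : ∀ r, (FF G1 G2 r).Finite) (he : Esc (st mp) R Bd A l) (hsy : SymF mp R Ωs) {C : ℝ}
    (hC : ∀ g, |G1 g⁻¹ - G2 g| ≤ C ∧ |G2 g⁻¹ - G1 g| ≤ C) (h1 : R 1 = 1) :
    Tendsto (fun w => ∑ j, ⟪Ωs j, net h.fn R G1 G2 bp w 1 (Ωs j)⟫_ℂ +
      ∑ j, ⟪Ωs j, net h.fn R G1 G2 bp w⁻¹ 1 (Ωs j)⟫_ℂ) l
      (𝓝 ((∑ j, ‖Ωs j‖ ^ 2 : ℝ) : ℂ)) := by
  obtain ⟨S, hS⟩ : ∃ S : Set Γ, S = {g | G2 g ≤ G1 g} := ⟨_, rfl⟩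
  obtain ⟨S', hS'⟩ : ∃ S' : Set Γ, S' = {g | G2 g⁻¹ ≤ G1 g⁻¹} := ⟨_, rfl⟩
  obtain ⟨N, hN⟩ : ∃ N : Set Γ, N = {g | |G1 g - G2 g| ≤ 2 * C} := ⟨_, rfl⟩
  have hneg := fun ξ => negl h.sys he hfin (N := N) (fun r => ⟨r + 2 * C, by
    rw [hN]; exact band_sub G1 G2 (2 * C) r⟩) ξ
  have hprj := h.fn.prj
  have k1 : ∀ w, ∑ j, ⟪Ωs j, net h.fn R G1 G2 bp w 1 (Ωs j)⟫_ℂ +
      ∑ j, ⟪Ωs j, net h.fn R G1 G2 bp w⁻¹ 1 (Ωs j)⟫_ℂ =
      ((∑ j, (‖st mp S (R w (Ωs j))‖ ^ 2 + ‖st mp S' (R w (Ωs j))‖ ^ 2) : ℝ) : ℂ) := by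
    intro w
    have k2 := hsy w S'
    have e : {g : Γ | g⁻¹ ∈ S'} = S := by
      ext g
      rw [hS', hS]
      simp only [Set.mem_setOf_eq, inv_inv]
    rw [e] at k2
    rw [Finset.sum_add_distrib, ← k2]
    push_cast
    congr 1
    · refine Finset.sum_congr rfl fun j _ => ?_
      rw [net_inner h.fn h.sys.rep, ← hS]
      push_cast
      rfl
    · refine Finset.sum_congr rfl fun j _ => ?_
      rw [net_inner h.fn h.sys.rep, ← hS]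
      push_cast
      rfl
  have k5 : ∀ ξ : K, Tendsto (fun w => ‖st mp S (R w ξ)‖ ^ 2 + ‖st mp S' (R w ξ)‖ ^ 2 - ‖ξ‖ ^ 2) l
      (𝓝 0) := by
    intro ξ
    have h4 := (hneg ξ).const_mul (4 * ‖ξ‖)
    rw [mul_zero] at h4
    refine squeeze_zero_norm (fun w => ?_) h4
    have k3 : ‖st mp S (R w ξ)‖ ^ 2 + ‖st mp Sᶜ (R w ξ)‖ ^ 2 = ‖ξ‖ ^ 2 := by
      rw [hprj.norm_sq_add, h.sys.rep.norm_eq, h1]
      rfl
    have e1 : ‖st mp S (R w ξ)‖ ^ 2 + ‖st mp S' (R w ξ)‖ ^ 2 - ‖ξ‖ ^ 2 =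
        (‖st mp S' (R w ξ)‖ - ‖st mp Sᶜ (R w ξ)‖) * (‖st mp S' (R w ξ)‖ + ‖st mp Sᶜ (R w ξ)‖) := by
      linear_combination k3
    have e2 : ‖st mp S' (R w ξ) - st mp Sᶜ (R w ξ)‖ ≤ 2 * ‖st mp N (R w ξ)‖ := by
      refine hprj.sub_le (fun g hg => ?_) _
      rw [hN] at hg
      have hg1 : ¬ |G1 g - G2 g| ≤ 2 * C := hg
      rw [hS', hS]
      simp only [Set.mem_setOf_eq, Set.mem_compl_iff, not_le]
      obtain ⟨c1, c2⟩ := hC g
      have c1' := abs_le.1 c1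
      have c2' := abs_le.1 c2
      constructor
      · intro h3
        by_contra h4
        push Not at h4
        exact hg1 (abs_le.2 ⟨by linarith [(abs_nonneg _).trans c1], by linarith⟩)
      · intro h3
        by_contra h4
        push Not at h4
        exact hg1 (abs_le.2 ⟨by linarith, by linarith [(abs_nonneg _).trans c1]⟩)
    have e3 : ∀ T : Set Γ, ‖st mp T (R w ξ)‖ ≤ ‖ξ‖ := fun T =>
      (hprj.norm_le T (R w ξ)).trans (h.sys.rep.norm_le w ξ)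
    have e4 := (abs_norm_sub_norm_le (st mp S' (R w ξ)) (st mp Sᶜ (R w ξ))).trans e2
    rw [e1, Real.norm_eq_abs, abs_mul]
    have e5 : |‖st mp S' (R w ξ)‖ + ‖st mp Sᶜ (R w ξ)‖| ≤ 2 * ‖ξ‖ := by
      rw [abs_of_nonneg (by positivity)]
      linarith [e3 S', e3 Sᶜ]
    calc _ ≤ (2 * ‖st mp N (R w ξ)‖) * (2 * ‖ξ‖) := mul_le_mul e4 e5 (abs_nonneg _) (by positivity)
      _ = _ := by ring
  have k6 : Tendsto (fun w => ∑ j, (‖st mp S (R w (Ωs j))‖ ^ 2 + ‖st mp S' (R w (Ωs j))‖ ^ 2)) l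
      (𝓝 (∑ j, ‖Ωs j‖ ^ 2)) := by
    refine tendsto_finset_sum Finset.univ fun j _ => ?_
    have := (k5 (Ωs j)).add_const (‖Ωs j‖ ^ 2)
    rw [zero_add] at this
    exact this.congr fun w => by ring
  have k7 := (Complex.continuous_ofReal.tendsto _).comp k6
  exact k7.congr fun w => (k1 w).symm

end sym

section dicho

variable {Γ D K Y κ : Type} [Group Γ] [Group D] [NormedAddCommGroup K] [InnerProductSpace ℂ K]
  [CompleteSpace K] [Fintype κ] {mp : (Γ → ℝ) → (K →L[ℂ] K)} {Bd : Set K}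
  {ms : D → Set Γ → ℝ} {A : Subgroup D} {G1 G2 : Γ → ℝ} {bp : Γ → Y} {l : Filter D}
  {W : Set (K →L[ℂ] K)} {Q Q' : Set D} {Ω : K} {Ωs : κ → K}
  [TopologicalSpace Y] [CompactSpace Y] [MulAction Γ Y]
  {π : D →* (K →L[ℂ] K)} {lam : Γ →* (K →L[ℂ] K)}

/-- **[D0-PUR], type dichotomy**, from the asymptotic statements, with separate inputs. -/
theorem dicho_asy (h : SysF mp π Bd ms A G1 G2) (hG : GeoF G1 G2 bp)
    (he : Esc (st mp) π Bd A l) (he' : Esc (st mp) π Bd A (l.map (·⁻¹)))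
    (hsy : SymF mp π Ωs) (hs : 0 < ∑ j, ‖Ωs j‖ ^ 2) {C : ℝ}
    (hC : ∀ g, |G1 g⁻¹ - G2 g| ≤ C ∧ |G2 g⁻¹ - G1 g| ≤ C)
    (hΩ : ‖Ω‖ = 1) (hNI : NIS (fun (γ : Γ) (y : Y) => γ • y)) (hinv : Inv π lam W Ω)
    (hQ : Subgroup.closure (Q ∪ Q') = ⊤) (herg : Erg π lam W Q) (herg' : Erg π lam W Q')
    (hcov : ∀ l' : Filter D, Esc (st mp) π Bd A l' → ∀ (s : Γ) (f f' : C(Y, ℂ)),
      (∀ y, f' (s • y) = f y) → ∀ ξ : K, Tendsto (fun w =>
        (lam s * PC mp π w (H859.CL.cfc G1 G2 bp f) * lam s⁻¹ -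
          PC mp π w (H859.CL.cfc G1 G2 bp f')) ξ) l' (𝓝 0))
    (hcm : ∀ a ∈ W, ∀ w (f : C(Y, ℂ)), a * PC mp π w (H859.CL.cfc G1 G2 bp f) =
      PC mp π w (H859.CL.cfc G1 G2 bp f) * a)
    (hpar : ∀ n ∈ Q, ∀ (f : C(Y, ℂ)) (ξ η : K), Tendsto (fun w =>
      ⟪η, (PC mp π w (H859.CL.cfc G1 G2 bp f) * π n -
        π n * PC mp π w (H859.CL.cfc G1 G2 bp f)) ξ⟫_ℂ) l (𝓝 0))
    (hpar' : ∀ n ∈ Q', ∀ (f : C(Y, ℂ)) (ξ η : K), Tendsto (fun w =>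
      ⟪η, (PC mp π w (H859.CL.cfc G1 G2 bp f) * π n -
        π n * PC mp π w (H859.CL.cfc G1 G2 bp f)) ξ⟫_ℂ) (l.map (·⁻¹)) (𝓝 0)) :
    (Full (st mp) π G1 G2 l ∧ Full (st mp) π G2 G1 (l.map (·⁻¹))) ∨
      (Full (st mp) π G2 G1 l ∧ Full (st mp) π G1 G2 (l.map (·⁻¹))) := by
  have h1 : π 1 = 1 := map_one π
  have hi : Tendsto (fun w : D => w⁻¹) l (l.map (·⁻¹)) := tendsto_map
  have hsym := sym_lim (bp := bp) h hG.fin he hsy hC h1
  have hL : ∀ U : Ultrafilter D, (U : Filter D) ≤ l → ∀ E, WLim (net h.fn π G1 G2 bp) U E →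
      LimF (fun (γ : Γ) (y : Y) => γ • y) π lam W Q E := fun U hU E hE =>
    limF_of (P := net h.fn π G1 G2 bp) (l := l) (fun s f f' hff ξ η => by
      have h3 := (tendsto_const_nhds (x := η)).inner (𝕜 := ℂ) (hcov l he s f f' hff ξ)
      rw [inner_zero_right] at h3
      exact h3) (fun a ha i f => hcm a ha i f) (fun n hn f ξ η => hpar n hn f ξ η) hU hE
  have hL' : ∀ U : Ultrafilter D, (U : Filter D) ≤ l → ∀ E,
      WLim (fun w => net h.fn π G1 G2 bp w⁻¹) U E →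
      LimF (fun (γ : Γ) (y : Y) => γ • y) π lam W Q' E := fun U hU E hE =>
    limF_of (P := fun w => net h.fn π G1 G2 bp w⁻¹) (l := l) (fun s f f' hff ξ η => by
      have h3 := (tendsto_const_nhds (x := η)).inner (𝕜 := ℂ)
        ((hcov _ he' s f f' hff ξ).comp hi)
      rw [inner_zero_right] at h3
      exact h3) (fun a ha i f => hcm a ha i⁻¹ f)
      (fun n hn f ξ η => (hpar' n hn f ξ η).comp hi) hU hE
  have hP : ∀ w, UCP (net h.fn π G1 G2 bp w) := fun w => net_ucp h.fn h.sys.rep w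
  have hsep : ∀ f g : C(Y, ℂ), Disjoint (tsupport f) (tsupport g) → ∀ ξ η,
      Tendsto (fun p : D × D => ⟪net h.fn π G1 G2 bp p.1 f ξ,
        net h.fn π G1 G2 bp p.2⁻¹ g η⟫_ℂ) (l ×ˢ l) (𝓝 0) := fun f g hfg ξ η =>
    (sep_cplx h hG he he' f g hfg ξ η).comp (tendsto_fst.prodMk (hi.comp tendsto_snd))
  have fin1 : ∀ l' : Filter D, (∀ ξ, Tendsto (fun w => net h.fn π G1 G2 bp w 1 ξ) l' (𝓝 ξ)) →
      Full (st mp) π G1 G2 l' := fun l' hl ξ => by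
    rw [h1]
    exact (hl ξ).congr fun w => by rw [net_one]
  have hsc : ∀ P : D → (C(Y, ℂ) →ₗ[ℂ] (K →L[ℂ] K)), (∀ ξ, Tendsto (fun w => P w 1 ξ) l (𝓝 ξ)) →
      Tendsto (fun w => ∑ j, ⟪Ωs j, P w 1 (Ωs j)⟫_ℂ) l (𝓝 ((∑ j, ‖Ωs j‖ ^ 2 : ℝ) : ℂ)) := by
    intro P hh
    have h3 := tendsto_finset_sum Finset.univ fun j _ =>
      (tendsto_const_nhds (x := Ωs j)).inner (𝕜 := ℂ) (hh (Ωs j))
    have e : ∑ j, ⟪Ωs j, Ωs j⟫_ℂ = ((∑ j, ‖Ωs j‖ ^ 2 : ℝ) : ℂ) := by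
      push_cast
      exact Finset.sum_congr rfl fun j _ => by rw [inner_self_eq_norm_sq_to_K]; norm_cast
    rw [← e]
    exact h3
  rcases half hNI hΩ hinv hs hQ herg herg' (P := net h.fn π G1 G2 bp)
    (P' := fun w => net h.fn π G1 G2 bp w⁻¹) hP (fun w => hP w⁻¹) hL hL' hsep hsym with hh | hh
  · refine Or.inl ⟨fin1 l hh, full_of_zero (bp := bp) h hG.fin he' fun ξ => ?_⟩
    rw [tendsto_map'_iff]
    refine zero_of (P := fun w => net h.fn π G1 G2 bp w⁻¹) (fun w => hP w⁻¹) hs herg' hL' ?_ ξ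
    have h4 := hsym.sub (hsc _ hh)
    rw [sub_self] at h4
    exact h4.congr fun w => by ring
  · refine Or.inr ⟨full_of_zero (bp := bp) h hG.fin he fun ξ => ?_, fin1 _ fun ξ => ?_⟩
    · refine zero_of (P := net h.fn π G1 G2 bp) hP hs herg hL ?_ ξ
      have h4 := hsym.sub (hsc _ hh)
      rw [sub_self] at h4
      exact h4.congr fun w => by ring
    · rw [tendsto_map'_iff]
      exact hh ξ

/-- **The type dichotomy**, with separate inputs. -/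
theorem dicho [TopologicalSpace D] (h : SysF mp π Bd ms A G1 G2) (hG : GeoF G1 G2 bp)
    (hL : Leg mp π lam W) (hS : Slow mp π Bd) (he : Esc (st mp) π Bd A l)
    (he' : Esc (st mp) π Bd A (l.map (·⁻¹)))
    (hLU : LU mp π G1 G2 l) (hLU' : LU mp π G1 G2 (l.map (·⁻¹)))
    (hsy : SymF mp π Ωs) (hs : 0 < ∑ j, ‖Ωs j‖ ^ 2) {C : ℝ}
    (hC : ∀ g, |G1 g⁻¹ - G2 g| ≤ C ∧ |G2 g⁻¹ - G1 g| ≤ C)
    (hΩ : ‖Ω‖ = 1) (hNI : NIS (fun (γ : Γ) (y : Y) => γ • y)) (hinv : Inv π lam W Ω)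
    (hQ : ∀ n ∈ Q, Tendsto (fun w => w * n * w⁻¹) l (𝓝 1) ∨ ∀ᶠ w in l, Commute w n)
    (hQ' : ∀ n ∈ Q', Tendsto (fun w => w⁻¹ * n * w) l (𝓝 1) ∨ ∀ᶠ w in l, Commute w n)
    (hcl : Subgroup.closure (Q ∪ Q') = ⊤) (herg : Erg π lam W Q) (herg' : Erg π lam W Q') :
    (Full (st mp) π G1 G2 l ∧ Full (st mp) π G2 G1 (l.map (·⁻¹))) ∨
      (Full (st mp) π G2 G1 l ∧ Full (st mp) π G1 G2 (l.map (·⁻¹))) := by
  refine dicho_asy h hG he he' hsy hs hC hΩ hNI hinv hcl herg herg'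
    (fun l' hl' s f f' hff ξ => asy_cov h hG hL hl' s hff ξ)
    (fun a ha w f => PC_W hL h.fn h.sys.rep ha (cfc_norm fun y => f.norm_coe_le_norm y) w)
    (fun n hn f ξ η => asy_par h hG hS hLU (hQ n hn) f ξ η)
    (fun n hn f ξ η => asy_par h hG hS hLU' ?_ f ξ η)
  rcases hQ' n hn with h1 | h1
  · left
    rw [tendsto_map'_iff]
    refine h1.congr fun w => ?_
    simp only [Function.comp_apply, inv_inv]
  · right
    rw [eventually_map]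
    filter_upwards [h1] with w hw
    exact hw.inv_left

/-- The type dichotomy along the powers of an element, with separate inputs. -/
theorem dicho_pow [TopologicalSpace D] {b : D} (h : SysF mp π Bd ms A G1 G2)
    (hG : GeoF G1 G2 bp) (hL : Leg mp π lam W) (hS : Slow mp π Bd)
    (he : Esc (st mp) π Bd A (map (fun n : ℕ => b ^ n) atTop))
    (he' : Esc (st mp) π Bd A (map (fun n : ℕ => b⁻¹ ^ n) atTop))
    (hLU : LU mp π G1 G2 (map (fun n : ℕ => b ^ n) atTop))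
    (hLU' : LU mp π G1 G2 (map (fun n : ℕ => b⁻¹ ^ n) atTop))
    (hsy : SymF mp π Ωs) (hs : 0 < ∑ j, ‖Ωs j‖ ^ 2) {C : ℝ}
    (hC : ∀ g, |G1 g⁻¹ - G2 g| ≤ C ∧ |G2 g⁻¹ - G1 g| ≤ C)
    (hΩ : ‖Ω‖ = 1) (hNI : NIS (fun (γ : Γ) (y : Y) => γ • y)) (hinv : Inv π lam W Ω)
    (hQ : ∀ n ∈ Q, Tendsto (fun i : ℕ => b ^ i * n * (b ^ i)⁻¹) atTop (𝓝 1) ∨ Commute b n)
    (hQ' : ∀ n ∈ Q', Tendsto (fun i : ℕ => (b ^ i)⁻¹ * n * b ^ i) atTop (𝓝 1) ∨ Commute b n)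
    (hcl : Subgroup.closure (Q ∪ Q') = ⊤) (herg : Erg π lam W Q) (herg' : Erg π lam W Q') :
    (Full (st mp) π G1 G2 (map (fun n : ℕ => b ^ n) atTop) ∧
        Full (st mp) π G2 G1 (map (fun n : ℕ => b⁻¹ ^ n) atTop)) ∨
      (Full (st mp) π G2 G1 (map (fun n : ℕ => b ^ n) atTop) ∧
        Full (st mp) π G1 G2 (map (fun n : ℕ => b⁻¹ ^ n) atTop)) := by
  have e : (map (fun n : ℕ => b ^ n) atTop).map (·⁻¹) = map (fun n : ℕ => b⁻¹ ^ n) atTop := by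
    rw [Filter.map_map]
    congr 1
    funext n
    simp only [Function.comp_apply, inv_pow]
  have h1 := dicho (l := map (fun n : ℕ => b ^ n) atTop) h hG hL hS he (e ▸ he') hLU (e ▸ hLU')
    hsy hs hC hΩ hNI hinv (fun n hn => ?_) (fun n hn => ?_) hcl herg herg'
  · rw [e] at h1
    exact h1
  · rcases hQ n hn with h2 | h2
    · exact Or.inl (tendsto_map'_iff.2 h2)
    · exact Or.inr (eventually_map.2 (Eventually.of_forall fun i => h2.pow_left i))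
  · rcases hQ' n hn with h2 | h2
    · exact Or.inl (tendsto_map'_iff.2 h2)
    · exact Or.inr (eventually_map.2 (Eventually.of_forall fun i => h2.pow_left i))

end dicho

end Vale.Agent.P092.H76.DichoT
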