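import Vale.Agent.P092.H76.DichoC
import Vale.Agent.P092.H76.TransD
import Vale.Agent.P092.H859.CLN
import Vale.Agent.P092.H43.LocUse

/-!
P092 (helper76), Teams C and D, [A-DIS]: the type dichotomy together with the engine: in one of the
two types the engine applies and gives the boundary homomorphism.
-/

set_option linter.all false

open scoped InnerProductSpace Pointwise
open Filter Topology ContinuousLinearMap

namespace Vale.Agent.P092.H76.EngD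

open Vale.Agent.P092.H859.CL hiding cfc
open Vale.Agent.P092.H76.Pur
open Vale.Agent.P092.H76.Dicho (LU dicho_pow)
open Vale.Agent.P092.H43 (Loc2 lu1)

section eng

variable {Γ D K Y Y' : Type} [Group Γ] [Group D] [NormedAddCommGroup K] [InnerProductSpace ℂ K]
  [CompleteSpace K] {mp : (Γ → ℝ) → (K →L[ℂ] K)} {Bd Bf : Set K}
  {ms : D → Set Γ → ℝ} {G1 G2 : Γ → ℝ} {bp : Γ → Y} {bp' : Γ → Y'}
  {W : Set (K →L[ℂ] K)} {Q Q' : Set D} {Ω : K} [TopologicalSpace D]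
  [TopologicalSpace Y] [CompactSpace Y] [TopologicalSpace Y'] [CompactSpace Y']
  {π : D →* (K →L[ℂ] K)} {lam : Γ →* (K →L[ℂ] K)}

/-- **The dichotomy and the engine.** `act`, `act'` are the actions of `Γ` on the target space and on
its dual. -/
theorem eng_dicho (act : MulAction Γ Y) (act' : MulAction Γ Y') {b : D}
    (h : SysF mp π Bd ms (Subgroup.zpowers b) G1 G2)
    (hG : @GeoF Γ Y _ _ act G1 G2 bp) (hG' : @GeoF Γ Y' _ _ act' G2 G1 bp')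
    (hL : Leg mp π lam W) (hS : Slow mp π Bd) (hloc : Loc2 mp π Bd Bf)
    (he : Esc (st mp) π Bd (Subgroup.zpowers b) (map (fun n : ℕ => b ^ n) atTop))
    (he' : Esc (st mp) π Bd (Subgroup.zpowers b) (map (fun n : ℕ => b⁻¹ ^ n) atTop))
    (hsy : Sym mp π Ω) {C : ℝ} (hC : ∀ g, |G1 g⁻¹ - G2 g| ≤ C ∧ |G2 g⁻¹ - G1 g| ≤ C)
    (hΩ : ‖Ω‖ = 1) (hNI : NIS (fun (γ : Γ) (y : Y) => act.smul γ y)) (hinv : Inv π lam W Ω)
    (hQ : ∀ n ∈ Q, Tendsto (fun i : ℕ => b ^ i * n * (b ^ i)⁻¹) atTop (𝓝 1) ∨ Commute b n)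
    (hQ' : ∀ n ∈ Q', Tendsto (fun i : ℕ => (b ^ i)⁻¹ * n * b ^ i) atTop (𝓝 1) ∨ Commute b n)
    (hcl : Subgroup.closure (Q ∪ Q') = ⊤) (herg : Erg π lam W Q) (herg' : Erg π lam W Q') :
    (∃ β : C(Y, ℂ) →⋆ₐ[ℂ] (K →L[ℂ] K),
      @EngOut Γ D K Y _ _ _ _ _ _ _ _ act.toSMul mp π lam W b G1 G2 bp β) ∨
    (∃ β : C(Y', ℂ) →⋆ₐ[ℂ] (K →L[ℂ] K),
      @EngOut Γ D K Y' _ _ _ _ _ _ _ _ act'.toSMul mp π lam W b G2 G1 bp' β) := by
  have hLU : LU mp π G1 G2 (map (fun n : ℕ => b ^ n) atTop) :=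
    fun F C hF hN v ξ η => lu1 h hloc hG.fin he F C hF hN v ξ η
  have hLU' : LU mp π G1 G2 (map (fun n : ℕ => b⁻¹ ^ n) atTop) :=
    fun F C hF hN v ξ η => lu1 h hloc hG.fin he' F C hF hN v ξ η
  have hd := @dicho_pow Γ D K Y _ _ _ _ _ mp Bd ms (Subgroup.zpowers b) G1 G2 bp W Q Q' Ω _ _ act
    _ π lam b h hG hL hS he he' hLU hLU' hsy C hC hΩ hNI hinv hQ hQ' hcl herg herg'
  have hes : ∀ g, ∀ ξ ∈ Bd, Tendsto (fun n : ℕ => ‖st mp {g} (π (b ^ n) ξ)‖) atTop (𝓝 0) :=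
    fun g ξ hξ => tendsto_map'_iff.1 (he.esc g ξ hξ)
  rcases hd with ⟨h1, -⟩ | ⟨h1, -⟩
  · left
    exact @engine Γ D K Y _ _ _ _ _ mp π Bd ms G1 G2 bp lam W _ _ _ act b h hL hG hS hes hLU h1
  · right
    exact @engine Γ D K Y' _ _ _ _ _ mp π Bd ms G2 G1 bp' lam W _ _ _ act' b
      (TransD.sysF_swap h) hL hG' hS hes (TransD.LU_swap hLU) h1

end eng

end Vale.Agent.P092.H76.EngD
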