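import Vale.Agent.P092.H76.Syn

/-!
P092 (helper76), Team D: multiplicativity from the vanishing on disjoint supports.
-/

set_option linter.all false

open scoped InnerProductSpace
open Filter Topology

namespace Vale.Agent.P092.H76.Pur

section mul

variable {X : Type*} [TopologicalSpace X] [CompactSpace X]
  {K : Type*} [NormedAddCommGroup K] [InnerProductSpace ℂ K] [CompleteSpace K]

/-- `f ↦ P (h f)` -/
noncomputable def lmul (P : C(X, ℂ) →ₗ[ℂ] (K →L[ℂ] K)) (h : C(X, ℂ)) : C(X, ℂ) →ₗ[ℂ] (K →L[ℂ] K) where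
  toFun f := P (h * f)
  map_add' f g := by rw [mul_add, map_add]
  map_smul' c f := by rw [mul_smul_comm, map_smul, RingHom.id_apply]

theorem lmul_apply (P : C(X, ℂ) →ₗ[ℂ] (K →L[ℂ] K)) (h f : C(X, ℂ)) : lmul P h f = P (h * f) := rfl

theorem UCP.lmul {P : C(X, ℂ) →ₗ[ℂ] (K →L[ℂ] K)} (hP : UCP P) {h : C(X, ℝ)} (h0 : ∀ x, 0 ≤ h x)
    (h1 : ∀ x, h x ≤ 1) : UCP (lmul P (cc h)) := by
  refine ⟨fun f => ?_, fun f ξ => ?_, fun ξ => ?_⟩
  · rw [lmul_apply, lmul_apply, hP.adj, star_mul, star_cc, mul_comm]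
  · rw [lmul_apply, lmul_apply]
    refine (hP.sch _ ξ).trans ?_
    obtain ⟨u, hu⟩ : ∃ u : C(X, ℝ), u = ⟨fun x => ‖f x‖ ^ 2, by fun_prop⟩ := ⟨_, rfl⟩
    have e1 : star (cc h * f) * (cc h * f) = cc (h * h * u) := by
      ext x
      rw [hu]
      simp only [ContinuousMap.mul_apply, ContinuousMap.star_apply, cc_apply,
        ContinuousMap.coe_mk, star_mul, Complex.star_def, Complex.conj_ofReal]
      have : (starRingEnd ℂ) (f x) * f x = ((‖f x‖ ^ 2 : ℝ) : ℂ) := by
        rw [Complex.conj_mul']; push_cast; rfl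
      push_cast at this ⊢
      rw [← this]
      ring
    have e2 : cc h * (star f * f) = cc (h * u) := by
      ext x
      rw [hu]
      simp only [ContinuousMap.mul_apply, ContinuousMap.star_apply, cc_apply,
        ContinuousMap.coe_mk, Complex.star_def]
      have : (starRingEnd ℂ) (f x) * f x = ((‖f x‖ ^ 2 : ℝ) : ℂ) := by
        rw [Complex.conj_mul']; push_cast; rfl
      push_cast at this ⊢
      rw [← this]
    rw [e1, e2]
    refine hP.mono (ContinuousMap.le_def.2 fun x => ?_) ξ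
    rw [ContinuousMap.mul_apply, ContinuousMap.mul_apply, ContinuousMap.mul_apply, hu]
    have h2 : h x * h x ≤ h x := mul_le_of_le_one_left (h0 x) (h1 x)
    exact mul_le_mul_of_nonneg_right h2 (sq_nonneg ‖f x‖)
  · rw [lmul_apply, mul_one]
    refine (hP.mono (g := 1) (ContinuousMap.le_def.2 fun x => h1 x) ξ).trans ?_
    rw [cc_one]
    exact hP.one_le ξ

/-- a continuous function is a combination of functions with values in `[0, 1]` -/
theorem cc_induct {p : C(X, ℂ) → Prop} (hadd : ∀ f g, p f → p g → p (f + g))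
    (hsmul : ∀ (c : ℂ) f, p f → p (c • f))
    (h : ∀ g : C(X, ℝ), (∀ x, 0 ≤ g x) → (∀ x, g x ≤ 1) → p (cc g)) (f : C(X, ℂ)) : p f := by
  have h1 : p 1 := by
    rw [← cc_one]
    exact h 1 (fun x => zero_le_one) (fun x => le_rfl)
  have h2 : ∀ g : C(X, ℝ), p (cc g) := by
    intro g
    obtain ⟨c, hc⟩ : ∃ c : ℝ, c = ‖g‖ + 1 := ⟨_, rfl⟩
    have hc0 : 0 < c := by rw [hc]; positivity
    obtain ⟨u, hu⟩ : ∃ u : C(X, ℝ), u = (1 / (2 * c)) • (g + c • 1) := ⟨_, rfl⟩
    have hgx : ∀ x, -c ≤ g x ∧ g x ≤ c := by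
      intro x
      have h3 := g.norm_coe_le_norm x
      rw [Real.norm_eq_abs, abs_le] at h3
      constructor <;> linarith [h3.1, h3.2]
    have h3 := h u (fun x => ?_) (fun x => ?_)
    · have e : cc g = (2 * c : ℂ) • cc u + (-c : ℂ) • (1 : C(X, ℂ)) := by
        ext x
        rw [hu]
        simp only [cc_apply, ContinuousMap.smul_apply,
          ContinuousMap.add_apply, ContinuousMap.one_apply, smul_eq_mul]
        have hc1 : (c : ℂ) ≠ 0 := by exact_mod_cast hc0.ne'
        push_cast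
        field_simp
        ring
      rw [e]
      exact hadd _ _ (hsmul _ _ h3) (hsmul _ _ h1)
    · rw [hu, ContinuousMap.smul_apply, ContinuousMap.add_apply, ContinuousMap.smul_apply,
        ContinuousMap.one_apply, smul_eq_mul, smul_eq_mul, mul_one]
      have := (hgx x).1
      exact mul_nonneg (by positivity) (by linarith)
    · rw [hu, ContinuousMap.smul_apply, ContinuousMap.add_apply, ContinuousMap.smul_apply,
        ContinuousMap.one_apply, smul_eq_mul, smul_eq_mul, mul_one, one_div,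
        inv_mul_le_iff₀ (by positivity)]
      have := (hgx x).2
      linarith
  obtain ⟨a, ha⟩ : ∃ a : C(X, ℝ), a = ⟨fun x => (f x).re, Complex.continuous_re.comp
    f.continuous⟩ := ⟨_, rfl⟩
  obtain ⟨b, hb⟩ : ∃ b : C(X, ℝ), b = ⟨fun x => (f x).im, Complex.continuous_im.comp
    f.continuous⟩ := ⟨_, rfl⟩
  have e : f = cc a + Complex.I • cc b := by
    ext x
    rw [ha, hb]
    simp only [cc_apply, ContinuousMap.add_apply, ContinuousMap.smul_apply, smul_eq_mul,
      ContinuousMap.coe_mk]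
    rw [mul_comm Complex.I]
    exact (Complex.re_add_im (f x)).symm
  rw [e]
  exact hadd _ _ (h2 a) (hsmul _ _ (h2 b))

/-- **Multiplicativity**, for two families: `P h * T * Q f = P (h f) * T * Q 1`. -/
theorem syn_mul {P Q : C(X, ℂ) →ₗ[ℂ] (K →L[ℂ] K)} (hP : UCP P) (hQ : UCP Q) (T : K →L[ℂ] K)
    (hd : ∀ f g : C(X, ℂ), Disjoint (tsupport f) (tsupport g) → P f * T * Q g = 0)
    (h f : C(X, ℂ)) : P h * T * Q f = P (h * f) * T * Q 1 := by
  refine cc_induct (p := fun h => P h * T * Q f = P (h * f) * T * Q 1) ?_ ?_ ?_ h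
  · intro g g' h1 h2
    rw [map_add, add_mul, add_mul, h1, h2, add_mul, map_add, add_mul, add_mul]
  · intro c g h1
    rw [map_smul, smul_mul_assoc, smul_mul_assoc, h1, smul_mul_assoc, map_smul, smul_mul_assoc,
      smul_mul_assoc]
  · intro g h0 h1
    have h2 := syn (hP.lmul h0 h1) hQ T (fun a b hab => ?_) f
    · rw [lmul_apply, lmul_apply, mul_one] at h2
      exact h2.symm
    · rw [lmul_apply]
      refine hd _ _ (hab.mono_left ?_)
      exact closure_mono fun x hx => by
        have : cc g x * a x ≠ 0 := hx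
        exact right_ne_zero_of_mul this

/-- A unital family with `E f * E g = 0` for disjoint supports is a homomorphism. -/
noncomputable def hom {E : C(X, ℂ) →ₗ[ℂ] (K →L[ℂ] K)} (hE : UCP E)
    (hd : ∀ f g : C(X, ℂ), Disjoint (tsupport f) (tsupport g) → E f * E g = 0) (h1 : E 1 = 1) :
    C(X, ℂ) →⋆ₐ[ℂ] (K →L[ℂ] K) where
  toFun := E
  map_one' := h1
  map_mul' f g := by
    have := syn_mul hE hE 1 (fun f g hfg => by rw [mul_one]; exact hd f g hfg) f g
    rw [mul_one, mul_one, h1, mul_one] at this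
    exact this.symm
  map_zero' := map_zero E
  map_add' f g := map_add E f g
  commutes' c := by
    rw [Algebra.algebraMap_eq_smul_one, Algebra.algebraMap_eq_smul_one, map_smul, h1]
  map_star' f := by
    rw [ContinuousLinearMap.star_eq_adjoint, hE.adj]

theorem hom_apply {E : C(X, ℂ) →ₗ[ℂ] (K →L[ℂ] K)} (hE : UCP E)
    (hd : ∀ f g : C(X, ℂ), Disjoint (tsupport f) (tsupport g) → E f * E g = 0) (h1 : E 1 = 1)
    (f : C(X, ℂ)) : hom hE hd h1 f = E f := rfl

/-- Two unital families with `E f * E' g = 0` for disjoint supports are equal. -/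
theorem eq_of_sep {E E' : C(X, ℂ) →ₗ[ℂ] (K →L[ℂ] K)} (hE : UCP E) (hE' : UCP E')
    (hd : ∀ f g : C(X, ℂ), Disjoint (tsupport f) (tsupport g) → E f * E' g = 0) (h1 : E 1 = 1)
    (h1' : E' 1 = 1) : E = E' := by
  refine LinearMap.ext fun f => ?_
  have := syn hE hE' 1 (fun f g hfg => by rw [mul_one]; exact hd f g hfg) f
  rwa [mul_one, mul_one, h1, h1', mul_one, one_mul] at this

end mul

end Vale.Agent.P092.H76.Pur
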