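import Vale.Agent.P092.H76.PurA
import Vale.Agent.P092.H76.SynMul
import Vale.Agent.P092.H108.Base

/-!
P092 (helper76), Team D, block [D0-PUR]: weak limits of positive maps along ultrafilters, and the
type dichotomy.
-/

set_option linter.all false

open scoped InnerProductSpace
open Filter Topology

namespace Vale.Agent.P092.H76.Pur

section lim

variable {X K I : Type*} [TopologicalSpace X] [CompactSpace X] [NormedAddCommGroup K]
  [InnerProductSpace ℂ K] [CompleteSpace K]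

theorem UCP.one_nonneg {P : C(X, ℂ) →ₗ[ℂ] (K →L[ℂ] K)} (hP : UCP P) (ξ : K) :
    0 ≤ (⟪ξ, P 1 ξ⟫_ℂ).re := by
  have := hP.sch 1 ξ
  rw [star_one, one_mul] at this
  exact (sq_nonneg _).trans this

theorem UCP.norm_le {P : C(X, ℂ) →ₗ[ℂ] (K →L[ℂ] K)} (hP : UCP P) (f : C(X, ℂ)) : ‖P f‖ ≤ ‖f‖ := by
  refine ContinuousLinearMap.opNorm_le_bound _ (norm_nonneg _) fun ξ => ?_
  have h1 := hP.sch f ξ
  obtain ⟨u, hu⟩ : ∃ u : C(X, ℝ), u = ⟨fun x => ‖f x‖ ^ 2, by fun_prop⟩ := ⟨_, rfl⟩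
  have e1 : star f * f = cc u := by
    ext x
    rw [hu]
    simp only [ContinuousMap.mul_apply, ContinuousMap.star_apply, cc_apply,
      ContinuousMap.coe_mk, Complex.star_def]
    rw [Complex.conj_mul']; push_cast; rfl
  have h2 : u ≤ (‖f‖ ^ 2) • (1 : C(X, ℝ)) := ContinuousMap.le_def.2 fun x => by
    rw [hu]
    simp only [ContinuousMap.coe_mk, ContinuousMap.smul_apply, ContinuousMap.one_apply,
      smul_eq_mul, mul_one]
    exact pow_le_pow_left₀ (norm_nonneg _) (f.norm_coe_le_norm x) 2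
  have h3 := hP.mono h2 ξ
  have e2 : cc ((‖f‖ ^ 2) • (1 : C(X, ℝ))) = ((‖f‖ ^ 2 : ℝ) : ℂ) • (1 : C(X, ℂ)) := by
    ext x
    simp [cc_apply]
  rw [e2, map_smul, ContinuousLinearMap.smul_apply, inner_smul_right, Complex.re_ofReal_mul] at h3
  rw [e1] at h1
  have h4 := hP.one_le ξ
  have h5 : ‖P f ξ‖ ^ 2 ≤ (‖f‖ * ‖ξ‖) ^ 2 := by
    rw [mul_pow]
    exact h1.trans (h3.trans (mul_le_mul_of_nonneg_left h4 (sq_nonneg _)))
  exact le_of_sq_le_sq h5 (by positivity)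

/-- Weak convergence of a net of linear maps. -/
def WLim (P : I → (C(X, ℂ) →ₗ[ℂ] (K →L[ℂ] K))) (l : Filter I)
    (E : C(X, ℂ) →ₗ[ℂ] (K →L[ℂ] K)) : Prop :=
  ∀ f ξ η, Tendsto (fun i => ⟪ξ, P i f η⟫_ℂ) l (𝓝 ⟪ξ, E f η⟫_ℂ)

theorem WLim.ucp {P : I → (C(X, ℂ) →ₗ[ℂ] (K →L[ℂ] K))} {l : Filter I} [l.NeBot]
    {E : C(X, ℂ) →ₗ[ℂ] (K →L[ℂ] K)} (hE : WLim P l E) (hP : ∀ i, UCP (P i)) : UCP E := by
  refine ⟨fun f => ?_, fun f ξ => ?_, fun ξ => ?_⟩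
  · refine ContinuousLinearMap.ext fun ξ => ext_inner_left ℂ fun η => ?_
    rw [ContinuousLinearMap.adjoint_inner_right]
    have h1 := (Complex.continuous_conj.tendsto _).comp (hE f ξ η)
    refine tendsto_nhds_unique (h1.congr fun i => ?_) (hE (star f) η ξ) |>.symm ▸ ?_
    · change (starRingEnd ℂ) ⟪ξ, P i f η⟫_ℂ = ⟪η, P i (star f) ξ⟫_ℂ
      rw [inner_conj_symm, ← (hP i).adj, ContinuousLinearMap.adjoint_inner_right]
    · rw [inner_conj_symm]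
  · have h1 := (Complex.continuous_re.tendsto _).comp (hE f (E f ξ) ξ)
    have h2 := (Complex.continuous_re.tendsto _).comp (hE (star f * f) ξ ξ)
    have h3 : 2 * (⟪E f ξ, E f ξ⟫_ℂ).re ≤ ‖E f ξ‖ ^ 2 + (⟪ξ, E (star f * f) ξ⟫_ℂ).re := by
      refine le_of_tendsto_of_tendsto' (h1.const_mul 2) (h2.const_add _) fun i => ?_
      change 2 * (⟪E f ξ, P i f ξ⟫_ℂ).re ≤ ‖E f ξ‖ ^ 2 + (⟪ξ, P i (star f * f) ξ⟫_ℂ).re
      have h4 := (hP i).sch f ξ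
      have h5 : (⟪E f ξ, P i f ξ⟫_ℂ).re ≤ ‖E f ξ‖ * ‖P i f ξ‖ :=
        (Complex.re_le_norm _).trans (norm_inner_le_norm _ _)
      nlinarith [sq_nonneg (‖E f ξ‖ - ‖P i f ξ‖)]
    have h4 : (⟪E f ξ, E f ξ⟫_ℂ).re = ‖E f ξ‖ ^ 2 := by
      rw [inner_self_eq_norm_sq_to_K]
      norm_cast
    rw [h4] at h3
    linarith
  · have h1 := (Complex.continuous_re.tendsto _).comp (hE 1 ξ ξ)
    exact le_of_tendsto' h1 fun i => (hP i).one_le ξ

/-- Existence of weak limits along ultrafilters. -/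
theorem exists_wlim {P : I → (C(X, ℂ) →ₗ[ℂ] (K →L[ℂ] K))} (hP : ∀ i, UCP (P i))
    (U : Ultrafilter I) : ∃ E : C(X, ℂ) →ₗ[ℂ] (K →L[ℂ] K), WLim P U E := by
  have h1 : ∀ f : C(X, ℂ), ∃ L : K →L[ℂ] K, ‖L‖ ≤ ‖f‖ ∧
      ∀ ξ η : K, Tendsto (fun i => ⟪ξ, P i f η⟫_ℂ) U (𝓝 ⟪ξ, L η⟫_ℂ) := fun f =>
    H108.exists_wot_limit U (fun i => P i f) ‖f‖ (fun i => (hP i).norm_le f) (norm_nonneg _)
  choose L hL1 hL2 using h1
  refine ⟨{ toFun := L, map_add' := fun f g => ?_, map_smul' := fun c f => ?_ }, hL2⟩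
  · refine ContinuousLinearMap.ext fun ξ => ext_inner_left ℂ fun η => ?_
    refine tendsto_nhds_unique (hL2 (f + g) η ξ) ?_
    rw [ContinuousLinearMap.add_apply, inner_add_right]
    refine ((hL2 f η ξ).add (hL2 g η ξ)).congr fun i => ?_
    rw [map_add, ContinuousLinearMap.add_apply, inner_add_right]
  · refine ContinuousLinearMap.ext fun ξ => ext_inner_left ℂ fun η => ?_
    refine tendsto_nhds_unique (hL2 (c • f) η ξ) ?_
    rw [RingHom.id_apply, ContinuousLinearMap.smul_apply, inner_smul_right]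
    refine ((hL2 f η ξ).const_mul c).congr fun i => ?_
    rw [map_smul, ContinuousLinearMap.smul_apply, inner_smul_right]

/-- The product of two weak limits, from the joint limit. -/
theorem WLim.prod_zero {P P' : I → (C(X, ℂ) →ₗ[ℂ] (K →L[ℂ] K))} {l : Filter I}
    {U U' : Ultrafilter I} (hU : (U : Filter I) ≤ l) (hU' : (U' : Filter I) ≤ l)
    {E E' : C(X, ℂ) →ₗ[ℂ] (K →L[ℂ] K)} (hP : ∀ i, UCP (P i)) (hE : WLim P U E)
    (hE' : WLim P' U' E') {f g : C(X, ℂ)}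
    (h : ∀ ξ η, Tendsto (fun p : I × I => ⟪P p.1 (star f) ξ, P' p.2 g η⟫_ℂ) (l ×ˢ l) (𝓝 0)) :
    E f * E' g = 0 := by
  have hEu := hE.ucp hP
  refine ContinuousLinearMap.ext fun η => ext_inner_left ℂ fun ξ => ?_
  rw [ContinuousLinearMap.zero_apply, inner_zero_right]
  change ⟪ξ, E f (E' g η)⟫_ℂ = 0
  have e1 : ⟪ξ, E f (E' g η)⟫_ℂ = (starRingEnd ℂ) ⟪E' g η, E (star f) ξ⟫_ℂ := by
    rw [inner_conj_symm, ← hEu.adj f, ContinuousLinearMap.adjoint_inner_left]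
  rw [e1]
  have h1 := hE (star f) (E' g η) ξ
  have h2 : ∀ ε > 0, ‖⟪E' g η, E (star f) ξ⟫_ℂ‖ ≤ ε := by
    intro ε hε
    have h3 : ∀ᶠ p in l ×ˢ l, ‖⟪P p.1 (star f) ξ, P' p.2 g η⟫_ℂ‖ ≤ ε := by
      have := (h ξ η).norm
      rw [norm_zero] at this
      exact this (Iic_mem_nhds hε)
    obtain ⟨pa, ha, pb, hb, hab⟩ := eventually_prod_iff.1 h3
    refine le_of_tendsto h1.norm ?_
    filter_upwards [hU ha] with i hi
    have h4 : Tendsto (fun j => ⟪P i (star f) ξ, P' j g η⟫_ℂ) U' (𝓝 ⟪P i (star f) ξ, E' g η⟫_ℂ) :=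
      hE' g (P i (star f) ξ) η
    rw [← inner_conj_symm, RCLike.norm_conj]
    refine le_of_tendsto h4.norm ?_
    filter_upwards [hU' hb] with j hj
    exact hab hi hj
  have h3 : ⟪E' g η, E (star f) ξ⟫_ℂ = 0 := by
    rw [← norm_eq_zero]
    exact le_antisymm (le_of_forall_pos_le_add fun ε hε => by
      rw [zero_add]; exact h2 ε hε) (norm_nonneg _)
  rw [h3, map_zero]

end lim

section half

variable {G Γ X K I : Type*} [Group G] [Group Γ] [TopologicalSpace X] [CompactSpace X]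
  [NormedAddCommGroup K] [InnerProductSpace ℂ K] [CompleteSpace K]

/-- The properties of a limit family. -/
structure LimF (act : Γ → X → X) (π : G →* (K →L[ℂ] K)) (lam : Γ →* (K →L[ℂ] K))
    (W : Set (K →L[ℂ] K)) (Q : Set G) (E : C(X, ℂ) →ₗ[ℂ] (K →L[ℂ] K)) : Prop where
  cov : Cov act lam E
  cm : ∀ f, ∀ w ∈ W, E f * w = w * E f
  par : ∀ f, ∀ g ∈ Q, E f * π g = π g * E f

/-- The operators commuting with `W`, `lam` and `π Q` are scalars. -/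
def Erg (π : G →* (K →L[ℂ] K)) (lam : Γ →* (K →L[ℂ] K)) (W : Set (K →L[ℂ] K)) (Q : Set G) : Prop :=
  ∀ T : K →L[ℂ] K, (∀ w ∈ W, T * w = w * T) → (∀ γ, T * lam γ = lam γ * T) →
    (∀ g ∈ Q, T * π g = π g * T) → ∃ z : ℂ, T = z • (1 : K →L[ℂ] K)

/-- If all the weak limits of `P i 1` are `1`, then `P i 1` converges strongly to `1`. -/
theorem strong_of_weak {P : I → (C(X, ℂ) →ₗ[ℂ] (K →L[ℂ] K))} (hP : ∀ i, UCP (P i)) {l : Filter I}
    (h : ∀ U : Ultrafilter I, (U : Filter I) ≤ l → ∀ E, WLim P U E → E 1 = 1) (ξ : K) :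
    Tendsto (fun i => P i 1 ξ) l (𝓝 ξ) := by
  have h1 : Tendsto (fun i => (⟪ξ, P i 1 ξ⟫_ℂ).re) l (𝓝 (‖ξ‖ ^ 2)) := by
    rw [tendsto_iff_ultrafilter]
    intro U hU
    obtain ⟨E, hE⟩ := exists_wlim hP U
    have h2 := (Complex.continuous_re.tendsto _).comp (hE 1 ξ ξ)
    rw [h U hU E hE] at h2
    have h3 : (⟪ξ, (1 : K →L[ℂ] K) ξ⟫_ℂ).re = ‖ξ‖ ^ 2 := by
      change (⟪ξ, ξ⟫_ℂ).re = _
      rw [inner_self_eq_norm_sq_to_K]
      norm_cast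
    rw [h3] at h2
    exact h2
  rw [tendsto_iff_norm_sub_tendsto_zero]
  have h2 : Tendsto (fun i => ‖ξ‖ ^ 2 - (⟪ξ, P i 1 ξ⟫_ℂ).re) l (𝓝 0) := by
    have := h1.const_sub (‖ξ‖ ^ 2)
    rwa [sub_self] at this
  have h3 : ∀ i, ‖P i 1 ξ - ξ‖ ^ 2 ≤ ‖ξ‖ ^ 2 - (⟪ξ, P i 1 ξ⟫_ℂ).re := by
    intro i
    have h4 := (hP i).sch 1 ξ
    rw [star_one, one_mul] at h4
    have h5 := @norm_sub_sq ℂ K _ _ _ (P i 1 ξ) ξ
    have h6 : RCLike.re ⟪P i 1 ξ, ξ⟫_ℂ = (⟪ξ, P i 1 ξ⟫_ℂ).re := by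
      rw [← inner_conj_symm, RCLike.conj_re]
      rfl
    rw [h5, h6]
    linarith
  have h4 : Tendsto (fun i => ‖P i 1 ξ - ξ‖ ^ 2) l (𝓝 0) :=
    squeeze_zero (fun i => sq_nonneg _) h3 h2
  have h5 := h4.sqrt
  rw [Real.sqrt_zero] at h5
  exact h5.congr fun i => Real.sqrt_sq (norm_nonneg _)

/-- **[D0-PUR], the type dichotomy.** `P i` are the cut-offs of type one along `w i`, `P' i` the
same along `(w i)⁻¹`. -/
theorem half {act : Γ → X → X} (hNI : NIS act) {π : G →* (K →L[ℂ] K)}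
    {lam : Γ →* (K →L[ℂ] K)} {W : Set (K →L[ℂ] K)} {Ω : K} (hΩ : ‖Ω‖ = 1)
    (hinv : Inv π lam W Ω) {Q Q' : Set G} (hQ : Subgroup.closure (Q ∪ Q') = ⊤)
    (herg : Erg π lam W Q) (herg' : Erg π lam W Q')
    {P P' : I → (C(X, ℂ) →ₗ[ℂ] (K →L[ℂ] K))} (hP : ∀ i, UCP (P i)) (hP' : ∀ i, UCP (P' i))
    {l : Filter I}
    (hL : ∀ U : Ultrafilter I, (U : Filter I) ≤ l → ∀ E, WLim P U E → LimF act π lam W Q E)
    (hL' : ∀ U : Ultrafilter I, (U : Filter I) ≤ l → ∀ E, WLim P' U E → LimF act π lam W Q' E)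
    (hsep : ∀ f g : C(X, ℂ), Disjoint (tsupport f) (tsupport g) → ∀ ξ η,
      Tendsto (fun p : I × I => ⟪P p.1 f ξ, P' p.2 g η⟫_ℂ) (l ×ˢ l) (𝓝 0))
    (hsym : Tendsto (fun i => ⟪Ω, P i 1 Ω⟫_ℂ + ⟪Ω, P' i 1 Ω⟫_ℂ) l (𝓝 1)) :
    (∀ ξ, Tendsto (fun i => P i 1 ξ) l (𝓝 ξ)) ∨ (∀ ξ, Tendsto (fun i => P' i 1 ξ) l (𝓝 ξ)) := by
  have hΩ1 : ⟪Ω, Ω⟫_ℂ = 1 := by rw [inner_self_eq_norm_sq_to_K, hΩ]; simp
  -- the scalars of two limits along the same ultrafilter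
  have hsum : ∀ U : Ultrafilter I, (U : Filter I) ≤ l → ∀ E E', WLim P U E → WLim P' U E' →
      ∃ c c' : ℂ, E 1 = c • 1 ∧ E' 1 = c' • 1 ∧ c + c' = 1 := by
    intro U hU E E' hE hE'
    have h1 := hL U hU E hE
    have h2 := hL' U hU E' hE'
    obtain ⟨c, hc⟩ := exists_scalar herg h1.cov h1.cm h1.par
    obtain ⟨c', hc'⟩ := exists_scalar herg' h2.cov h2.cm h2.par
    refine ⟨c, c', hc, hc', ?_⟩
    have h3 := (hE 1 Ω Ω).add (hE' 1 Ω Ω)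
    have h4 := tendsto_nhds_unique h3 (hsym.mono_left hU)
    rw [hc, hc', ContinuousLinearMap.smul_apply, ContinuousLinearMap.smul_apply,
      inner_smul_right, inner_smul_right] at h4
    change c * ⟪Ω, Ω⟫_ℂ + c' * ⟪Ω, Ω⟫_ℂ = 1 at h4
    rw [hΩ1, mul_one, mul_one] at h4
    exact h4
  by_contra hn
  rw [not_or] at hn
  obtain ⟨hn1, hn2⟩ := hn
  have hn1' : ∃ U : Ultrafilter I, (U : Filter I) ≤ l ∧ ∃ E, WLim P U E ∧ E 1 ≠ 1 := by
    by_contra hh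
    push Not at hh
    exact hn1 (strong_of_weak hP hh)
  have hn2' : ∃ U : Ultrafilter I, (U : Filter I) ≤ l ∧ ∃ E, WLim P' U E ∧ E 1 ≠ 1 := by
    by_contra hh
    push Not at hh
    exact hn2 (strong_of_weak hP' hh)
  obtain ⟨U, hU, E, hE, hE1⟩ := hn1'
  obtain ⟨U', hU', F', hF', hF1⟩ := hn2'
  obtain ⟨E', hE'⟩ := exists_wlim hP' U
  obtain ⟨F, hF⟩ := exists_wlim hP U'
  obtain ⟨c, c', hc, hc', hcc⟩ := hsum U hU E E' hE hE'
  obtain ⟨d, d', hd, hd', hdd⟩ := hsum U' hU' F F' hF hF'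
  have hc0 : c' ≠ 0 := by
    intro h
    rw [h, add_zero] at hcc
    exact hE1 (by rw [hc, hcc, one_smul])
  have hd0 : d ≠ 0 := by
    intro h
    rw [h, zero_add] at hdd
    exact hF1 (by rw [hd', hdd, one_smul])
  have h1 := hL U' hU' F hF
  have h2 := hL' U hU E' hE'
  rcases pur hNI hΩ hinv hQ (hF.ucp hP) (hE'.ucp hP') (fun f g hfg =>
    WLim.prod_zero hU' hU hP hF hE' (hsep (star f) g (hfg.mono_left (closure_mono fun x hx => by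
      have h3 : star (f x) ≠ 0 := hx
      exact fun h4 => h3 (by rw [h4, star_zero])))) ) hd hc' h1.cov h1.cm h1.par h2.par with h | h
  · exact hd0 h
  · exact hc0 h

end half

end Vale.Agent.P092.H76.Pur
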