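import Mathlib

/-!
P092 (helper76), Team C, block [C-NI], abstract part: no finitely additive probability on the clopen
sets which is invariant under a subgroup of finite covolume, if the big group contracts a clopen set
whose translates cover.
-/

set_option linter.all false

open MeasureTheory Topology Filter Set
open scoped Pointwise

namespace Vale.Agent.P092.H76.NI

section abs

variable {E X : Type*} [Group E] [TopologicalSpace E] [IsTopologicalGroup E] [MulAction E X]
  [TopologicalSpace X]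

/-- A finitely additive measure on the clopen sets. -/
structure FA (φ : Set X → ℝ) : Prop where
  nonneg : ∀ U, IsClopen U → 0 ≤ φ U
  add : ∀ U V, IsClopen U → IsClopen V → Disjoint U V → φ (U ∪ V) = φ U + φ V

theorem FA.mono {φ : Set X → ℝ} (h : FA φ) {U V : Set X} (hU : IsClopen U) (hV : IsClopen V)
    (hUV : U ⊆ V) : φ U ≤ φ V := by
  have h1 := h.add U (V \ U) hU (hV.diff hU) disjoint_sdiff_right
  rw [union_diff_cancel hUV] at h1
  rw [h1]
  exact le_add_of_nonneg_right (h.nonneg _ (hV.diff hU))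

theorem FA.union_le {φ : Set X → ℝ} (h : FA φ) {U V : Set X} (hU : IsClopen U) (hV : IsClopen V) :
    φ (U ∪ V) ≤ φ U + φ V := by
  have h1 := h.add U (V \ U) hU (hV.diff hU) disjoint_sdiff_right
  rw [union_diff_self] at h1
  rw [h1]
  have h2 := h.mono (hV.diff hU) hV diff_subset
  linarith

theorem FA.empty {φ : Set X → ℝ} (h : FA φ) : φ ∅ = 0 := by
  have h1 := h.add ∅ ∅ isClopen_empty isClopen_empty (disjoint_empty _)
  rw [union_empty] at h1
  linarith

variable [ContinuousConstSMul E X]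

theorem clopen_smul {U : Set X} (hU : IsClopen U) (g : E) : IsClopen (g • U) := by
  rw [← preimage_smul_inv]
  exact hU.preimage (continuous_const_smul g⁻¹)

/-- `gΓ ↦ φ (g⁻¹ U)` -/
noncomputable def FU (Γ : Subgroup E) (φ : Set X → ℝ)
    (hinv : ∀ γ ∈ Γ, ∀ U, IsClopen U → φ (γ • U) = φ U) (U : Set X) (hU : IsClopen U) :
    E ⧸ Γ → ℝ :=
  Quotient.lift (fun g : E => φ (g⁻¹ • U)) (by
    intro a b hab
    have h1 : a⁻¹ * b ∈ Γ := QuotientGroup.leftRel_apply.1 hab
    have h2 := hinv _ h1 (b⁻¹ • U) (clopen_smul hU _)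
    rw [smul_smul, mul_assoc, mul_inv_cancel, mul_one] at h2
    exact h2)

theorem FU_mk {Γ : Subgroup E} {φ : Set X → ℝ}
    (hinv : ∀ γ ∈ Γ, ∀ U, IsClopen U → φ (γ • U) = φ U) {U : Set X} (hU : IsClopen U) (g : E) :
    FU Γ φ hinv U hU (g : E ⧸ Γ) = φ (g⁻¹ • U) := rfl

/-- a clopen set is stabilised by an open subgroup -/
def Loc (E X : Type*) [Group E] [TopologicalSpace E] [MulAction E X] [TopologicalSpace X] : Prop :=
  ∀ U : Set X, IsClopen U → {g : E | g • U = U} ∈ 𝓝 1

theorem FU_cont {Γ : Subgroup E} {φ : Set X → ℝ} (hloc : Loc E X)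
    (hinv : ∀ γ ∈ Γ, ∀ U, IsClopen U → φ (γ • U) = φ U) {U : Set X} (hU : IsClopen U) :
    Continuous (FU Γ φ hinv U hU) := by
  refine (QuotientGroup.isQuotientMap_mk (N := Γ)).continuous_iff.2 ?_
  change Continuous fun g : E => φ (g⁻¹ • U)
  rw [continuous_iff_continuousAt]
  intro g
  have h1 : {h : E | h • (g⁻¹ • U) = g⁻¹ • U} ∈ 𝓝 (1 : E) := hloc _ (clopen_smul hU _)
  have h2 : Tendsto (fun h : E => h⁻¹ * g) (𝓝 g) (𝓝 1) := by
    have h3 : Continuous fun h : E => h⁻¹ * g := by fun_prop
    have h4 := h3.tendsto g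
    simpa using h4
  refine tendsto_nhds_of_eventually_eq ?_
  filter_upwards [h2 h1] with h hh
  have hh' : (h⁻¹ * g) • (g⁻¹ • U) = g⁻¹ • U := hh
  rw [smul_smul, mul_assoc, mul_inv_cancel, mul_one] at hh'
  rw [hh']

/-- **No invariant finitely additive probability.** -/
theorem no_inv {E X : Type*} [Group E] [TopologicalSpace E] [IsTopologicalGroup E] [MulAction E X]
    [TopologicalSpace X] [ContinuousConstSMul E X] (Γ : Subgroup E)
    (ν : @Measure (E ⧸ Γ) (borel (E ⧸ Γ))) (hν0 : ν ≠ 0) (hνf : ν univ < ⊤)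
    (hν : ∀ g : E, ∀ s : Set (E ⧸ Γ), MeasurableSet[borel (E ⧸ Γ)] s →
      ν ((fun x => g • x) ⁻¹' s) = ν s)
    (hloc : Loc E X) {C : Set X} (hC : IsClopen C) (a u : E) (ha : a • C ⊆ C)
    (hu : u • (a • C) ⊆ C \ a • C) (F : Finset E) (hF : ∀ x : X, ∃ g ∈ F, x ∈ g • C)
    (φ : Set X → ℝ) (hφ : FA φ) (h1 : φ univ = 1)
    (hinv : ∀ γ ∈ Γ, ∀ U, IsClopen U → φ (γ • U) = φ U) : False := by
  classical
  let _ : MeasurableSpace (E ⧸ Γ) := borel _
  have : BorelSpace (E ⧸ Γ) := ⟨rfl⟩
  have : IsFiniteMeasure ν := ⟨hνf⟩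
  let m : ∀ U : Set X, IsClopen U → ℝ := fun U hU => ∫ x, FU Γ φ hinv U hU x ∂ν
  have hb : ∀ U (hU : IsClopen U), ∀ x, 0 ≤ FU Γ φ hinv U hU x ∧ FU Γ φ hinv U hU x ≤ 1 := by
    intro U hU x
    induction x using QuotientGroup.induction_on with
    | H g =>
      rw [FU_mk]
      refine ⟨hφ.nonneg _ (clopen_smul hU _), ?_⟩
      rw [← h1]
      exact hφ.mono (clopen_smul hU _) isClopen_univ (subset_univ _)
  have hi : ∀ U (hU : IsClopen U), Integrable (FU Γ φ hinv U hU) ν := by
    intro U hU
    refine Integrable.of_bound (FU_cont hloc hinv hU).aestronglyMeasurable 1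
      (Eventually.of_forall fun x => ?_)
    rw [Real.norm_eq_abs, abs_le]
    have := hb U hU x
    constructor <;> linarith
  have hmono : ∀ U V (hU : IsClopen U) (hV : IsClopen V), U ⊆ V → m U hU ≤ m V hV := by
    intro U V hU hV hUV
    refine integral_mono (hi U hU) (hi V hV) fun x => ?_
    induction x using QuotientGroup.induction_on with
    | H g =>
      rw [FU_mk, FU_mk]
      exact hφ.mono (clopen_smul hU _) (clopen_smul hV _) (smul_set_mono hUV)
  have hadd : ∀ U V (hU : IsClopen U) (hV : IsClopen V), Disjoint U V →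
      m (U ∪ V) (hU.union hV) = m U hU + m V hV := by
    intro U V hU hV hUV
    change ∫ x, _ ∂ν = ∫ x, _ ∂ν + ∫ x, _ ∂ν
    rw [← integral_add (hi U hU) (hi V hV)]
    refine integral_congr_ae (Eventually.of_forall fun x => ?_)
    induction x using QuotientGroup.induction_on with
    | H g =>
      simp only [FU_mk]
      rw [smul_set_union]
      exact hφ.add _ _ (clopen_smul hU _) (clopen_smul hV _) (disjoint_smul_set.2 hUV)
  have hsub : ∀ U V (hU : IsClopen U) (hV : IsClopen V),
      m (U ∪ V) (hU.union hV) ≤ m U hU + m V hV := by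
    intro U V hU hV
    change ∫ x, _ ∂ν ≤ ∫ x, _ ∂ν + ∫ x, _ ∂ν
    rw [← integral_add (hi U hU) (hi V hV)]
    refine integral_mono (hi _ _) ((hi U hU).add (hi V hV)) fun x => ?_
    induction x using QuotientGroup.induction_on with
    | H g =>
      simp only [FU_mk, Pi.add_apply]
      rw [smul_set_union]
      exact hφ.union_le (clopen_smul hU _) (clopen_smul hV _)
  have hm0 : ∀ U (hU : IsClopen U), 0 ≤ m U hU := fun U hU =>
    integral_nonneg fun x => (hb U hU x).1
  have hg : ∀ (g : E) U (hU : IsClopen U), m (g • U) (clopen_smul hU g) = m U hU := by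
    intro g U hU
    have hmp : MeasurePreserving (fun x : E ⧸ Γ => g⁻¹ • x) ν ν := by
      refine ⟨(continuous_const_smul g⁻¹).measurable, ?_⟩
      ext s hs
      rw [Measure.map_apply (continuous_const_smul g⁻¹).measurable hs]
      exact hν _ _ hs
    have e1 := hmp.integral_comp' (f := (Homeomorph.smul g⁻¹ : E ⧸ Γ ≃ₜ E ⧸ Γ).toMeasurableEquiv)
      (FU Γ φ hinv U hU)
    change ∫ x, _ ∂ν = ∫ x, _ ∂ν
    rw [← e1]
    refine integral_congr_ae (Eventually.of_forall fun x => ?_)
    induction x using QuotientGroup.induction_on with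
    | H h =>
      change φ (h⁻¹ • (g • U)) = φ ((g⁻¹ * h)⁻¹ • U)
      rw [smul_smul, mul_inv_rev, inv_inv]
  -- the contraction
  have haC : IsClopen (a • C) := clopen_smul hC a
  have e1 : m C hC = m (a • C) haC + m (C \ a • C) (hC.diff haC) := by
    rw [← hadd _ _ haC (hC.diff haC) disjoint_sdiff_right]
    congr 1
    exact (union_diff_cancel ha).symm
  have e2 : m (C \ a • C) (hC.diff haC) = 0 := by
    have := hg a C hC
    linarith
  have e3 : m (a • C) haC ≤ 0 := by
    rw [← hg u _ haC, ← e2]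
    exact hmono _ _ _ _ hu
  have e4 : m C hC = 0 := by
    rw [hg a C hC] at e3
    exact le_antisymm e3 (hm0 _ _)
  -- the cover
  have e5 : ∀ S : Finset E, ∃ hcl : IsClopen (⋃ g ∈ S, g • C), m (⋃ g ∈ S, g • C) hcl = 0 := by
    intro S
    induction S using Finset.induction_on with
    | empty =>
      refine ⟨by simpa using isClopen_empty, ?_⟩
      have h2 := hadd ∅ ∅ isClopen_empty isClopen_empty (disjoint_empty _)
      simp only [union_empty] at h2
      have h3 : m ∅ isClopen_empty = 0 := by linarith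
      have h4 : (⋃ g ∈ (∅ : Finset E), g • C) = ∅ := by simp
      simp only [h4]
      exact h3
    | insert g S hgS ih =>
      obtain ⟨hcl, h0⟩ := ih
      have h4 : (⋃ h ∈ insert g S, h • C) = g • C ∪ ⋃ h ∈ S, h • C := by
        simp [Set.iUnion_or, Set.iUnion_union_distrib]
      have h5 : IsClopen (g • C ∪ ⋃ h ∈ S, h • C) := (clopen_smul hC g).union hcl
      refine ⟨by rw [h4]; exact h5, ?_⟩
      simp only [h4]
      refine le_antisymm ?_ (hm0 _ _)
      refine (hsub _ _ (clopen_smul hC g) hcl).trans ?_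
      rw [hg g C hC, e4, h0, add_zero]
  obtain ⟨hcl, h0⟩ := e5 F
  have h6 : (⋃ g ∈ F, g • C) = univ := by
    refine eq_univ_of_forall fun x => ?_
    obtain ⟨g, hg1, hg2⟩ := hF x
    exact mem_iUnion₂.2 ⟨g, hg1, hg2⟩
  simp only [h6] at h0
  have h7 : m univ isClopen_univ = ν.real univ := by
    have : ∀ x, FU Γ φ hinv univ isClopen_univ x = 1 := by
      intro x
      induction x using QuotientGroup.induction_on with
      | H g => rw [FU_mk, smul_set_univ, h1]
    change ∫ x, _ ∂ν = _
    simp only [this]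
    simp
  rw [h7] at h0
  have h8 : ν univ = 0 := by
    rwa [measureReal_def, ENNReal.toReal_eq_zero_iff, or_iff_left hνf.ne] at h0
  exact hν0 (Measure.measure_univ_eq_zero.1 h8)

end abs

end Vale.Agent.P092.H76.NI
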