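import Mathlib

/-!
P092 (helper76), Team D, block [D-PUR]: completely positive maps on `C(X)` with
`P f * T * Q g = 0` for disjoint supports satisfy `P f * T * Q 1 = P 1 * T * Q f`.
-/

set_option linter.all false

open scoped InnerProductSpace
open Filter Topology Finset

namespace Vale.Agent.P092.H76.Pur

section lad

/-- the ladder `c i t` = the part of `[i, i+1]` below `t` -/
noncomputable def lad (i : ℕ) (t : ℝ) : ℝ := min t (i + 1) - min t i

theorem lad_nonneg (i : ℕ) (t : ℝ) : 0 ≤ lad i t := by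
  unfold lad
  rcases le_total t i with h | h
  · rw [min_eq_left h, min_eq_left (h.trans (by linarith))]
    linarith
  · rw [min_eq_right h]
    have : (i : ℝ) ≤ min t (i + 1) := le_min h (by linarith)
    linarith

theorem lad_le_one (i : ℕ) (t : ℝ) : lad i t ≤ 1 := by
  unfold lad
  rcases le_total t i with h | h
  · rw [min_eq_left h, min_eq_left (h.trans (by linarith))]
    linarith
  · rw [min_eq_right h]
    have : min t ((i : ℝ) + 1) ≤ i + 1 := min_le_right _ _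
    linarith

theorem lad_eq_zero {i : ℕ} {t : ℝ} (h : t ≤ i) : lad i t = 0 := by
  unfold lad
  rw [min_eq_left h, min_eq_left (h.trans (by linarith)), sub_self]

theorem lad_eq_one {i : ℕ} {t : ℝ} (h : (i : ℝ) + 1 ≤ t) : lad i t = 1 := by
  unfold lad
  rw [min_eq_right h, min_eq_right (by linarith)]
  ring

theorem sum_lad (n : ℕ) {t : ℝ} (h0 : 0 ≤ t) (hn : t ≤ n) : ∑ i ∈ range n, lad i t = t := by
  have h1 := Finset.sum_range_sub (fun i : ℕ => min t (i : ℝ)) n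
  have h2 : ∑ i ∈ range n, lad i t = ∑ i ∈ range n, (min t ((i + 1 : ℕ) : ℝ) - min t (i : ℝ)) :=
    Finset.sum_congr rfl fun i _ => by
      unfold lad
      push_cast
      rfl
  rw [h2, h1, min_eq_left hn, Nat.cast_zero, min_eq_right h0, sub_zero]

theorem lad_anti (i : ℕ) (t : ℝ) : lad (i + 1) t ≤ lad i t := by
  rcases le_total t ((i : ℝ) + 1) with h | h
  · rw [lad_eq_zero (by push_cast; exact h)]
    exact lad_nonneg _ _
  · rw [lad_eq_one h]
    exact lad_le_one _ _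

/-- the partition of unity: `ptn 0 = 1 - lad 0`, `ptn (i+1) = lad i - lad (i+1)` -/
noncomputable def ptn : ℕ → ℝ → ℝ
  | 0, t => 1 - lad 0 t
  | i + 1, t => lad i t - lad (i + 1) t

theorem ptn_nonneg (i : ℕ) (t : ℝ) : 0 ≤ ptn i t := by
  cases i with
  | zero => exact sub_nonneg.2 (lad_le_one _ _)
  | succ i => exact sub_nonneg.2 (lad_anti _ _)

theorem ptn_le_one (i : ℕ) (t : ℝ) : ptn i t ≤ 1 := by
  cases i with
  | zero => exact sub_le_self _ (lad_nonneg _ _)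
  | succ i => exact (sub_le_self _ (lad_nonneg _ _)).trans (lad_le_one _ _)

theorem sum_ptn (n : ℕ) (t : ℝ) : ∑ i ∈ range (n + 1), ptn i t = 1 - lad n t := by
  induction n with
  | zero => simp [ptn]
  | succ n ih =>
    rw [Finset.sum_range_succ, ih]
    simp only [ptn]
    ring

theorem sum_mul_ptn (n : ℕ) (t : ℝ) :
    ∑ i ∈ range (n + 1), (i : ℝ) * ptn i t = ∑ i ∈ range n, lad i t - n * lad n t := by
  induction n with
  | zero => simp
  | succ n ih =>
    rw [Finset.sum_range_succ, ih, Finset.sum_range_succ (fun i => lad i t)]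
    simp only [ptn]
    push_cast
    ring

theorem ptn_ne_zero {i : ℕ} {t : ℝ} (h0 : 0 ≤ t) (h : ptn i t ≠ 0) :
    (i : ℝ) - 1 < t ∧ t < i + 1 := by
  constructor
  · by_contra hn
    push Not at hn
    cases i with
    | zero =>
      push_cast at hn
      linarith
    | succ i =>
      refine h ?_
      push_cast at hn
      simp only [ptn]
      rw [lad_eq_zero (i := i) (by linarith), lad_eq_zero (i := i + 1) (by push_cast; linarith),
        sub_zero]
  · by_contra hn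
    push Not at hn
    refine h ?_
    cases i with
    | zero =>
      simp only [ptn]
      rw [lad_eq_one (i := 0) (by push_cast at hn ⊢; linarith), sub_self]
    | succ i =>
      simp only [ptn]
      rw [lad_eq_one (i := i) (by push_cast at hn ⊢; linarith),
        lad_eq_one (i := i + 1) (by push_cast at hn ⊢; linarith), sub_self]

theorem continuous_ptn (i : ℕ) : Continuous (ptn i) := by
  cases i with
  | zero =>
    unfold ptn lad
    fun_prop
  | succ i =>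
    unfold ptn lad
    fun_prop

end lad

section syn

variable {X : Type*} [TopologicalSpace X] [CompactSpace X]
  {K : Type*} [NormedAddCommGroup K] [InnerProductSpace ℂ K] [CompleteSpace K]

/-- A positive contraction `C(X) → B(K)` with the Schwarz inequality. -/
structure UCP (P : C(X, ℂ) →ₗ[ℂ] (K →L[ℂ] K)) : Prop where
  adj : ∀ f, ContinuousLinearMap.adjoint (P f) = P (star f)
  sch : ∀ f ξ, ‖P f ξ‖ ^ 2 ≤ (⟪ξ, P (star f * f) ξ⟫_ℂ).re
  one_le : ∀ ξ, (⟪ξ, P 1 ξ⟫_ℂ).re ≤ ‖ξ‖ ^ 2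

/-- a real function as a complex one -/
def cc (f : C(X, ℝ)) : C(X, ℂ) := ⟨fun x => (f x : ℂ), Complex.continuous_ofReal.comp f.continuous⟩

theorem cc_apply (f : C(X, ℝ)) (x : X) : cc f x = (f x : ℂ) := rfl

theorem star_cc (f : C(X, ℝ)) : star (cc f) = cc f := by
  ext x
  rw [ContinuousMap.star_apply, cc_apply, Complex.star_def, Complex.conj_ofReal]

theorem cc_mul (f g : C(X, ℝ)) : cc (f * g) = cc f * cc g := by
  ext x; simp [cc_apply]

theorem cc_add (f g : C(X, ℝ)) : cc (f + g) = cc f + cc g := by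
  ext x; simp [cc_apply]

theorem cc_sum {ι : Type*} (s : Finset ι) (f : ι → C(X, ℝ)) :
    cc (∑ i ∈ s, f i) = ∑ i ∈ s, cc (f i) := by
  ext x; simp [cc_apply]

theorem cc_one : cc (1 : C(X, ℝ)) = 1 := by
  ext x; simp [cc_apply]

theorem UCP.nonneg {P : C(X, ℂ) →ₗ[ℂ] (K →L[ℂ] K)} (hP : UCP P) {f : C(X, ℝ)} (hf : 0 ≤ f)
    (ξ : K) : 0 ≤ (⟪ξ, P (cc f) ξ⟫_ℂ).re := by
  obtain ⟨g, hg⟩ : ∃ g : C(X, ℝ), g = ⟨fun x => Real.sqrt (f x), f.continuous.sqrt⟩ := ⟨_, rfl⟩
  have e : cc f = star (cc g) * cc g := by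
    rw [star_cc, ← cc_mul]
    congr 1
    ext x
    rw [ContinuousMap.mul_apply, hg]
    exact (Real.mul_self_sqrt (hf x)).symm
  rw [e]
  exact (sq_nonneg _).trans (hP.sch _ ξ)

theorem UCP.mono {P : C(X, ℂ) →ₗ[ℂ] (K →L[ℂ] K)} (hP : UCP P) {f g : C(X, ℝ)} (hfg : f ≤ g)
    (ξ : K) : (⟪ξ, P (cc f) ξ⟫_ℂ).re ≤ (⟪ξ, P (cc g) ξ⟫_ℂ).re := by
  have h1 := hP.nonneg (f := g - f) (sub_nonneg.2 hfg) ξ
  have e : cc g = cc f + cc (g - f) := by
    rw [← cc_add, add_sub_cancel]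
  rw [e, map_add]
  change _ ≤ (⟪ξ, P (cc f) ξ + P (cc (g - f)) ξ⟫_ℂ).re
  rw [inner_add_right, Complex.add_re]
  linarith

theorem UCP.sum_sq {P : C(X, ℂ) →ₗ[ℂ] (K →L[ℂ] K)} (hP : UCP P) (s : Finset ℕ)
    (χ : ℕ → C(X, ℝ)) (h0 : ∀ i, 0 ≤ χ i) (h1 : ∀ i, χ i ≤ 1) (hs : ∑ i ∈ s, χ i ≤ 1) (ξ : K) :
    ∑ i ∈ s, ‖P (cc (χ i)) ξ‖ ^ 2 ≤ ‖ξ‖ ^ 2 := by
  have h2 : ∀ i, ‖P (cc (χ i)) ξ‖ ^ 2 ≤ (⟪ξ, P (cc (χ i)) ξ⟫_ℂ).re := by
    intro i
    refine (hP.sch _ ξ).trans ?_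
    rw [star_cc, ← cc_mul]
    refine hP.mono (ContinuousMap.le_def.2 fun x => ?_) ξ
    rw [ContinuousMap.mul_apply]
    have := h0 i x
    have := h1 i x
    exact mul_le_of_le_one_left (h0 i x) (h1 i x)
  refine (Finset.sum_le_sum fun i _ => h2 i).trans ?_
  have h3 : ∑ i ∈ s, (⟪ξ, P (cc (χ i)) ξ⟫_ℂ).re = (⟪ξ, P (cc (∑ i ∈ s, χ i)) ξ⟫_ℂ).re := by
    rw [cc_sum, map_sum, ContinuousLinearMap.sum_apply, inner_sum, Complex.re_sum]
  rw [h3]
  refine (hP.mono hs ξ).trans ?_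
  rw [cc_one]
  exact hP.one_le ξ

/-- the sum over pairs at distance at most `2` -/
theorem near_sum (n : ℕ) (a b : ℕ → ℝ) (ha : ∀ i, 0 ≤ a i) (hb : ∀ i, 0 ≤ b i) {A B : ℝ}
    (hA : ∑ i ∈ range n, a i ^ 2 ≤ A) (hB : ∑ i ∈ range n, b i ^ 2 ≤ B) :
    ∑ i ∈ range n, ∑ j ∈ (range n).filter (fun j => i ≤ j + 2 ∧ j ≤ i + 2), a i * b j ≤
      5 * (A + B) := by
  have hcard : ∀ i, (((range n).filter (fun j => i ≤ j + 2 ∧ j ≤ i + 2)).card : ℝ) ≤ 5 := by
    intro i
    have h1 : (range n).filter (fun j => i ≤ j + 2 ∧ j ≤ i + 2) ⊆ Finset.Icc (i - 2) (i + 2) := by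
      intro j hj
      rw [Finset.mem_filter] at hj
      rw [Finset.mem_Icc]
      omega
    have h2 := Finset.card_le_card h1
    rw [Nat.card_Icc] at h2
    have h3 : ((range n).filter (fun j => i ≤ j + 2 ∧ j ≤ i + 2)).card ≤ 5 := by omega
    exact_mod_cast h3
  have h1 : ∀ i j, a i * b j ≤ a i ^ 2 + b j ^ 2 := fun i j => by
    nlinarith [sq_nonneg (a i - b j), sq_nonneg (a i), sq_nonneg (b j)]
  have h2 : ∑ i ∈ range n, ∑ j ∈ (range n).filter (fun j => i ≤ j + 2 ∧ j ≤ i + 2), a i * b j ≤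
      ∑ i ∈ range n, ∑ j ∈ (range n).filter (fun j => i ≤ j + 2 ∧ j ≤ i + 2), a i ^ 2 +
      ∑ i ∈ range n, ∑ j ∈ (range n).filter (fun j => i ≤ j + 2 ∧ j ≤ i + 2), b j ^ 2 := by
    rw [← Finset.sum_add_distrib]
    refine Finset.sum_le_sum fun i _ => ?_
    rw [← Finset.sum_add_distrib]
    exact Finset.sum_le_sum fun j _ => h1 i j
  have h3 : ∑ i ∈ range n, ∑ j ∈ (range n).filter (fun j => i ≤ j + 2 ∧ j ≤ i + 2), a i ^ 2 ≤
      5 * A := by
    calc _ ≤ ∑ i ∈ range n, 5 * a i ^ 2 := by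
          refine Finset.sum_le_sum fun i _ => ?_
          rw [Finset.sum_const, nsmul_eq_mul]
          exact mul_le_mul_of_nonneg_right (hcard i) (sq_nonneg _)
      _ = 5 * ∑ i ∈ range n, a i ^ 2 := by rw [Finset.mul_sum]
      _ ≤ _ := by linarith
  have h4 : ∑ i ∈ range n, ∑ j ∈ (range n).filter (fun j => i ≤ j + 2 ∧ j ≤ i + 2), b j ^ 2 ≤
      5 * B := by
    have e : ∑ i ∈ range n, ∑ j ∈ (range n).filter (fun j => i ≤ j + 2 ∧ j ≤ i + 2), b j ^ 2 =
        ∑ j ∈ range n, ∑ i ∈ (range n).filter (fun i => j ≤ i + 2 ∧ i ≤ j + 2), b j ^ 2 := by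
      simp only [Finset.sum_filter]
      rw [Finset.sum_comm]
      refine Finset.sum_congr rfl fun j _ => Finset.sum_congr rfl fun i _ => ?_
      congr 1
      exact propext And.comm
    rw [e]
    calc _ ≤ ∑ j ∈ range n, 5 * b j ^ 2 := by
          refine Finset.sum_le_sum fun i _ => ?_
          rw [Finset.sum_const, nsmul_eq_mul]
          exact mul_le_mul_of_nonneg_right (hcard i) (sq_nonneg _)
      _ = 5 * ∑ i ∈ range n, b i ^ 2 := by rw [Finset.mul_sum]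
      _ ≤ _ := by linarith
  linarith

/-- the bound for a function with values in `[0, n]` -/
theorem syn_bound {P Q : C(X, ℂ) →ₗ[ℂ] (K →L[ℂ] K)} (hP : UCP P) (hQ : UCP Q) (T : K →L[ℂ] K)
    (hd : ∀ f g : C(X, ℂ), Disjoint (tsupport f) (tsupport g) → P f * T * Q g = 0)
    (n : ℕ) (g : C(X, ℝ)) (h0 : ∀ x, 0 ≤ g x) (hn : ∀ x, g x ≤ n) (ξ η : K) :
    ‖⟪η, (P (cc g) * T * Q 1 - P 1 * T * Q (cc g)) ξ⟫_ℂ‖ ≤ 10 * ‖T‖ * (‖η‖ ^ 2 + ‖ξ‖ ^ 2) := by
  obtain ⟨χ, hχ⟩ : ∃ χ : ℕ → C(X, ℝ), χ = fun i => ⟨fun x => ptn i (g x),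
    (continuous_ptn i).comp g.continuous⟩ := ⟨_, rfl⟩
  have hχa : ∀ i x, χ i x = ptn i (g x) := fun i x => by rw [hχ]; rfl
  have hχ0 : ∀ i, 0 ≤ χ i := fun i => ContinuousMap.le_def.2 fun x => by
    rw [hχa]; exact ptn_nonneg _ _
  have hχ1 : ∀ i, χ i ≤ 1 := fun i => ContinuousMap.le_def.2 fun x => by
    rw [hχa]; exact ptn_le_one _ _
  have hsum : ∑ i ∈ range (n + 1), χ i = 1 := by
    ext x
    rw [ContinuousMap.coe_sum, Finset.sum_apply]
    simp only [hχa]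
    rw [sum_ptn, lad_eq_zero (hn x), sub_zero]
    rfl
  have hsum2 : ∑ i ∈ range (n + 1), (i : ℝ) • χ i = g := by
    ext x
    rw [ContinuousMap.coe_sum, Finset.sum_apply]
    simp only [ContinuousMap.smul_apply, hχa, smul_eq_mul]
    rw [sum_mul_ptn, sum_lad n (h0 x) (hn x), lad_eq_zero (hn x), mul_zero, sub_zero]
  have hc1 : (1 : C(X, ℂ)) = ∑ i ∈ range (n + 1), cc (χ i) := by
    rw [← cc_sum, hsum, cc_one]
  have hcg : cc g = ∑ i ∈ range (n + 1), (i : ℂ) • cc (χ i) := by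
    rw [← hsum2, cc_sum]
    refine Finset.sum_congr rfl fun i _ => ?_
    ext x
    simp [cc_apply]
  have hts : ∀ i, tsupport (cc (χ i)) ⊆ {x | (i : ℝ) - 1 ≤ g x ∧ g x ≤ i + 1} := by
    intro i
    refine closure_minimal (fun x hx => ?_) ?_
    · have h1 : cc (χ i) x ≠ 0 := hx
      rw [cc_apply, hχa] at h1
      have h2 := ptn_ne_zero (h0 x) (fun h => h1 (by rw [h, Complex.ofReal_zero]))
      exact ⟨h2.1.le, h2.2.le⟩
    · exact (isClosed_le continuous_const g.continuous).inter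
        (isClosed_le g.continuous continuous_const)
  have hfar : ∀ i j : ℕ, ¬ (i ≤ j + 2 ∧ j ≤ i + 2) → P (cc (χ i)) * T * Q (cc (χ j)) = 0 := by
    intro i j hij
    refine hd _ _ (Set.disjoint_left.2 fun x hx hx' => hij ?_)
    have h1 := hts i hx
    have h2 := hts j hx'
    simp only [Set.mem_setOf_eq] at h1 h2
    constructor
    · by_contra hc
      push Not at hc
      have : ((j + 3 : ℕ) : ℝ) ≤ i := by exact_mod_cast hc
      push_cast at this
      linarith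
    · by_contra hc
      push Not at hc
      have : ((i + 3 : ℕ) : ℝ) ≤ j := by exact_mod_cast hc
      push_cast at this
      linarith
  have hexp : ⟪η, (P (cc g) * T * Q 1 - P 1 * T * Q (cc g)) ξ⟫_ℂ =
      ∑ i ∈ range (n + 1), ∑ j ∈ range (n + 1),
        ((i : ℂ) - j) * ⟪η, (P (cc (χ i)) * T * Q (cc (χ j))) ξ⟫_ℂ := by
    have e1 : P (cc g) * T * Q 1 = ∑ i ∈ range (n + 1), ∑ j ∈ range (n + 1),
        (i : ℂ) • (P (cc (χ i)) * T * Q (cc (χ j))) := by
      nth_rewrite 1 [hc1]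
      rw [hcg, map_sum, map_sum, Finset.sum_mul, Finset.sum_mul]
      refine Finset.sum_congr rfl fun i _ => ?_
      rw [Finset.mul_sum]
      refine Finset.sum_congr rfl fun j _ => ?_
      rw [map_smul, smul_mul_assoc, smul_mul_assoc]
    have e2 : P 1 * T * Q (cc g) = ∑ i ∈ range (n + 1), ∑ j ∈ range (n + 1),
        (j : ℂ) • (P (cc (χ i)) * T * Q (cc (χ j))) := by
      nth_rewrite 1 [hc1]
      rw [hcg, map_sum, map_sum, Finset.sum_mul, Finset.sum_mul]
      refine Finset.sum_congr rfl fun i _ => ?_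
      rw [Finset.mul_sum]
      refine Finset.sum_congr rfl fun j _ => ?_
      rw [map_smul, mul_smul_comm]
    rw [e1, e2, ← Finset.sum_sub_distrib]
    rw [ContinuousLinearMap.sum_apply, inner_sum]
    refine Finset.sum_congr rfl fun i _ => ?_
    rw [← Finset.sum_sub_distrib, ContinuousLinearMap.sum_apply, inner_sum]
    refine Finset.sum_congr rfl fun j _ => ?_
    rw [← sub_smul, ContinuousLinearMap.smul_apply, inner_smul_right]
  rw [hexp]
  have hb : ∀ i j : ℕ, ‖⟪η, (P (cc (χ i)) * T * Q (cc (χ j))) ξ⟫_ℂ‖ ≤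
      ‖T‖ * (‖P (cc (χ i)) η‖ * ‖Q (cc (χ j)) ξ‖) := by
    intro i j
    have e : ⟪η, (P (cc (χ i)) * T * Q (cc (χ j))) ξ⟫_ℂ =
        ⟪P (cc (χ i)) η, T (Q (cc (χ j)) ξ)⟫_ℂ := by
      change ⟪η, P (cc (χ i)) (T (Q (cc (χ j)) ξ))⟫_ℂ = _
      rw [← ContinuousLinearMap.adjoint_inner_left, hP.adj, star_cc]
    rw [e]
    calc _ ≤ ‖P (cc (χ i)) η‖ * ‖T (Q (cc (χ j)) ξ)‖ := norm_inner_le_norm _ _
      _ ≤ ‖P (cc (χ i)) η‖ * (‖T‖ * ‖Q (cc (χ j)) ξ‖) := by
          gcongr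
          exact T.le_opNorm _
      _ = _ := by ring
  calc _ ≤ ∑ i ∈ range (n + 1), ∑ j ∈ (range (n + 1)).filter (fun j => i ≤ j + 2 ∧ j ≤ i + 2),
        2 * ‖T‖ * (‖P (cc (χ i)) η‖ * ‖Q (cc (χ j)) ξ‖) := by
        refine (norm_sum_le _ _).trans (Finset.sum_le_sum fun i _ => ?_)
        rw [Finset.sum_filter]
        refine (norm_sum_le _ _).trans (Finset.sum_le_sum fun j _ => ?_)
        by_cases hij : i ≤ j + 2 ∧ j ≤ i + 2
        · rw [if_pos hij, norm_mul]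
          have h2 : ‖(i : ℂ) - j‖ ≤ 2 := by
            have e : (i : ℂ) - j = (((i : ℝ) - j : ℝ) : ℂ) := by push_cast; rfl
            rw [e, Complex.norm_real, Real.norm_eq_abs, abs_le]
            have h3 : (i : ℝ) ≤ j + 2 := by exact_mod_cast hij.1
            have h4 : (j : ℝ) ≤ i + 2 := by exact_mod_cast hij.2
            constructor <;> linarith
          calc _ ≤ 2 * (‖T‖ * (‖P (cc (χ i)) η‖ * ‖Q (cc (χ j)) ξ‖)) := by
                gcongr
                exact hb i j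
            _ = _ := by ring
        · rw [if_neg hij, hfar i j hij]
          simp
    _ = 2 * ‖T‖ * ∑ i ∈ range (n + 1), ∑ j ∈ (range (n + 1)).filter
        (fun j => i ≤ j + 2 ∧ j ≤ i + 2), ‖P (cc (χ i)) η‖ * ‖Q (cc (χ j)) ξ‖ := by
        rw [Finset.mul_sum]
        refine Finset.sum_congr rfl fun i _ => ?_
        rw [Finset.mul_sum]
    _ ≤ 2 * ‖T‖ * (5 * (‖η‖ ^ 2 + ‖ξ‖ ^ 2)) := by
        gcongr
        exact near_sum (n + 1) (fun i => ‖P (cc (χ i)) η‖) (fun j => ‖Q (cc (χ j)) ξ‖)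
          (fun i => norm_nonneg _) (fun j => norm_nonneg _)
          (hP.sum_sq _ χ hχ0 hχ1 hsum.le η) (hQ.sum_sq _ χ hχ0 hχ1 hsum.le ξ)
    _ = _ := by ring

/-- **Synthesis of the diagonal.** -/
theorem syn {P Q : C(X, ℂ) →ₗ[ℂ] (K →L[ℂ] K)} (hP : UCP P) (hQ : UCP Q) (T : K →L[ℂ] K)
    (hd : ∀ f g : C(X, ℂ), Disjoint (tsupport f) (tsupport g) → P f * T * Q g = 0)
    (f : C(X, ℂ)) : P f * T * Q 1 = P 1 * T * Q f := by
  -- real functions with values in `[0, 1]`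
  have h1 : ∀ g : C(X, ℝ), (∀ x, 0 ≤ g x) → (∀ x, g x ≤ 1) →
      P (cc g) * T * Q 1 = P 1 * T * Q (cc g) := by
    intro g h0 h1
    rw [← sub_eq_zero]
    refine ContinuousLinearMap.ext fun ξ => ext_inner_left ℂ fun η => ?_
    rw [ContinuousLinearMap.zero_apply, inner_zero_right]
    have h2 : ∀ n : ℕ, (n : ℝ) * ‖⟪η, (P (cc g) * T * Q 1 - P 1 * T * Q (cc g)) ξ⟫_ℂ‖ ≤
        10 * ‖T‖ * (‖η‖ ^ 2 + ‖ξ‖ ^ 2) := by
      intro n
      have h3 := syn_bound hP hQ T hd n ((n : ℝ) • g) (fun x => ?_) (fun x => ?_) ξ η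
      · have e : cc ((n : ℝ) • g) = (n : ℂ) • cc g := by
          ext x; simp [cc_apply]
        rw [e, map_smul, map_smul, smul_mul_assoc, smul_mul_assoc, mul_smul_comm, ← smul_sub,
          ContinuousLinearMap.smul_apply, inner_smul_right, norm_mul, Complex.norm_natCast] at h3
        exact h3
      · rw [ContinuousMap.smul_apply, smul_eq_mul]
        exact mul_nonneg (Nat.cast_nonneg _) (h0 x)
      · rw [ContinuousMap.smul_apply, smul_eq_mul]
        exact mul_le_of_le_one_right (Nat.cast_nonneg _) (h1 x)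
    by_contra hne
    have hpos : 0 < ‖⟪η, (P (cc g) * T * Q 1 - P 1 * T * Q (cc g)) ξ⟫_ℂ‖ := norm_pos_iff.2 hne
    obtain ⟨n, hn⟩ := exists_nat_gt (10 * ‖T‖ * (‖η‖ ^ 2 + ‖ξ‖ ^ 2) /
      ‖⟪η, (P (cc g) * T * Q 1 - P 1 * T * Q (cc g)) ξ⟫_ℂ‖)
    rw [div_lt_iff₀ hpos] at hn
    exact absurd (h2 n) (not_le.2 hn)
  -- real functions
  have h2 : ∀ g : C(X, ℝ), P (cc g) * T * Q 1 = P 1 * T * Q (cc g) := by
    intro g
    obtain ⟨c, hc⟩ : ∃ c : ℝ, c = ‖g‖ + 1 := ⟨_, rfl⟩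
    have hc0 : 0 < c := by rw [hc]; positivity
    obtain ⟨u, hu⟩ : ∃ u : C(X, ℝ), u = (1 / (2 * c)) • (g + c • 1) := ⟨_, rfl⟩
    have hgx : ∀ x, -c ≤ g x ∧ g x ≤ c := by
      intro x
      have h3 := g.norm_coe_le_norm x
      rw [Real.norm_eq_abs, abs_le] at h3
      constructor <;> linarith [h3.1, h3.2]
    have h3 := h1 u (fun x => ?_) (fun x => ?_)
    · have e : cc g = (2 * c : ℂ) • cc u - (c : ℂ) • (1 : C(X, ℂ)) := by
        ext x
        rw [hu]
        simp only [cc_apply, ContinuousMap.sub_apply, ContinuousMap.smul_apply,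
          ContinuousMap.add_apply, ContinuousMap.one_apply, smul_eq_mul]
        have hc1 : (c : ℂ) ≠ 0 := by exact_mod_cast hc0.ne'
        push_cast
        field_simp
        ring
      rw [e, map_sub, map_sub, map_smul, map_smul, map_smul, map_smul, sub_mul, sub_mul, mul_sub,
        smul_mul_assoc, smul_mul_assoc, smul_mul_assoc, smul_mul_assoc, mul_smul_comm,
        mul_smul_comm, h3]
    · rw [hu, ContinuousMap.smul_apply, ContinuousMap.add_apply, ContinuousMap.smul_apply,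
        ContinuousMap.one_apply, smul_eq_mul, smul_eq_mul, mul_one]
      have := (hgx x).1
      exact mul_nonneg (by positivity) (by linarith)
    · rw [hu, ContinuousMap.smul_apply, ContinuousMap.add_apply, ContinuousMap.smul_apply,
        ContinuousMap.one_apply, smul_eq_mul, smul_eq_mul, mul_one, one_div,
        inv_mul_le_iff₀ (by positivity)]
      have := (hgx x).2
      linarith
  -- complex functions
  obtain ⟨a, ha⟩ : ∃ a : C(X, ℝ), a = ⟨fun x => (f x).re, Complex.continuous_re.comp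
    f.continuous⟩ := ⟨_, rfl⟩
  obtain ⟨b, hb⟩ : ∃ b : C(X, ℝ), b = ⟨fun x => (f x).im, Complex.continuous_im.comp
    f.continuous⟩ := ⟨_, rfl⟩
  have e : f = cc a + Complex.I • cc b := by
    ext x
    rw [ha, hb]
    simp only [cc_apply, ContinuousMap.add_apply, ContinuousMap.smul_apply, smul_eq_mul,
      ContinuousMap.coe_mk]
    rw [mul_comm Complex.I]
    exact (Complex.re_add_im (f x)).symm
  rw [e, map_add, map_add, map_smul, map_smul, add_mul, add_mul, mul_add, smul_mul_assoc,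
    smul_mul_assoc, mul_smul_comm, h2, h2]

end syn

end Vale.Agent.P092.H76.Pur
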