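import Vale.Agent.P092.H76.Form
import Vale.Agent.P092.H132.Cj
import Vale.Agent.P092.H650.Alg2S
import Vale.Agent.P092.H156.Int
import Vale.Agent.P092.PA.Defs

/-!
P092 (helper76), team A, block A-TH part 2: the averaged form
`q(a', a) = ∫ Θ(α_{h₁} a, α_{h₂} b; α_{h₁} a', α_{h₂} b) dm(h)` and its bounded operator `S̃` on
`L²(G₁; K)`, `⟪a' ζ', S̃ (a ζ)⟫ = q(a', a) ⟪ζ', ζ⟫`; `S̃` commutes with left multiplications `V_v`,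
right multiplications `rl γ` and right translations.
-/

set_option linter.all false

open MeasureTheory Filter Topology ContinuousLinearMap
open scoped InnerProductSpace ComplexConjugate ENNReal
open Vale.Agent.P092.H160 Vale.Agent.P092.H156.Sm Vale.Agent.P092.H650
open Vale.Agent.P092.H325 (tl tr tl_ae tr_ae norm_tl norm_tr)
open Vale.Agent.P092.H132 (rl rl_ae)

namespace Vale.Agent.P092.H76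

section Equi

variable {A H K : Type*} [NormedAddCommGroup H] [InnerProductSpace ℂ H] [CompleteSpace H]
  [NormedAddCommGroup K] [InnerProductSpace ℂ K]

/-- An operator given by an invariant form commutes with the symmetries of the form. -/
theorem comm_of_equiv (E : A → K → H) (q : A → A → ℂ) (S : H →L[ℂ] H)
    (hS : ∀ a' a ζ' ζ, ⟪E a' ζ', S (E a ζ)⟫_ℂ = q a' a * ⟪ζ', ζ⟫_ℂ)
    (htot : ∀ ξ : H, (∀ a ζ, ⟪E a ζ, ξ⟫_ℂ = 0) → ξ = 0)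
    (T : H →L[ℂ] H) (hT : ∀ ξ, ‖T ξ‖ = ‖ξ‖) (τ : A → A) (u : K → K)
    (hτ : Function.Surjective τ) (hu : Function.Surjective u)
    (hE : ∀ a ζ, T (E a ζ) = E (τ a) (u ζ))
    (huu : ∀ ζ' ζ, ⟪u ζ', u ζ⟫_ℂ = ⟪ζ', ζ⟫_ℂ) (hq : ∀ a' a, q (τ a') (τ a) = q a' a) (ξ : H) :
    S (T ξ) = T (S ξ) := by
  have hin : ∀ x y, ⟪T x, T y⟫_ℂ = ⟪x, y⟫_ℂ := fun x y =>
    (⟨(T : H →ₗ[ℂ] H), hT⟩ : H →ₗᵢ[ℂ] H).inner_map_map x y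
  have h1 : ∀ a ζ, S (T (E a ζ)) = T (S (E a ζ)) := by
    intro a ζ
    rw [← sub_eq_zero]
    refine htot _ fun a' ζ' => ?_
    obtain ⟨a'', rfl⟩ := hτ a'
    obtain ⟨ζ'', rfl⟩ := hu ζ'
    have e1 : ⟪E (τ a'') (u ζ''), S (T (E a ζ))⟫_ℂ = q a'' a * ⟪ζ'', ζ⟫_ℂ := by
      rw [hE, hS, hq, huu]
    have e2 : ⟪E (τ a'') (u ζ''), T (S (E a ζ))⟫_ℂ = q a'' a * ⟪ζ'', ζ⟫_ℂ := by
      rw [← hE, hin, hS]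
    rw [inner_sub_right, e1, e2, sub_self]
  have hd : (Submodule.span ℂ (Set.range fun p : A × K => E p.1 p.2)).topologicalClosure = ⊤ := by
    rw [Submodule.topologicalClosure_eq_top_iff, Submodule.eq_bot_iff]
    intro x hx
    refine htot x fun a ζ => ?_
    rw [Submodule.mem_orthogonal] at hx
    exact hx _ (Submodule.subset_span ⟨(a, ζ), rfl⟩)
  have h2 : S.comp T = T.comp S := by
    refine ContinuousLinearMap.ext_on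
      (Submodule.dense_iff_topologicalClosure_eq_top.2 hd) ?_
    rintro _ ⟨⟨a, ζ⟩, rfl⟩
    exact h1 a ζ
  exact congrArg (fun f : H →L[ℂ] H => f ξ) h2

end Equi

section SM

variable {Γ Λ G H K : Type} [Group Γ] [Group Λ] [Group G] [Group H]
  [TopologicalSpace G] [TopologicalSpace H] [IsTopologicalGroup G] [IsTopologicalGroup H]
  [SecondCountableTopology G] [MeasurableSpace G] [BorelSpace G]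
  [NormedAddCommGroup K] [InnerProductSpace ℂ K] [CompleteSpace K]

/-- The smooth fields. -/
def SM (ι : Γ →* G) (κ : Λ →* H) (ρ : Γ →* (K →L[ℂ] K)) (V : Λ →* (K →L[ℂ] K)) (ω : K)
    (μ : Measure G) : Submodule ℂ (G → K →L[ℂ] K) where
  carrier := {b | Smo ι κ ρ V ω μ b}
  add_mem' := fun ha hb => smo_add ha hb
  zero_mem' := smo_zero
  smul_mem' := fun c _ hb => smo_smul c hb

variable {ι : Γ →* G} {κ : Λ →* H} {ρ : Γ →* (K →L[ℂ] K)} {V : Λ →* (K →L[ℂ] K)} {ω : K}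
    {μ : Measure G}

/-- `a ζ` as an element of `L²(G; K)`, bilinear in `a` and `ζ`. -/
noncomputable def EL (hM : ∀ a : SM ι κ ρ V ω μ, ∀ ζ : K, MemLp (fun x => a.1 x ζ) 2 μ) :
    SM ι κ ρ V ω μ →ₗ[ℂ] K →ₗ[ℂ] Lp K 2 μ :=
  LinearMap.mk₂ ℂ (fun a ζ => (hM a ζ).toLp (fun x => a.1 x ζ))
    (fun a b ζ => by
      rw [← MemLp.toLp_add]
      exact MemLp.toLp_congr _ _ (Eventually.of_forall fun x => rfl))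
    (fun c a ζ => by
      rw [← MemLp.toLp_const_smul]
      exact MemLp.toLp_congr _ _ (Eventually.of_forall fun x => rfl))
    (fun a ζ ζ' => by
      rw [← MemLp.toLp_add]
      exact MemLp.toLp_congr _ _ (Eventually.of_forall fun x => map_add _ _ _))
    (fun c a ζ => by
      rw [← MemLp.toLp_const_smul]
      exact MemLp.toLp_congr _ _ (Eventually.of_forall fun x => map_smul _ _ _))

variable {hM : ∀ a : SM ι κ ρ V ω μ, ∀ ζ : K, MemLp (fun x => a.1 x ζ) 2 μ}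

theorem EL_apply (a : SM ι κ ρ V ω μ) (ζ : K) : EL hM a ζ = (hM a ζ).toLp (fun x => a.1 x ζ) := rfl

theorem EL_ae (a : SM ι κ ρ V ω μ) (ζ : K) : EL hM a ζ =ᵐ[μ] fun x => a.1 x ζ :=
  (hM a ζ).coeFn_toLp

theorem inner_EL (a : SM ι κ ρ V ω μ) (ζ : K) (ξ : Lp K 2 μ) :
    ⟪EL hM a ζ, ξ⟫_ℂ = ∫ x, ⟪a.1 x ζ, ξ x⟫_ℂ ∂μ := by
  rw [L2.inner_def]
  refine integral_congr_ae ?_
  filter_upwards [EL_ae (hM := hM) a ζ] with x hx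
  rw [hx]

theorem inner_EL_EL (a b : SM ι κ ρ V ω μ) (ζ η : K) :
    ⟪EL hM a ζ, EL hM b η⟫_ℂ = ∫ x, ⟪a.1 x ζ, b.1 x η⟫_ℂ ∂μ := by
  rw [inner_EL]
  refine integral_congr_ae ?_
  filter_upwards [EL_ae (hM := hM) b η] with x hx
  rw [hx]

/-- right translation of smooth fields -/
noncomputable def rtS [μ.IsMulRightInvariant] (z : G) (a : SM ι κ ρ V ω μ) : SM ι κ ρ V ω μ :=
  ⟨fun x => a.1 (x * z), smo_rt a.2 z⟩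

/-- conjugation of smooth fields -/
noncomputable def cjS [Countable Γ] [μ.IsMulLeftInvariant] (hF : Frm ρ V ω) (v : Λ)
    (a : SM ι κ ρ V ω μ) : SM ι κ ρ V ω μ := ⟨cj V v a.1, smo_cj hF a.2 v⟩

theorem rtS_surj [μ.IsMulRightInvariant] (z : G) :
    Function.Surjective (rtS z : SM ι κ ρ V ω μ → SM ι κ ρ V ω μ) := fun a =>
  ⟨rtS z⁻¹ a, Subtype.ext (funext fun x => by
    change a.1 (x * z * z⁻¹) = a.1 x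
    rw [mul_inv_cancel_right])⟩

theorem cjS_surj [Countable Γ] [μ.IsMulLeftInvariant] (hF : Frm ρ V ω) (v : Λ) :
    Function.Surjective (cjS hF v : SM ι κ ρ V ω μ → SM ι κ ρ V ω μ) := fun a =>
  ⟨cjS hF v⁻¹ a, Subtype.ext (funext fun x => by
    change cj V v (cj V v⁻¹ a.1) x = a.1 x
    rw [← cj_mul_left, mul_inv_cancel, cj_one])⟩

theorem tr_EL [μ.IsMulRightInvariant] (z : G) (a : SM ι κ ρ V ω μ) (ζ : K) :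
    tr μ z (EL hM a ζ) = EL hM (rtS z a) ζ := by
  refine Lp.ext ?_
  filter_upwards [tr_ae μ z (EL hM a ζ), EL_ae (hM := hM) (rtS z a) ζ,
    (measurePreserving_mul_right μ z).quasiMeasurePreserving.ae (EL_ae (hM := hM) a ζ)]
    with x h1 h2 h3
  rw [h1, h2, h3]
  rfl

theorem V_EL [Countable Γ] [μ.IsMulLeftInvariant] (hF : Frm ρ V ω) (v : Λ) (a : SM ι κ ρ V ω μ)
    (ζ : K) : (V v).compLpL 2 μ (EL hM a ζ) = EL hM (cjS hF v a) (V v ζ) := by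
  refine Lp.ext ?_
  filter_upwards [coeFn_compLpL (V v) (EL hM a ζ), EL_ae (hM := hM) (cjS hF v a) (V v ζ),
    EL_ae (hM := hM) a ζ] with x h1 h2 h3
  rw [h1, h2, h3]
  change V v (a.1 x ζ) = V v (a.1 x (V v⁻¹ (V v ζ)))
  rw [hF.inv_apply]

theorem rl_EL [Countable Γ] [μ.IsMulLeftInvariant] (h : RegRep ρ ω) (γ : Γ)
    (a : SM ι κ ρ V ω μ) (ζ : K) : rl ι ρ μ γ (EL hM a ζ) = EL hM a (ρ γ ζ) := by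
  refine Lp.ext ?_
  filter_upwards [rl_ae ι ρ γ (EL hM a ζ), EL_ae (hM := hM) a (ρ γ ζ),
    (measurePreserving_mul_left μ (ι γ)⁻¹).quasiMeasurePreserving.ae (EL_ae (hM := hM) a ζ)]
    with x h1 h2 h3
  rw [h1, h2, h3]
  have h4 := a.2.equiv γ⁻¹ x
  rw [map_inv] at h4
  rw [h4]
  change ρ γ (ρ γ⁻¹ (a.1 x (ρ γ⁻¹⁻¹ ζ))) = _
  rw [h.apply_inv, inv_inv]

end SM

section Qf

variable {Γ Λ G₁ G₂ H₁ H₂ K : Type} [Group Γ] [Countable Γ] [Group Λ] [Group G₁] [Group G₂]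
  [Group H₁] [Group H₂]
  [TopologicalSpace G₁] [IsTopologicalGroup G₁] [SecondCountableTopology G₁] [MeasurableSpace G₁]
  [BorelSpace G₁]
  [TopologicalSpace G₂] [IsTopologicalGroup G₂] [SecondCountableTopology G₂] [MeasurableSpace G₂]
  [BorelSpace G₂]
  [TopologicalSpace H₁] [IsTopologicalGroup H₁] [TopologicalSpace H₂] [IsTopologicalGroup H₂]
  [NormedAddCommGroup K] [InnerProductSpace ℂ K] [CompleteSpace K]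

/-- The properties of the form `Θ b a' a` (conjugate linear in `a'`, linear in `a`). -/
structure ThP (ι₁ : Γ →* G₁) (ι₂ : Γ →* G₂) (κ₁ : Λ →* H₁) (κ₂ : Λ →* H₂)
    (ρ : Γ →* (K →L[ℂ] K)) (V : Λ →* (K →L[ℂ] K)) (ω : K) (μ₁ : Measure G₁) (μ₂ : Measure G₂)
    (Θ : (G₂ → K →L[ℂ] K) → (G₁ → K →L[ℂ] K) → (G₁ → K →L[ℂ] K) → ℂ) : Prop where
  le : ∀ b a' a, Smo ι₂ κ₂ ρ V ω μ₂ b → Smo ι₁ κ₁ ρ V ω μ₁ a' → Smo ι₁ κ₁ ρ V ω μ₁ a →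
    ‖Θ b a' a‖ ≤ (nsq ω μ₂ b).toReal * √(nsq ω μ₁ a').toReal * √(nsq ω μ₁ a).toReal
  add : ∀ b a' a₁ a₂, Smo ι₂ κ₂ ρ V ω μ₂ b → Smo ι₁ κ₁ ρ V ω μ₁ a' → Smo ι₁ κ₁ ρ V ω μ₁ a₁ →
    Smo ι₁ κ₁ ρ V ω μ₁ a₂ → Θ b a' (fun x => a₁ x + a₂ x) = Θ b a' a₁ + Θ b a' a₂
  smul : ∀ (c : ℂ) b a' a, Smo ι₂ κ₂ ρ V ω μ₂ b → Smo ι₁ κ₁ ρ V ω μ₁ a' →
    Smo ι₁ κ₁ ρ V ω μ₁ a → Θ b a' (fun x => c • a x) = c * Θ b a' a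
  add' : ∀ b a₁ a₂ a, Smo ι₂ κ₂ ρ V ω μ₂ b → Smo ι₁ κ₁ ρ V ω μ₁ a₁ → Smo ι₁ κ₁ ρ V ω μ₁ a₂ →
    Smo ι₁ κ₁ ρ V ω μ₁ a → Θ b (fun x => a₁ x + a₂ x) a = Θ b a₁ a + Θ b a₂ a
  smul' : ∀ (c : ℂ) b a' a, Smo ι₂ κ₂ ρ V ω μ₂ b → Smo ι₁ κ₁ ρ V ω μ₁ a' →
    Smo ι₁ κ₁ ρ V ω μ₁ a → Θ b (fun x => c • a' x) a = conj c * Θ b a' a
  rt : ∀ b a' a, Smo ι₂ κ₂ ρ V ω μ₂ b → Smo ι₁ κ₁ ρ V ω μ₁ a' → Smo ι₁ κ₁ ρ V ω μ₁ a →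
    ∀ z, Θ b (fun x => a' (x * z)) (fun x => a (x * z)) = Θ b a' a
  cj : ∀ b a' a, Smo ι₂ κ₂ ρ V ω μ₂ b → Smo ι₁ κ₁ ρ V ω μ₁ a' → Smo ι₁ κ₁ ρ V ω μ₁ a →
    ∀ v, Θ (cj V v b) (cj V v a') (cj V v a) = Θ b a' a
  cont : ∀ b a' a, Smo ι₂ κ₂ ρ V ω μ₂ b → Smo ι₁ κ₁ ρ V ω μ₁ a' → Smo ι₁ κ₁ ρ V ω μ₁ a →
    Continuous fun h : H₁ × H₂ => Θ (al κ₂ V h.2 b) (al κ₁ V h.1 a') (al κ₁ V h.1 a)

/-- The integrand of `q`. -/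
noncomputable def FF (κ₁ : Λ →* H₁) (κ₂ : Λ →* H₂) (V : Λ →* (K →L[ℂ] K))
    (Θ : (G₂ → K →L[ℂ] K) → (G₁ → K →L[ℂ] K) → (G₁ → K →L[ℂ] K) → ℂ) (b : G₂ → K →L[ℂ] K)
    (a' a : G₁ → K →L[ℂ] K) (h : H₁ × H₂) : ℂ :=
  Θ (al κ₂ V h.2 b) (al κ₁ V h.1 a') (al κ₁ V h.1 a)

/-- The averaged form `q(a', a)`. -/
noncomputable def qf [MeasurableSpace H₁] [MeasurableSpace H₂] (κ₁ : Λ →* H₁) (κ₂ : Λ →* H₂)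
    (V : Λ →* (K →L[ℂ] K))
    (Θ : (G₂ → K →L[ℂ] K) → (G₁ → K →L[ℂ] K) → (G₁ → K →L[ℂ] K) → ℂ) (m : Measure (H₁ × H₂))
    (b : G₂ → K →L[ℂ] K) (a' a : G₁ → K →L[ℂ] K) : ℂ :=
  ∫ h, FF κ₁ κ₂ V Θ b a' a h ∂m

variable {ι₁ : Γ →* G₁} {ι₂ : Γ →* G₂} {κ₁ : Λ →* H₁} {κ₂ : Λ →* H₂}
    {ρ : Γ →* (K →L[ℂ] K)} {V : Λ →* (K →L[ℂ] K)} {ω : K} {μ₁ : Measure G₁} {μ₂ : Measure G₂}
    {Θ : (G₂ → K →L[ℂ] K) → (G₁ → K →L[ℂ] K) → (G₁ → K →L[ℂ] K) → ℂ}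
    [μ₁.IsMulLeftInvariant] [μ₂.IsMulLeftInvariant]
    {b : G₂ → K →L[ℂ] K} {a' a a₁ a₂ : G₁ → K →L[ℂ] K}

section
variable (hF : Frm ρ V ω) (hd₁ : DenseRange κ₁) (hd₂ : DenseRange κ₂)
  (hΘ : ThP ι₁ ι₂ κ₁ κ₂ ρ V ω μ₁ μ₂ Θ)
include hF hd₁ hd₂ hΘ

theorem FF_le (hb : Smo ι₂ κ₂ ρ V ω μ₂ b) (ha' : Smo ι₁ κ₁ ρ V ω μ₁ a')
    (ha : Smo ι₁ κ₁ ρ V ω μ₁ a) (h : H₁ × H₂) : ‖FF κ₁ κ₂ V Θ b a' a h‖ ≤
      (nsq ω μ₂ b).toReal * √(nsq ω μ₁ a').toReal * √(nsq ω μ₁ a).toReal := by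
  have h1 := hΘ.le _ _ _ (smo_al hF hd₂ hb h.2) (smo_al hF hd₁ ha' h.1) (smo_al hF hd₁ ha h.1)
  have e1 : nsq ω μ₂ (al κ₂ V h.2 b) = nsq ω μ₂ b := lintegral_al hF hd₂ hb.toFd hb.acont h.2
  have e2 : nsq ω μ₁ (al κ₁ V h.1 a') = nsq ω μ₁ a' := lintegral_al hF hd₁ ha'.toFd ha'.acont h.1
  have e3 : nsq ω μ₁ (al κ₁ V h.1 a) = nsq ω μ₁ a := lintegral_al hF hd₁ ha.toFd ha.acont h.1
  rwa [e1, e2, e3] at h1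

theorem FF_inv (hb : Smo ι₂ κ₂ ρ V ω μ₂ b) (ha' : Smo ι₁ κ₁ ρ V ω μ₁ a')
    (ha : Smo ι₁ κ₁ ρ V ω μ₁ a) (v : Λ) (h : H₁ × H₂) :
    FF κ₁ κ₂ V Θ b a' a ((κ₁.prod κ₂) v * h) = FF κ₁ κ₂ V Θ b a' a h := by
  have e1 : al κ₂ V (κ₂ v * h.2) b = cj V v (al κ₂ V h.2 b) := funext fun x => by
    rw [← al_al hF hd₂ hb.acont, al_coe hF hd₂ (acont_al hF hd₂ hb.acont h.2)]
  have e2 : ∀ {c : G₁ → K →L[ℂ] K}, Smo ι₁ κ₁ ρ V ω μ₁ c →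
      al κ₁ V (κ₁ v * h.1) c = cj V v (al κ₁ V h.1 c) := fun hc => funext fun x => by
    rw [← al_al hF hd₁ hc.acont, al_coe hF hd₁ (acont_al hF hd₁ hc.acont h.1)]
  change Θ (al κ₂ V (κ₂ v * h.2) b) (al κ₁ V (κ₁ v * h.1) a') (al κ₁ V (κ₁ v * h.1) a) = _
  rw [e1, e2 ha', e2 ha]
  exact hΘ.cj _ _ _ (smo_al hF hd₂ hb h.2) (smo_al hF hd₁ ha' h.1) (smo_al hF hd₁ ha h.1) v

theorem FF_add (hb : Smo ι₂ κ₂ ρ V ω μ₂ b) (ha' : Smo ι₁ κ₁ ρ V ω μ₁ a')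
    (h1 : Smo ι₁ κ₁ ρ V ω μ₁ a₁) (h2 : Smo ι₁ κ₁ ρ V ω μ₁ a₂) (h : H₁ × H₂) :
    FF κ₁ κ₂ V Θ b a' (fun x => a₁ x + a₂ x) h =
      FF κ₁ κ₂ V Θ b a' a₁ h + FF κ₁ κ₂ V Θ b a' a₂ h := by
  have e : al κ₁ V h.1 (fun x => a₁ x + a₂ x) = fun x => al κ₁ V h.1 a₁ x + al κ₁ V h.1 a₂ x :=
    funext fun x => al_add hF hd₁ h1.acont h2.acont h.1 x
  rw [FF, e]
  exact hΘ.add _ _ _ _ (smo_al hF hd₂ hb h.2) (smo_al hF hd₁ ha' h.1) (smo_al hF hd₁ h1 h.1)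
    (smo_al hF hd₁ h2 h.1)

theorem FF_smul (c : ℂ) (hb : Smo ι₂ κ₂ ρ V ω μ₂ b) (ha' : Smo ι₁ κ₁ ρ V ω μ₁ a')
    (ha : Smo ι₁ κ₁ ρ V ω μ₁ a) (h : H₁ × H₂) :
    FF κ₁ κ₂ V Θ b a' (fun x => c • a x) h = c * FF κ₁ κ₂ V Θ b a' a h := by
  have e : al κ₁ V h.1 (fun x => c • a x) = fun x => c • al κ₁ V h.1 a x :=
    funext fun x => al_smul hF hd₁ ha.acont c h.1 x
  rw [FF, e]
  exact hΘ.smul _ _ _ _ (smo_al hF hd₂ hb h.2) (smo_al hF hd₁ ha' h.1) (smo_al hF hd₁ ha h.1)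

theorem FF_add' (hb : Smo ι₂ κ₂ ρ V ω μ₂ b) (ha : Smo ι₁ κ₁ ρ V ω μ₁ a)
    (h1 : Smo ι₁ κ₁ ρ V ω μ₁ a₁) (h2 : Smo ι₁ κ₁ ρ V ω μ₁ a₂) (h : H₁ × H₂) :
    FF κ₁ κ₂ V Θ b (fun x => a₁ x + a₂ x) a h =
      FF κ₁ κ₂ V Θ b a₁ a h + FF κ₁ κ₂ V Θ b a₂ a h := by
  have e : al κ₁ V h.1 (fun x => a₁ x + a₂ x) = fun x => al κ₁ V h.1 a₁ x + al κ₁ V h.1 a₂ x :=
    funext fun x => al_add hF hd₁ h1.acont h2.acont h.1 x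
  rw [FF, e]
  exact hΘ.add' _ _ _ _ (smo_al hF hd₂ hb h.2) (smo_al hF hd₁ h1 h.1) (smo_al hF hd₁ h2 h.1)
    (smo_al hF hd₁ ha h.1)

theorem FF_smul' (c : ℂ) (hb : Smo ι₂ κ₂ ρ V ω μ₂ b) (ha' : Smo ι₁ κ₁ ρ V ω μ₁ a')
    (ha : Smo ι₁ κ₁ ρ V ω μ₁ a) (h : H₁ × H₂) :
    FF κ₁ κ₂ V Θ b (fun x => c • a' x) a h = conj c * FF κ₁ κ₂ V Θ b a' a h := by
  have e : al κ₁ V h.1 (fun x => c • a' x) = fun x => c • al κ₁ V h.1 a' x :=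
    funext fun x => al_smul hF hd₁ ha'.acont c h.1 x
  rw [FF, e]
  exact hΘ.smul' _ _ _ _ (smo_al hF hd₂ hb h.2) (smo_al hF hd₁ ha' h.1) (smo_al hF hd₁ ha h.1)

theorem FF_rt [μ₁.IsMulRightInvariant] (hb : Smo ι₂ κ₂ ρ V ω μ₂ b)
    (ha' : Smo ι₁ κ₁ ρ V ω μ₁ a') (ha : Smo ι₁ κ₁ ρ V ω μ₁ a) (z : G₁) (h : H₁ × H₂) :
    FF κ₁ κ₂ V Θ b (fun x => a' (x * z)) (fun x => a (x * z)) h = FF κ₁ κ₂ V Θ b a' a h :=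
  hΘ.rt _ _ _ (smo_al hF hd₂ hb h.2) (smo_al hF hd₁ ha' h.1) (smo_al hF hd₁ ha h.1) z

theorem FF_al (hb : Smo ι₂ κ₂ ρ V ω μ₂ b) (ha' : Smo ι₁ κ₁ ρ V ω μ₁ a')
    (ha : Smo ι₁ κ₁ ρ V ω μ₁ a) (k : H₁) (h : H₁ × H₂) :
    FF κ₁ κ₂ V Θ b (al κ₁ V k a') (al κ₁ V k a) h = FF κ₁ κ₂ V Θ b a' a (h * (k, 1)) := by
  have e2 : ∀ {c : G₁ → K →L[ℂ] K}, Smo ι₁ κ₁ ρ V ω μ₁ c →
      al κ₁ V h.1 (al κ₁ V k c) = al κ₁ V (h.1 * k) c := fun hc => funext fun x =>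
    al_al hF hd₁ hc.acont _ _ x
  change Θ (al κ₂ V h.2 b) (al κ₁ V h.1 (al κ₁ V k a')) (al κ₁ V h.1 (al κ₁ V k a)) =
    Θ (al κ₂ V (h.2 * 1) b) (al κ₁ V (h.1 * k) a') (al κ₁ V (h.1 * k) a)
  rw [e2 ha', e2 ha, mul_one]

variable [SecondCountableTopology H₁] [MeasurableSpace H₁] [BorelSpace H₁]
  [SecondCountableTopology H₂] [MeasurableSpace H₂] [BorelSpace H₂] {m : Measure (H₁ × H₂)}
  (hm : PA.Lat (κ₁.prod κ₂) m)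
include hm

theorem FF_int (hb : Smo ι₂ κ₂ ρ V ω μ₂ b) (ha' : Smo ι₁ κ₁ ρ V ω μ₁ a')
    (ha : Smo ι₁ κ₁ ρ V ω μ₁ a) : Integrable (FF κ₁ κ₂ V Θ b a' a) m := by
  have := hm.prob
  exact Integrable.of_bound (hΘ.cont b a' a hb ha' ha).aestronglyMeasurable _
    (Eventually.of_forall fun h => FF_le hF hd₁ hd₂ hΘ hb ha' ha h)

theorem qf_le (hb : Smo ι₂ κ₂ ρ V ω μ₂ b) (ha' : Smo ι₁ κ₁ ρ V ω μ₁ a')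
    (ha : Smo ι₁ κ₁ ρ V ω μ₁ a) : ‖qf κ₁ κ₂ V Θ m b a' a‖ ≤
      (nsq ω μ₂ b).toReal * √(nsq ω μ₁ a').toReal * √(nsq ω μ₁ a).toReal := by
  have := hm.prob
  have h1 := norm_integral_le_of_norm_le_const (μ := m)
    (Eventually.of_forall fun h => FF_le hF hd₁ hd₂ hΘ hb ha' ha h)
  rw [probReal_univ, mul_one] at h1
  exact h1

theorem qf_add (hb : Smo ι₂ κ₂ ρ V ω μ₂ b) (ha' : Smo ι₁ κ₁ ρ V ω μ₁ a')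
    (h1 : Smo ι₁ κ₁ ρ V ω μ₁ a₁) (h2 : Smo ι₁ κ₁ ρ V ω μ₁ a₂) :
    qf κ₁ κ₂ V Θ m b a' (fun x => a₁ x + a₂ x) =
      qf κ₁ κ₂ V Θ m b a' a₁ + qf κ₁ κ₂ V Θ m b a' a₂ := by
  rw [qf, qf, qf, ← integral_add (FF_int hF hd₁ hd₂ hΘ hm hb ha' h1)
    (FF_int hF hd₁ hd₂ hΘ hm hb ha' h2)]
  exact integral_congr_ae (Eventually.of_forall fun h => FF_add hF hd₁ hd₂ hΘ hb ha' h1 h2 h)

theorem qf_add' (hb : Smo ι₂ κ₂ ρ V ω μ₂ b) (ha : Smo ι₁ κ₁ ρ V ω μ₁ a)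
    (h1 : Smo ι₁ κ₁ ρ V ω μ₁ a₁) (h2 : Smo ι₁ κ₁ ρ V ω μ₁ a₂) :
    qf κ₁ κ₂ V Θ m b (fun x => a₁ x + a₂ x) a =
      qf κ₁ κ₂ V Θ m b a₁ a + qf κ₁ κ₂ V Θ m b a₂ a := by
  rw [qf, qf, qf, ← integral_add (FF_int hF hd₁ hd₂ hΘ hm hb h1 ha)
    (FF_int hF hd₁ hd₂ hΘ hm hb h2 ha)]
  exact integral_congr_ae (Eventually.of_forall fun h => FF_add' hF hd₁ hd₂ hΘ hb ha h1 h2 h)

omit [SecondCountableTopology H₁] [BorelSpace H₁] [SecondCountableTopology H₂] [BorelSpace H₂] hm in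
theorem qf_smul (c : ℂ) (hb : Smo ι₂ κ₂ ρ V ω μ₂ b) (ha' : Smo ι₁ κ₁ ρ V ω μ₁ a')
    (ha : Smo ι₁ κ₁ ρ V ω μ₁ a) :
    qf κ₁ κ₂ V Θ m b a' (fun x => c • a x) = c * qf κ₁ κ₂ V Θ m b a' a := by
  rw [qf, qf, ← integral_const_mul]
  exact integral_congr_ae (Eventually.of_forall fun h => FF_smul hF hd₁ hd₂ hΘ c hb ha' ha h)

omit [SecondCountableTopology H₁] [BorelSpace H₁] [SecondCountableTopology H₂] [BorelSpace H₂] hm in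
theorem qf_smul' (c : ℂ) (hb : Smo ι₂ κ₂ ρ V ω μ₂ b) (ha' : Smo ι₁ κ₁ ρ V ω μ₁ a')
    (ha : Smo ι₁ κ₁ ρ V ω μ₁ a) :
    qf κ₁ κ₂ V Θ m b (fun x => c • a' x) a = conj c * qf κ₁ κ₂ V Θ m b a' a := by
  rw [qf, qf, ← integral_const_mul]
  exact integral_congr_ae (Eventually.of_forall fun h => FF_smul' hF hd₁ hd₂ hΘ c hb ha' ha h)

omit [SecondCountableTopology H₁] [BorelSpace H₁] [SecondCountableTopology H₂] [BorelSpace H₂] hm in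
theorem qf_rt [μ₁.IsMulRightInvariant] (hb : Smo ι₂ κ₂ ρ V ω μ₂ b)
    (ha' : Smo ι₁ κ₁ ρ V ω μ₁ a') (ha : Smo ι₁ κ₁ ρ V ω μ₁ a) (z : G₁) :
    qf κ₁ κ₂ V Θ m b (fun x => a' (x * z)) (fun x => a (x * z)) = qf κ₁ κ₂ V Θ m b a' a :=
  integral_congr_ae (Eventually.of_forall fun h => FF_rt hF hd₁ hd₂ hΘ hb ha' ha z h)

theorem qf_al (hb : Smo ι₂ κ₂ ρ V ω μ₂ b) (ha' : Smo ι₁ κ₁ ρ V ω μ₁ a')
    (ha : Smo ι₁ κ₁ ρ V ω μ₁ a) (k : H₁) :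
    qf κ₁ κ₂ V Θ m b (al κ₁ V k a') (al κ₁ V k a) = qf κ₁ κ₂ V Θ m b a' a := by
  have h1 := hm.inv (FF κ₁ κ₂ V Θ b a' a) (hΘ.cont b a' a hb ha' ha)
    ⟨_, fun h => FF_le hF hd₁ hd₂ hΘ hb ha' ha h⟩ (fun v h => FF_inv hF hd₁ hd₂ hΘ hb ha' ha v h)
    (k, 1)
  rw [qf, qf, ← h1]
  exact integral_congr_ae (Eventually.of_forall fun h => FF_al hF hd₁ hd₂ hΘ hb ha' ha k h)

theorem qf_cj (hb : Smo ι₂ κ₂ ρ V ω μ₂ b) (ha' : Smo ι₁ κ₁ ρ V ω μ₁ a')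
    (ha : Smo ι₁ κ₁ ρ V ω μ₁ a) (v : Λ) :
    qf κ₁ κ₂ V Θ m b (cj V v a') (cj V v a) = qf κ₁ κ₂ V Θ m b a' a := by
  have e2 : ∀ {c : G₁ → K →L[ℂ] K}, Smo ι₁ κ₁ ρ V ω μ₁ c →
      cj V v c = al κ₁ V (κ₁ v) c := fun hc => funext fun x =>
    (al_coe hF hd₁ hc.acont v x).symm
  rw [e2 ha', e2 ha]
  exact qf_al hF hd₁ hd₂ hΘ hm hb ha' ha _

/-- **The operator `S̃`.** -/
theorem exists_S [μ₁.IsMulRightInvariant]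
    (hM : ∀ a : SM ι₁ κ₁ ρ V ω μ₁, ∀ ζ : K, MemLp (fun x => a.1 x ζ) 2 μ₁)
    (hF1 : ∀ a b, Smo ι₁ κ₁ ρ V ω μ₁ a → Smo ι₁ κ₁ ρ V ω μ₁ b → ∀ ζ η : K,
      ∫ x, ⟪a x ζ, b x η⟫_ℂ ∂μ₁ = ip ω μ₁ a b * ⟪ζ, η⟫_ℂ)
    (htot : ∀ ξ : Lp K 2 μ₁, (∀ a, Smo ι₁ κ₁ ρ V ω μ₁ a → ∀ ζ : K,
      ∫ x, ⟪a x ζ, ξ x⟫_ℂ ∂μ₁ = 0) → ξ = 0)
    (hb : Smo ι₂ κ₂ ρ V ω μ₂ b) :
    ∃ S : Lp K 2 μ₁ →L[ℂ] Lp K 2 μ₁,
      (∀ a' a : SM ι₁ κ₁ ρ V ω μ₁, ∀ ζ' ζ : K, ⟪EL hM a' ζ', S (EL hM a ζ)⟫_ℂ =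
        qf κ₁ κ₂ V Θ m b a'.1 a.1 * ⟪ζ', ζ⟫_ℂ) ∧
      ‖S‖ ≤ (nsq ω μ₂ b).toReal ∧
      (∀ v ξ, S ((V v).compLpL 2 μ₁ ξ) = (V v).compLpL 2 μ₁ (S ξ)) ∧
      (∀ z ξ, S (tr μ₁ z ξ) = tr μ₁ z (S ξ)) ∧
      (∀ γ ξ, S (rl ι₁ ρ μ₁ γ ξ) = rl ι₁ ρ μ₁ γ (S ξ)) := by
  have hn : ∀ a : SM ι₁ κ₁ ρ V ω μ₁, √(nsq ω μ₁ a.1).toReal = ‖EL hM a ω‖ := by
    intro a
    have h1 : nsq ω μ₁ a.1 = ENNReal.ofReal (‖EL hM a ω‖ ^ 2) := by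
      rw [H325.norm_sq_Lp]
      refine lintegral_congr_ae ?_
      filter_upwards [EL_ae (hM := hM) a ω] with x hx
      rw [hx]
    rw [h1, ENNReal.toReal_ofReal (by positivity), Real.sqrt_sq (norm_nonneg _)]
  have hω : ⟪ω, ω⟫_ℂ = 1 := by
    rw [inner_self_eq_norm_sq_to_K, hF.norm_omega]
    simp
  have hE : ∀ a' a : SM ι₁ κ₁ ρ V ω μ₁, ∀ ζ' ζ : K, ⟪EL hM a' ζ', EL hM a ζ⟫_ℂ =
      ⟪EL hM a' ω, EL hM a ω⟫_ℂ * ⟪ζ', ζ⟫_ℂ := by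
    intro a' a ζ' ζ
    rw [inner_EL_EL, inner_EL_EL, hF1 _ _ a'.2 a.2, hF1 _ _ a'.2 a.2 ω ω, hω, mul_one]
  obtain ⟨S, hS, hSn⟩ := exists_tensor hF.reg.basis ω (EL hM) hE
    (fun a' a => qf κ₁ κ₂ V Θ m b a'.1 a.1)
    (fun a b c => qf_add hF hd₁ hd₂ hΘ hm hb a.2 b.2 c.2)
    (fun c a b => qf_smul hF hd₁ hd₂ hΘ c hb a.2 b.2)
    (fun a b c => qf_add' hF hd₁ hd₂ hΘ hm hb c.2 a.2 b.2)
    (fun c a b => qf_smul' hF hd₁ hd₂ hΘ c hb a.2 b.2)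
    (nsq ω μ₂ b).toReal ENNReal.toReal_nonneg
    (fun a' a => by
      have h1 := qf_le hF hd₁ hd₂ hΘ hm hb a'.2 a.2
      rwa [hn, hn] at h1)
  have htot' : ∀ ξ : Lp K 2 μ₁, (∀ a ζ, ⟪EL hM a ζ, ξ⟫_ℂ = 0) → ξ = 0 := by
    intro ξ hξ
    refine htot ξ fun a ha ζ => ?_
    have := hξ ⟨a, ha⟩ ζ
    rwa [inner_EL] at this
  refine ⟨S, hS, hSn, fun v ξ => ?_, fun z ξ => ?_, fun γ ξ => ?_⟩
  · refine comm_of_equiv (fun a ζ => EL hM a ζ) _ S hS htot' ((V v).compLpL 2 μ₁) ?_ (cjS hF v)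
      (V v) (cjS_surj hF v) (fun w => ⟨V v⁻¹ w, hF.apply_inv v w⟩) (fun a ζ => V_EL hF v a ζ) ?_ ?_ ξ
    · intro ξ
      refine le_antisymm ?_ ?_
      · refine Lp.norm_le_norm_of_ae_le ?_
        filter_upwards [coeFn_compLpL (V v) ξ] with x hx
        rw [hx, hF.norm_map]
      · refine Lp.norm_le_norm_of_ae_le ?_
        filter_upwards [coeFn_compLpL (V v) ξ] with x hx
        rw [hx, hF.norm_map]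
    · intro ζ' ζ
      rw [hF.inner_left, hF.inv_apply]
    · intro a' a
      exact qf_cj hF hd₁ hd₂ hΘ hm hb a'.2 a.2 v
  · refine comm_of_equiv (fun a ζ => EL hM a ζ) _ S hS htot' (tr μ₁ z) (norm_tr μ₁ z) (rtS z)
      id (rtS_surj z) Function.surjective_id (fun a ζ => tr_EL z a ζ) (fun ζ' ζ => rfl) ?_ ξ
    intro a' a
    exact qf_rt hF hd₁ hd₂ hΘ hb a'.2 a.2 z
  · refine comm_of_equiv (fun a ζ => EL hM a ζ) _ S hS htot' (rl ι₁ ρ μ₁ γ)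
      (Vale.Agent.P092.H132.norm_rl hF.reg ι₁ γ) id
      (ρ γ) Function.surjective_id (fun w => ⟨ρ γ⁻¹ w, hF.reg.apply_inv γ w⟩)
      (fun a ζ => rl_EL hF.reg γ a ζ) (fun ζ' ζ => hF.reg.inner_map γ ζ' ζ) (fun a' a => rfl) ξ

end

end Qf

end Vale.Agent.P092.H76
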