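import Vale.Agent.P092.H76.Com
import Vale.Agent.P092.H175.MatchB

/-!
P092 (helper76), team A, block [VALUE]: the value of the constant from the Tonelli identity.
-/

set_option linter.all false

open MeasureTheory Filter Topology ContinuousLinearMap
open scoped InnerProductSpace ENNReal
open Vale.Agent.P092.H160 Vale.Agent.P092.H156.Sm Vale.Agent.P092.H650
open Vale.Agent.P092.H221 (T4)

namespace Vale.Agent.P092.H76

variable {Γ Λ G H K : Type} [Group Γ] [Countable Γ] [Group Λ]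
  [NormedAddCommGroup K] [InnerProductSpace ℂ K] [CompleteSpace K]
  [Group G] [TopologicalSpace G] [IsTopologicalGroup G] [SecondCountableTopology G]
  [MeasurableSpace G] [BorelSpace G]
  [Group H] [TopologicalSpace H] [IsTopologicalGroup H]
  {ρ : Γ →* (K →L[ℂ] K)} {V : Λ →* (K →L[ℂ] K)} {ω : K} {ι : Γ →* G}
  {κ : Λ →* H} {μ : Measure G} [μ.IsMulLeftInvariant] [SFinite μ] {a c : G → K →L[ℂ] K}

theorem lint_ca (t₁ : T4 ι κ ρ V ω μ) (hc : Smo ι κ ρ V ω μ c) (ha : Smo ι κ ρ V ω μ a) :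
    ∫⁻ z, ∫⁻ x, ‖c (x * z) (a x ω)‖ₑ ^ 2 ∂μ ∂μ = nsq ω μ c * nsq ω μ a := by
  have hcont : Continuous fun q : G × G => c (q.2 * q.1) (a q.2 ω) := by
    have h1 : Continuous fun q : G × G => c (q.2 * q.1) :=
      hc.toFd.continuous.comp (f := fun q : G × G => q.2 * q.1) (by fun_prop)
    have h2 : Continuous fun q : G × G => a q.2 := ha.toFd.continuous.comp continuous_snd
    exact h1.clm_apply (h2.clm_apply continuous_const)
  have hm : Measurable fun q : G × G => ‖c (q.2 * q.1) (a q.2 ω)‖ₑ ^ 2 :=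
    hcont.enorm.measurable.pow_const 2
  rw [lintegral_lintegral_swap hm.aemeasurable]
  have h1 : ∀ x, ∫⁻ z, ‖c (x * z) (a x ω)‖ₑ ^ 2 ∂μ = nsq ω μ c * ‖a x ω‖ₑ ^ 2 := fun x => by
    rw [lintegral_mul_left_eq_self (fun z => ‖c z (a x ω)‖ₑ ^ 2) x]
    exact t₁ c hc (a x ω)
  simp only [h1]
  rw [lintegral_const_mul _ ((ha.toFd.continuous_apply ω).enorm.measurable.pow_const 2)]
  rfl

/-- **[VALUE].** -/
theorem value [μ.IsMulRightInvariant] (h : Frm ρ V ω) (t₁ : T4 ι κ ρ V ω μ)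
    (hc : Smo ι κ ρ V ω μ c) (ha : Smo ι κ ρ V ω μ a) (hc0 : nsq ω μ c ≠ 0)
    (ha0 : nsq ω μ a ≠ 0) {t : ℝ} (ht0 : 0 ≤ t) {B : ℝ≥0∞}
    (hton : ∫⁻ z, ‖(t : ℂ) * ip ω μ (fun x => adjoint (c (x * z)) * c (x * z))
      (fun x => a x * adjoint (a x))‖ₑ ∂μ = B * (nsq ω μ c * nsq ω μ a)) : t = B.toReal := by
  have h1 : ∀ z, ‖(t : ℂ) * ip ω μ (fun x => adjoint (c (x * z)) * c (x * z))
      (fun x => a x * adjoint (a x))‖ₑ = ENNReal.ofReal t *
      ∫⁻ x, ‖c (x * z) (a x ω)‖ₑ ^ 2 ∂μ := by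
    intro z
    have hcz := smo_rt hc z
    have e1 := H175.ip_prod (μ := μ) h hcz.toFd ha.toFd hcz.l2 ha.l2
    have hca := smo_mul h hcz ha
    have e2 : nsq ω μ (fun x => adjoint (a x) * adjoint (c (x * z))) =
        nsq ω μ (fun x => c (x * z) * a x) := by
      have e3 := nsq_adj (μ := μ) h.reg hca.continuous hca.equiv
      rw [← e3]
      congr 1
      funext x
      change _ = star (c (x * z) * a x)
      rw [star_mul]
      rfl
    rw [e1, e2, ← Complex.ofReal_mul, ← ofReal_norm, Complex.norm_real, Real.norm_of_nonneg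
      (mul_nonneg ht0 ENNReal.toReal_nonneg), ENNReal.ofReal_mul ht0,
      ENNReal.ofReal_toReal (nsq_lt_top hca.l2).ne]
    rfl
  simp only [h1] at hton
  have hm : Measurable fun z => ∫⁻ x, ‖c (x * z) (a x ω)‖ₑ ^ 2 ∂μ := by
    have hcont : Continuous fun q : G × G => c (q.2 * q.1) (a q.2 ω) := by
      have h1 : Continuous fun q : G × G => c (q.2 * q.1) :=
        hc.toFd.continuous.comp (f := fun q : G × G => q.2 * q.1) (by fun_prop)
      have h2 : Continuous fun q : G × G => a q.2 := ha.toFd.continuous.comp continuous_snd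
      exact h1.clm_apply (h2.clm_apply continuous_const)
    have hm' : Measurable fun q : G × G => ‖c (q.2 * q.1) (a q.2 ω)‖ₑ ^ 2 :=
      hcont.enorm.measurable.pow_const 2
    exact hm'.lintegral_prod_right'
  rw [lintegral_const_mul _ hm, lint_ca t₁ hc ha] at hton
  have hne : nsq ω μ c * nsq ω μ a ≠ 0 := mul_ne_zero hc0 ha0
  have hnt : nsq ω μ c * nsq ω μ a ≠ ∞ :=
    ENNReal.mul_ne_top (nsq_lt_top hc.l2).ne (nsq_lt_top ha.l2).ne
  have h2 : ENNReal.ofReal t = B := (ENNReal.mul_left_inj hne hnt).1 hton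
  rw [← h2, ENNReal.toReal_ofReal ht0]

end Vale.Agent.P092.H76
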